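import Vale.Agent.P095G.Defs

namespace Vale.Agent.P095G

open Vale.Agent.P095

universe u v

section

variable {B : Type u} [CStarAlgebra B] {D : ℕ → Set B}

/-- ZB. -/
theorem mem_Zc {I : Finset ℕ} {z : B} :
    z ∈ Zc D I ↔ ∀ i ∈ I, ∀ a ∈ D i, a * z = z * a ∧ star a * z = z * star a := by
  unfold Zc
  rw [StarSubalgebra.mem_centralizer_iff]
  simp only [Set.mem_iUnion, exists_prop]
  constructor
  · intro h i hi a ha
    exact h a ⟨i, hi, ha⟩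
  · rintro h a ⟨i, hi, ha⟩
    exact h i hi a ha

theorem Zc_anti {I J : Finset ℕ} (h : I ⊆ J) {z : B} (hz : z ∈ Zc D J) : z ∈ Zc D I := by
  rw [mem_Zc] at hz ⊢
  exact fun i hi => hz i (h hi)

/-- elements of the bicommutant of block `I` are in the commutant of a disjoint block `J` -/
theorem mem_Zc_of_disj (hD : ComFam D) {I J : Finset ℕ} (hIJ : Disjoint I J) {x : B}
    (hx : ∀ z ∈ Zc D I, z * x = x * z) : x ∈ Zc D J := by
  have key : ∀ j ∈ J, ∀ b ∈ D j, b ∈ Zc D I := by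
    intro j hj b hb
    rw [mem_Zc]
    intro i hi a ha
    have hij : i ≠ j := by
      rintro rfl
      exact (Finset.disjoint_left.mp hIJ) hi hj
    exact hD i j hij a ha b hb
  rw [mem_Zc]
  intro j hj b hb
  exact ⟨hx b (key j hj b hb), hx (star b) (star_mem (key j hj b hb))⟩

theorem good_mem (hD : ComFam D) {I J : Finset ℕ} (hIJ : Disjoint I J) {R c : ℝ} {x : B}
    (hx : Good D R c I x) : x ∈ Zc D J := by
  exact mem_Zc_of_disj hD hIJ hx.cent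

/-- monotone: a bicommutant element of `I` is a bicommutant element of `J ⊇ I` -/
theorem cent_mono {I J : Finset ℕ} (h : I ⊆ J) {x : B} (hx : ∀ z ∈ Zc D I, z * x = x * z) :
    ∀ z ∈ Zc D J, z * x = x * z := by
  intro z hz
  exact hx z (Zc_anti h hz)

theorem Good.mono {R R' c c' : ℝ} {I : Finset ℕ} {x : B} (h : Good D R c I x) (hR : R ≤ R')
    (hc : c' ≤ c) : Good D R' c' I x := by
  refine ⟨h.sa, h.norm.trans hR, h.cent, h.mean, ?_⟩
  intro τ hτ w hw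
  have h1 := h.var τ hτ w hw
  have h2 : 0 ≤ N2 τ w := hτ.pos w
  have h3 : c' * N2 τ w ≤ c * N2 τ w := mul_le_mul_of_nonneg_right hc h2
  exact h3.trans h1

variable {G : Type v} [Group G] {β : G → (B →⋆ₐ[ℂ] B)}

theorem ZB_inv (hβ : IsAct β) (g : G) (x : B) : β g (β g⁻¹ x) = x := by
  rw [← hβ.mul, mul_inv_cancel, hβ.one]

theorem act_Zc (hβ : IsAct β) (hinv : ∀ g i, ∀ a ∈ D i, β g a ∈ D i) (g : G) {I : Finset ℕ}
    {z : B} (hz : z ∈ Zc D I) : β g z ∈ Zc D I := by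
  rw [mem_Zc] at hz ⊢
  intro i hi a ha
  have h1 := hz i hi (β g⁻¹ a) (hinv g⁻¹ i a ha)
  have h2 : β g (β g⁻¹ a) = a := ZB_inv hβ g a
  constructor
  · rw [← h2, ← map_mul, h1.1, map_mul]
  · rw [← h2, ← map_star, ← map_mul, h1.2, map_mul]

/-- `τ ∘ β g` is a trace -/
theorem tr_comp {τ : B →ₗ[ℝ] ℝ} (h : Tr τ) (f : B →⋆ₐ[ℂ] B) :
    ∃ τ' : B →ₗ[ℝ] ℝ, Tr τ' ∧ ∀ x, τ' x = τ (f x) := by
  refine ⟨τ.comp ((f : B →ₐ[ℂ] B).toLinearMap.restrictScalars ℝ), ?_, fun x => rfl⟩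
  refine ⟨fun a b => ?_, fun a => ?_, fun a => ?_⟩
  · change τ (f (a * b)) = τ (f (b * a))
    rw [map_mul f, map_mul f]
    exact h.comm _ _
  · change 0 ≤ τ (f (star a * a))
    rw [map_mul f, map_star]
    exact h.pos _
  · change τ (f (star a)) = τ (f a)
    rw [map_star]
    exact h.star _

theorem ZB_N2 {τ τ' : B →ₗ[ℝ] ℝ} {f : B →⋆ₐ[ℂ] B} (he : ∀ x, τ' x = τ (f x)) (x : B) :
    N2 τ' x = N2 τ (f x) := by
  unfold N2
  rw [he, map_mul, map_star]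

/-- `β g x` is as good as `x`: use the trace `τ ∘ β g` and `β g⁻¹ z`; `‖β g x‖ ≤ ‖x‖` -/
theorem good_act (hβ : IsAct β) (hinv : ∀ g i, ∀ a ∈ D i, β g a ∈ D i) (g : G) {R c : ℝ}
    {I : Finset ℕ} {x : B} (h : Good D R c I x) : Good D R c I (β g x) := by
  refine ⟨?_, ?_, ?_, ?_, ?_⟩
  · rw [← map_star, h.sa]
  · exact (NonUnitalStarAlgHom.norm_apply_le (β g) x).trans h.norm
  · intro z hz
    have h1 := h.cent (β g⁻¹ z) (act_Zc hβ hinv g⁻¹ hz)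
    have h2 : β g (β g⁻¹ z) = z := ZB_inv hβ g z
    calc z * β g x = β g (β g⁻¹ z * x) := by rw [map_mul, h2]
      _ = β g (x * β g⁻¹ z) := by rw [h1]
      _ = β g x * z := by rw [map_mul, h2]
  · intro τ hτ z hz
    obtain ⟨τ', hτ', he⟩ := tr_comp hτ (β g)
    have h1 := h.mean τ' hτ' (β g⁻¹ z) (act_Zc hβ hinv g⁻¹ hz)
    have h2 : β g (β g⁻¹ z) = z := ZB_inv hβ g z
    rw [he, map_mul, h2] at h1
    exact h1
  · intro τ hτ w hw
    obtain ⟨τ', hτ', he⟩ := tr_comp hτ (β g)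
    have h1 := h.var τ' hτ' (β g⁻¹ w) (act_Zc hβ hinv g⁻¹ hw)
    have h2 : β g (β g⁻¹ w) = w := ZB_inv hβ g w
    rw [ZB_N2 he, ZB_N2 he, map_mul, h2] at h1
    exact h1

/-- almost invariance of a translate: `β (g k) x` is close to `β g x` -/
theorem ai_act (hβ : IsAct β) (hinv : ∀ g i, ∀ a ∈ D i, β g a ∈ D i) (g : G) {K : Finset G}
    {ε : ℝ} {I : Finset ℕ} {x : B} (h : AI β D K ε I x) {k : G} (hk : k ∈ K)
    {τ : B →ₗ[ℝ] ℝ} (hτ : Tr τ) {w : B} (hw : w ∈ Zc D I) :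
    N2 τ ((β (g * k) x - β g x) * w) ≤ ε * N2 τ w := by
  obtain ⟨τ', hτ', he⟩ := tr_comp hτ (β g)
  have h1 := h τ' hτ' (β g⁻¹ w) (act_Zc hβ hinv g⁻¹ hw) k hk
  have h2 : β g (β g⁻¹ w) = w := ZB_inv hβ g w
  rw [ZB_N2 he, ZB_N2 he, map_mul, map_sub, h2, ← hβ.mul] at h1
  exact h1

end

end Vale.Agent.P095G
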