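import Vale.Agent.P095G.Tb
import Vale.Agent.P095G.Zb

namespace Vale.Agent.P095G

open Vale.Agent.P095

universe u v

/-- BS auxiliary: the commutation rules -/
lemma BS_comm {B : Type u} [CStarAlgebra B] {D : ℕ → Set B} {i : ℕ} {z a : B}
    (hz : z ∈ Zc D {i}) (ha : a ∈ D i) : a * z = z * a ∧ star a * z = z * star a :=
  mem_Zc.mp hz i (Finset.mem_singleton_self i) a ha

/-- BS auxiliary: the key estimate -/
lemma BS_key {B : Type u} [CStarAlgebra B] {n : ℕ} {M : ℝ} {τ : B →ₗ[ℝ] ℝ} (hτ : Tr τ)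
    {y w : B} {p p' : Fin n → B} (h1 : ∑ k, p k * y * p' k = 1) (hM : 0 ≤ M)
    (hp : ∀ k, ‖p k‖ ≤ M) (hp' : ∀ k, ‖p' k‖ ≤ M) (hw : ∀ k, p' k * w = w * p' k) :
    N2 τ w ≤ (n * M ^ 2) * (√(N2 τ w) * √(N2 τ (y * w))) := by
  have e : star w * w = ∑ k, star (star (p k) * w) * (y * w * p' k) := by
    calc star w * w = star w * (∑ k, p k * y * p' k) * w := by rw [h1, mul_one]
      _ = ∑ k, star (star (p k) * w) * (y * w * p' k) := by
        rw [Finset.mul_sum, Finset.sum_mul]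
        refine Finset.sum_congr rfl fun k _ => ?_
        rw [star_mul, star_star]
        calc star w * (p k * y * p' k) * w = star w * p k * y * (p' k * w) := by
              simp only [mul_assoc]
          _ = star w * p k * (y * w * p' k) := by rw [hw k]; simp only [mul_assoc]
  have hk : ∀ k, τ (star (star (p k) * w) * (y * w * p' k)) ≤
      M ^ 2 * (√(N2 τ w) * √(N2 τ (y * w))) := by
    intro k
    refine (le_abs_self _).trans ((tr_cs' hτ _ _).trans ?_)
    have h2 : √(N2 τ (star (p k) * w)) ≤ M * √(N2 τ w) := by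
      refine Real.sqrt_le_iff.mpr ⟨by positivity, ?_⟩
      rw [mul_pow, Real.sq_sqrt (n2_nonneg hτ w)]
      refine (n2_mul_le hτ w (star (p k))).trans ?_
      rw [norm_star]
      exact mul_le_mul_of_nonneg_right (pow_le_pow_left₀ (norm_nonneg _) (hp k) 2)
        (n2_nonneg hτ w)
    have h3 : √(N2 τ (y * w * p' k)) ≤ M * √(N2 τ (y * w)) := by
      refine Real.sqrt_le_iff.mpr ⟨by positivity, ?_⟩
      rw [mul_pow, Real.sq_sqrt (n2_nonneg hτ (y * w))]
      refine (n2_mul_le' hτ (y * w) (p' k)).trans ?_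
      exact mul_le_mul_of_nonneg_right (pow_le_pow_left₀ (norm_nonneg _) (hp' k) 2)
        (n2_nonneg hτ _)
    calc √(N2 τ (star (p k) * w)) * √(N2 τ (y * w * p' k)) ≤
        (M * √(N2 τ w)) * (M * √(N2 τ (y * w))) :=
          mul_le_mul h2 h3 (Real.sqrt_nonneg _) (by positivity)
      _ = _ := by ring
  calc N2 τ w = ∑ k, τ (star (star (p k) * w) * (y * w * p' k)) := by
        unfold N2; rw [e, map_sum]
    _ ≤ ∑ _k : Fin n, M ^ 2 * (√(N2 τ w) * √(N2 τ (y * w))) := Finset.sum_le_sum fun k _ => hk k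
    _ = _ := by rw [Finset.sum_const, Finset.card_univ, Fintype.card_fin, nsmul_eq_mul]; ring

/-- BS auxiliary: the second moment -/
lemma BS_var {B : Type u} [CStarAlgebra B] {κ : ℝ} (hκ : 0 ≤ κ) {τ : B →ₗ[ℝ] ℝ} (hτ : Tr τ)
    {y w : B} (hy : y * y = 0)
    (h : N2 τ w ≤ κ * (√(N2 τ w) * √(N2 τ (y * w)))) :
    N2 τ w ≤ (κ ^ 4 + 1) * N2 τ ((star y * y - y * star y) * w) := by
  have hw0 := n2_nonneg hτ w
  have hyw0 := n2_nonneg hτ (y * w)
  have h0 := n2_nonneg hτ ((star y * y - y * star y) * w)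
  have hyy0 := n2_nonneg hτ (star y * y * w)
  have hys : star y * star y = 0 := by rw [← star_mul, hy, star_zero]
  -- N(y*y w) ≤ N((y*y - y y*) w)
  have h1 : N2 τ (star y * y * w) ≤ N2 τ ((star y * y - y * star y) * w) := by
    have e : (star y * y - y * star y) * w = star y * y * w + (-(y * star y * w)) := by
      rw [sub_mul, sub_eq_add_neg]
    rw [e, n2_add hτ]
    have e2 : star (star y * y * w) * (-(y * star y * w)) = 0 := by
      rw [star_mul, star_mul, star_star, mul_neg]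
      have : star w * (star y * y) * (y * star y * w) = star w * star y * (y * y) * star y * w := by
        simp only [mul_assoc]
      rw [this, hy]; simp
    rw [e2, map_zero]
    have := n2_nonneg hτ (-(y * star y * w))
    linarith
  -- N(y w)^2 ≤ N(w) N(y*y w)
  have h2 : N2 τ (y * w) ^ 2 ≤ N2 τ w * N2 τ (star y * y * w) := by
    have e : N2 τ (y * w) = τ (star w * (star y * y * w)) := by
      unfold N2
      rw [star_mul]
      simp only [mul_assoc]
    have h3 := tr_cs hτ w (star y * y * w)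
    rw [← e] at h3
    exact h3
  rcases eq_or_lt_of_le hw0 with hz | hpos
  · rw [← hz]; positivity
  · have hsq : √(N2 τ w) * √(N2 τ w) = N2 τ w := Real.mul_self_sqrt hw0
    have hs0 : 0 < √(N2 τ w) := Real.sqrt_pos.mpr hpos
    have h4 : √(N2 τ w) ≤ κ * √(N2 τ (y * w)) := by
      by_contra hcon
      push Not at hcon
      have := mul_lt_mul_of_pos_left hcon hs0
      rw [hsq] at this
      have e : √(N2 τ w) * (κ * √(N2 τ (y * w))) = κ * (√(N2 τ w) * √(N2 τ (y * w))) := by ring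
      rw [e] at this
      linarith
    have h5 : N2 τ w ≤ κ ^ 2 * N2 τ (y * w) := by
      have h6 := mul_le_mul h4 h4 hs0.le (by positivity)
      rw [hsq] at h6
      calc N2 τ w ≤ κ * √(N2 τ (y * w)) * (κ * √(N2 τ (y * w))) := h6
        _ = κ ^ 2 * (√(N2 τ (y * w)) * √(N2 τ (y * w))) := by ring
        _ = κ ^ 2 * N2 τ (y * w) := by rw [Real.mul_self_sqrt hyw0]
    have h7 : N2 τ w * N2 τ w ≤ N2 τ w * (κ ^ 4 * N2 τ (star y * y * w)) := by
      calc N2 τ w * N2 τ w ≤ (κ ^ 2 * N2 τ (y * w)) * (κ ^ 2 * N2 τ (y * w)) :=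
            mul_le_mul h5 h5 hw0 (by positivity)
        _ = κ ^ 4 * N2 τ (y * w) ^ 2 := by ring
        _ ≤ κ ^ 4 * (N2 τ w * N2 τ (star y * y * w)) := by gcongr
        _ = _ := by ring
    have h8 := le_of_mul_le_mul_left h7 hpos
    calc N2 τ w ≤ κ ^ 4 * N2 τ (star y * y * w) := h8
      _ ≤ (κ ^ 4 + 1) * N2 τ ((star y * y - y * star y) * w) := by
        have h9 : κ ^ 4 * N2 τ (star y * y * w) ≤
            κ ^ 4 * N2 τ ((star y * y - y * star y) * w) := by gcongr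
        linarith

/-- BS.  `x = (y* y - y y*) / (2 M² + 1)`.  mean: `τ(z y y*) = τ(y* z y) = τ(z y* y)`.
var: `N(w) = ∑ τ(w* p_k y w p'_k) ≤ ∑ ‖p_k‖ ‖p'_k‖ √N(w) √N(yw) ≤ n M² √N(w) √N(yw)` (Cauchy-Schwarz,
`n2_mul_le`, `n2_mul_le'`), so `N(yw) ≥ N(w)/(n M²)²`; `τ(w* (y*y) w) ≤ √N(w) √N(y*y w)` so
`N(y*y w) ≥ N(yw)²/N(w)`; and `N((y*y - yy*) w) = N(y*y w) + N(yy* w)` as `y² = 0`. -/
theorem base_good (n : ℕ) (M : ℝ) : ∃ c : ℝ, 0 < c ∧ c ≤ 1 / 10 ∧
    ∀ (B : Type u) [CStarAlgebra B] (D : ℕ → Set B) (i : ℕ) (y : B) (p p' : Fin n → B),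
      y * y = 0 → ∑ k, p k * y * p' k = 1 → ‖y‖ ≤ M → (∀ k, ‖p k‖ ≤ M) → (∀ k, ‖p' k‖ ≤ M) →
      y ∈ D i → (∀ k, p k ∈ D i) → (∀ k, p' k ∈ D i) → ∃ x, Good D 1 c {i} x := by
  obtain ⟨r, hr⟩ : ∃ r : ℝ, r = 1 / (2 * M ^ 2 + 1) := ⟨_, rfl⟩
  have hr0 : 0 < r := by rw [hr]; positivity
  have hrM : r * (2 * M ^ 2) ≤ 1 := by
    rw [hr, div_mul_eq_mul_div, one_mul, div_le_one (by positivity)]; linarith
  refine ⟨min (1 / 10) (r ^ 2 / ((n * M ^ 2) ^ 4 + 1)), lt_min (by norm_num) (by positivity),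
    min_le_left _ _, ?_⟩
  intro B _ D i y p p' hy h1 hyM hp hp' hyD hpD hpD'
  have hM : 0 ≤ M := (norm_nonneg y).trans hyM
  refine ⟨r • (star y * y - y * star y), ?_, ?_, ?_, ?_, ?_⟩
  · rw [star_smul, star_sub, star_mul, star_mul, star_star]; simp
  · rw [norm_smul, Real.norm_eq_abs, abs_of_pos hr0]
    have h2 : ‖star y * y - y * star y‖ ≤ 2 * M ^ 2 := by
      refine (norm_sub_le _ _).trans ?_
      have h3 : ‖star y * y‖ ≤ M * M := by
        refine (norm_mul_le _ _).trans ?_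
        rw [norm_star]
        exact mul_le_mul hyM hyM (norm_nonneg _) hM
      have h4 : ‖y * star y‖ ≤ M * M := by
        refine (norm_mul_le _ _).trans ?_
        rw [norm_star]
        exact mul_le_mul hyM hyM (norm_nonneg _) hM
      linarith [h3, h4]
    exact (mul_le_mul_of_nonneg_left h2 hr0.le).trans hrM
  · intro z hz
    obtain ⟨c1, c2⟩ := BS_comm hz hyD
    rw [mul_smul_comm, smul_mul_assoc]
    congr 1
    rw [mul_sub, sub_mul]
    congr 1
    · rw [← mul_assoc, ← c2, mul_assoc, ← c1, mul_assoc]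
    · rw [← mul_assoc, ← c1, mul_assoc, ← c2, mul_assoc]
  · intro τ hτ z hz
    obtain ⟨c1, c2⟩ := BS_comm hz hyD
    rw [mul_smul_comm, map_smul, mul_sub, map_sub]
    have e : τ (z * (y * star y)) = τ (z * (star y * y)) := by
      rw [← mul_assoc, hτ.comm, ← mul_assoc, c2, mul_assoc]
    rw [e, sub_self, smul_zero]
  · intro τ hτ w hw
    have hκ : (0 : ℝ) ≤ n * M ^ 2 := by positivity
    have h2 := BS_key hτ h1 hM hp hp' (fun k => (BS_comm hw (hpD' k)).1)
    have h3 := BS_var hκ hτ hy h2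
    have hw0 := n2_nonneg hτ w
    rw [smul_mul_assoc, n2_smul]
    calc min (1 / 10) (r ^ 2 / ((n * M ^ 2) ^ 4 + 1)) * N2 τ w ≤
        (r ^ 2 / ((n * M ^ 2) ^ 4 + 1)) * N2 τ w :=
          mul_le_mul_of_nonneg_right (min_le_right _ _) hw0
      _ ≤ (r ^ 2 / ((n * M ^ 2) ^ 4 + 1)) *
          (((n * M ^ 2) ^ 4 + 1) * N2 τ ((star y * y - y * star y) * w)) := by gcongr
      _ = r ^ 2 * N2 τ ((star y * y - y * star y) * w) := by field_simp

end Vale.Agent.P095G
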