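import Vale.Agent.P095.Act

open scoped Pointwise

namespace Vale.Agent.P095G

open Vale.Agent.P095

universe u v

section

variable {B : Type u} [CStarAlgebra B]

/-- `τ` is the real part of a positive tracial functional -/
structure Tr (τ : B →ₗ[ℝ] ℝ) : Prop where
  comm : ∀ a b, τ (a * b) = τ (b * a)
  pos : ∀ a, 0 ≤ τ (star a * a)
  star : ∀ a, τ (Star.star a) = τ a

/-- the square of the 2-seminorm of `x` -/
noncomputable def N2 (τ : B →ₗ[ℝ] ℝ) (x : B) : ℝ := τ (star x * x)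

/-- the sets `D i` commute (with their adjoints) -/
def ComFam (D : ℕ → Set B) : Prop :=
  ∀ i j, i ≠ j → ∀ a ∈ D i, ∀ b ∈ D j, a * b = b * a ∧ star a * b = b * star a

/-- the commutant of `⋃ i ∈ I, D i` (and of the adjoints) -/
def Zc (D : ℕ → Set B) (I : Finset ℕ) : StarSubalgebra ℂ B :=
  StarSubalgebra.centralizer ℂ (⋃ i ∈ I, D i)

/-- `x` is a self-adjoint element of norm at most `R`, in the bicommutant of `⋃ i ∈ I, D i`,
with conditional mean `0` and conditional second moment at least `c`, for all traces -/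
structure Good (D : ℕ → Set B) (R c : ℝ) (I : Finset ℕ) (x : B) : Prop where
  sa : star x = x
  norm : ‖x‖ ≤ R
  cent : ∀ z ∈ Zc D I, z * x = x * z
  mean : ∀ τ, Tr τ → ∀ z ∈ Zc D I, τ (z * x) = 0
  var : ∀ τ, Tr τ → ∀ w ∈ Zc D I, c * N2 τ w ≤ N2 τ (x * w)

/-- `x` is almost invariant under `β s`, `s ∈ K` -/
def AI {G : Type v} (β : G → (B →⋆ₐ[ℂ] B)) (D : ℕ → Set B) (K : Finset G) (ε : ℝ)
    (I : Finset ℕ) (x : B) : Prop :=
  ∀ τ, Tr τ → ∀ w ∈ Zc D I, ∀ s ∈ K, N2 τ ((β s x - x) * w) ≤ ε * N2 τ w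

/-- `x` is relatively almost invariant under `β s`, `s ∈ K` -/
def RI {G : Type v} (β : G → (B →⋆ₐ[ℂ] B)) (D : ℕ → Set B) (K : Finset G) (ε : ℝ)
    (I : Finset ℕ) (x : B) : Prop :=
  ∀ τ, Tr τ → ∀ w ∈ Zc D I, ∀ s ∈ K, N2 τ ((β s x - x) * w) ≤ ε * N2 τ (x * w)

/-- `T = ∑_(j < i < n) ∑_(q ∈ P) a(q) X_(i,q) X_(j,q)` -/
noncomputable def TT {Q : Type v} (n : ℕ) (P : Finset Q) (X : ℕ → Q → B) (a : Q → ℝ) : B :=
  ∑ i ∈ Finset.range n, ∑ j ∈ Finset.range i, ∑ q ∈ P, a q • (X i q * X j q)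

/-- the step `W - 3 δ² W S² + δ (1 - W²) S` -/
noncomputable def stp (δ : ℝ) (W S : B) : B :=
  W - (3 * δ ^ 2) • (W * (S * S)) + δ • ((1 - W * W) * S)

end

/-- locally subexponential growth: `|K ^ n| ≤ C exp (ε n)` for all finite `K` and `ε > 0` -/
def LocSubexp (G : Type v) [Group G] : Prop :=
  ∀ (K : Set G), K.Finite → ∀ ε : ℝ, 0 < ε → ∃ C : ℝ, ∀ n : ℕ,
    ((K ^ n).ncard : ℝ) ≤ C * Real.exp (ε * n)

/-- slowly varying weights -/
def Wts (G : Type v) [Group G] : Prop :=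
  ∀ (K : Finset G) (ε : ℝ), 0 < ε → ∃ (P : Finset G) (κ ρ : G → ℝ), 1 ∈ P ∧ κ 1 = 1 ∧
    (∀ q, 0 ≤ κ q) ∧ (∀ q, 0 ≤ ρ q) ∧ (∀ q, q ∉ P → κ q = 0) ∧
    (∀ s ∈ K, ∀ q, q ∉ P → κ (s⁻¹ * q) = 0) ∧
    (∀ s ∈ K, ∀ q ∈ P, |κ (s⁻¹ * q) - κ q| ≤ ε * κ q + ρ q) ∧
    (∑ q ∈ P, ρ q) * (1 + ∑ q ∈ P, κ q) ≤ ε

/-- the smallest class of groups that contains the trivial groups and is closed under extensions
by quotients of locally subexponential growth and under directed unions (it contains the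
elementary amenable groups) -/
inductive SubexpAmenable : (G : Type v) → [Group G] → Prop
  | triv (G : Type v) [Group G] [Subsingleton G] : SubexpAmenable G
  | ext (G : Type v) [Group G] (N : Subgroup G) [N.Normal] (h1 : SubexpAmenable N)
      (h2 : LocSubexp (G ⧸ N)) : SubexpAmenable G
  | union (G : Type v) [Group G] (H : Finset G → Subgroup G) (h1 : ∀ K : Finset G, (K : Set G) ⊆ H K)
      (h2 : ∀ K : Finset G, SubexpAmenable (H K)) : SubexpAmenable G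

/-- the abstract conclusion for a group `G` -/
def PropP (G : Type v) [Group G] : Prop :=
  ∀ (B : Type u) [CStarAlgebra B] (D : ℕ → Set B), ComFam D →
    ∀ β : G → (B →⋆ₐ[ℂ] B), IsAct β → (∀ g i, ∀ a ∈ D i, β g a ∈ D i) →
    ∀ c : ℝ, 0 < c → c ≤ 1 / 10 → (∀ i, ∃ x, Good D 1 c {i} x) →
    ∀ (K : Finset G) (ε : ℝ) (n₀ : ℕ), 0 < ε →
      ∃ (I : Finset ℕ) (V : B), (∀ i ∈ I, n₀ ≤ i) ∧ Good D 1 c I V ∧ AI β D K ε I V

end Vale.Agent.P095G
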