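import Vale.Agent.P095G.Tb
import Vale.Agent.P095G.Zb

namespace Vale.Agent.P095G

open Vale.Agent.P095

universe u v

variable {B : Type u} [CStarAlgebra B] {D : ℕ → Set B}

private theorem AA_norm {W : B} (hsa : star W = W) (hn : ‖W‖ ≤ 1) : ‖1 - W * W‖ ≤ 1 := by
  letI := CStarAlgebra.spectralOrder B
  haveI := CStarAlgebra.spectralOrderedRing B
  have h1 : 0 ≤ star W * W := star_mul_self_nonneg W
  have h2 : ‖star W * W‖ ≤ 1 := by
    rw [CStarRing.norm_star_mul_self]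
    nlinarith [norm_nonneg W]
  have h3 : star W * W ≤ 1 := (CStarAlgebra.norm_le_one_iff_of_nonneg _ h1).1 h2
  rw [hsa] at h1 h3
  exact (CStarAlgebra.norm_le_one_iff_of_nonneg _ (sub_nonneg.2 h3)).2 (sub_le_self _ h1)

private theorem AA_left {τ : B →ₗ[ℝ] ℝ} (h : Tr τ) {a b : B} (hb : ‖b‖ ≤ 1) :
    √(N2 τ (b * a)) ≤ √(N2 τ a) := by
  refine Real.sqrt_le_sqrt ((n2_mul_le h a b).trans ?_)
  have h1 : ‖b‖ ^ 2 ≤ 1 := pow_le_one₀ (norm_nonneg _) hb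
  nlinarith [n2_nonneg h a]

private theorem AA_right {τ : B →ₗ[ℝ] ℝ} (h : Tr τ) {a b : B} (hb : ‖b‖ ≤ 1) :
    √(N2 τ (a * b)) ≤ √(N2 τ a) := by
  refine Real.sqrt_le_sqrt ((n2_mul_le' h a b).trans ?_)
  have h1 : ‖b‖ ^ 2 ≤ 1 := pow_le_one₀ (norm_nonneg _) hb
  nlinarith [n2_nonneg h a]

private theorem AA_half {τ : B →ₗ[ℝ] ℝ} (h : Tr τ) (a : B) :
    √(N2 τ ((1 / 2 : ℝ) • a)) = 1 / 2 * √(N2 τ a) := by
  rw [n2_smul, Real.sqrt_mul (by positivity), Real.sqrt_sq (by norm_num)]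

variable {G : Type v} [Group G] {β : G → (B →⋆ₐ[ℂ] B)}

/-- AA.  `e₊ = e - (1/2)(W'²-W²)V' + (1/2)(1-W²)(V'-V)`,
`√N(e₊w) ≤ 2√N(ew).. ≤ (2 + 1/2) √Γ √N(w)`. -/
theorem amp_ai (hD : ComFam D) (hβ : IsAct β) (hinv : ∀ g i, ∀ a ∈ D i, β g a ∈ D i)
    {K : Finset G} {I J : Finset ℕ} (hIJ : Disjoint I J) {c μ Γ : ℝ} {W V : B}
    (hW : Good D 1 μ I W) (hV : Good D 1 c J V) (hΓ : 0 ≤ Γ)
    (hW' : AI β D K Γ I W) (hV' : AI β D K Γ J V) :
    AI β D K (7 * Γ) (I ∪ J) (W + (1 / 2 : ℝ) • ((1 - W * W) * V)) := by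
  intro τ hτ w hw s hs
  have hwI : w ∈ Zc D I := Zc_anti Finset.subset_union_left hw
  have hwJ : w ∈ Zc D J := Zc_anti Finset.subset_union_right hw
  have hWs : Good D 1 μ I (β s W) := good_act hβ hinv s hW
  have hVs : Good D 1 c J (β s V) := good_act hβ hinv s hV
  have hVI : β s V ∈ Zc D I := good_mem hD hIJ.symm hVs
  have hVW : β s V * W = W * β s V := hW.cent _ hVI
  have hVWs : β s V * β s W = β s W * β s V := hWs.cent _ hVI
  have hwW : w * W = W * w := hW.cent _ hwI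
  set W' := β s W with hW'def
  set V' := β s V with hV'def
  have hsm : β s ((1 / 2 : ℝ) • ((1 - W * W) * V)) = (1 / 2 : ℝ) • ((1 - W' * W') * V') := by
    rw [RCLike.real_smul_eq_coe_smul (K := ℂ), map_smul, ← RCLike.real_smul_eq_coe_smul (K := ℂ),
      map_mul, map_sub, map_mul, map_one]
  have key : (β s (W + (1 / 2 : ℝ) • ((1 - W * W) * V)) - (W + (1 / 2 : ℝ) • ((1 - W * W) * V))) * w =
      (W' - W) * w - (1 / 2 : ℝ) • (V' * (W' * ((W' - W) * w) + (W' - W) * w * W)) +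
        (1 / 2 : ℝ) • ((1 - W * W) * ((V' - V) * w)) := by
    rw [map_add, hsm]
    have e1 : (W' - W) * w * W = (W' - W) * W * w := by rw [mul_assoc, hwW, ← mul_assoc]
    have e2 : V' * (W' * ((W' - W) * w) + (W' - W) * W * w) = (W' * W' - W * W) * V' * w := by
      have : W' * ((W' - W) * w) + (W' - W) * W * w = (W' * W' - W * W) * w := by noncomm_ring
      have c1 : Commute V' W' := hVWs
      have c2 : Commute V' W := hVW
      have hc : Commute V' (W' * W' - W * W) := (c1.mul_right c1).sub_right (c2.mul_right c2)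
      rw [this, ← mul_assoc, hc.eq]
    rw [e1, e2, add_sub_add_comm, ← smul_sub, add_mul, smul_mul_assoc, sub_add_eq_add_sub,
      add_sub_assoc, ← smul_sub]
    congr 2
    noncomm_ring
  set q : B → ℝ := fun x => √(N2 τ x) with hq
  have q0 : ∀ x, 0 ≤ q x := fun x => Real.sqrt_nonneg _
  have hew : q ((W' - W) * w) ≤ √Γ * q w := by
    rw [hq]
    simp only
    rw [← Real.sqrt_mul hΓ]
    exact Real.sqrt_le_sqrt (hW' τ hτ w hwI s hs)
  have hfw : q ((V' - V) * w) ≤ √Γ * q w := by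
    rw [hq]
    simp only
    rw [← Real.sqrt_mul hΓ]
    exact Real.sqrt_le_sqrt (hV' τ hτ w hwJ s hs)
  have t1 : q (V' * (W' * ((W' - W) * w) + (W' - W) * w * W)) ≤ 2 * q ((W' - W) * w) := by
    calc q (V' * (W' * ((W' - W) * w) + (W' - W) * w * W))
        ≤ q (W' * ((W' - W) * w) + (W' - W) * w * W) := AA_left hτ hVs.norm
      _ ≤ q (W' * ((W' - W) * w)) + q ((W' - W) * w * W) := n2_sqrt_add hτ _ _
      _ ≤ q ((W' - W) * w) + q ((W' - W) * w) :=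
          add_le_add (AA_left hτ hWs.norm) (AA_right hτ hW.norm)
      _ = 2 * q ((W' - W) * w) := by ring
  have t2 : q ((1 - W * W) * ((V' - V) * w)) ≤ q ((V' - V) * w) :=
    AA_left hτ (AA_norm hW.sa hW.norm)
  have t3 : q ((W' - W) * w - (1 / 2 : ℝ) • (V' * (W' * ((W' - W) * w) + (W' - W) * w * W)) +
        (1 / 2 : ℝ) • ((1 - W * W) * ((V' - V) * w))) ≤ 5 / 2 * (√Γ * q w) := by
    have a1 := n2_sqrt_add hτ ((W' - W) * w - (1 / 2 : ℝ) • (V' * (W' * ((W' - W) * w) + (W' - W) * w * W)))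
      ((1 / 2 : ℝ) • ((1 - W * W) * ((V' - V) * w)))
    have a2 := n2_sqrt_sub hτ ((W' - W) * w)
      ((1 / 2 : ℝ) • (V' * (W' * ((W' - W) * w) + (W' - W) * w * W)))
    rw [AA_half hτ] at a1 a2
    change q _ ≤ q _ + 1 / 2 * q _ at a1
    change q _ ≤ q _ + 1 / 2 * q _ at a2
    linarith
  rw [key]
  set Y := (W' - W) * w - (1 / 2 : ℝ) • (V' * (W' * ((W' - W) * w) + (W' - W) * w * W)) +
        (1 / 2 : ℝ) • ((1 - W * W) * ((V' - V) * w)) with hY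
  have hN : N2 τ Y = q Y ^ 2 := (Real.sq_sqrt (n2_nonneg hτ Y)).symm
  have hNw : N2 τ w = q w ^ 2 := (Real.sq_sqrt (n2_nonneg hτ w)).symm
  have hG : √Γ ^ 2 = Γ := Real.sq_sqrt hΓ
  rw [hN, hNw]
  calc q Y ^ 2 ≤ (5 / 2 * (√Γ * q w)) ^ 2 := pow_le_pow_left₀ (q0 _) t3 2
    _ = 25 / 4 * √Γ ^ 2 * q w ^ 2 := by ring
    _ = 25 / 4 * Γ * q w ^ 2 := by rw [hG]
    _ ≤ 7 * Γ * q w ^ 2 := by nlinarith [mul_nonneg hΓ (sq_nonneg (q w))]

end Vale.Agent.P095G
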