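import Vale.Agent.P095G.Defs

namespace Vale.Agent.P095G

universe u

variable {B : Type u} [CStarAlgebra B] {τ : B →ₗ[ℝ] ℝ}

theorem n2_nonneg (h : Tr τ) (a : B) : 0 ≤ N2 τ a := h.pos a

theorem n2_star (h : Tr τ) (a : B) : N2 τ (star a) = N2 τ a := by
  unfold N2
  rw [star_star, h.comm]

theorem n2_smul (r : ℝ) (a : B) : N2 τ (r • a) = r ^ 2 * N2 τ a := by
  unfold N2
  rw [star_smul, smul_mul_smul_comm, map_smul, smul_eq_mul, star_trivial]
  ring

theorem n2_zero : N2 τ (0 : B) = 0 := by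
  unfold N2
  rw [mul_zero, map_zero]

/-- `N2 (a + b) = N2 a + N2 b + 2 τ (star a * b)` -/
theorem n2_add (h : Tr τ) (a b : B) : N2 τ (a + b) = N2 τ a + N2 τ b + 2 * τ (star a * b) := by
  unfold N2
  have h1 : star (a + b) * (a + b) = star a * a + star b * b + (star a * b + star (star a * b)) := by
    rw [star_add, star_mul, star_star]
    noncomm_ring
  rw [h1, map_add, map_add, map_add, h.star]
  ring

/-- TB1.  Expand `0 ≤ τ (star (a + t b) * (a + t b))`, discriminant.  (`τ (star b * a) = τ (star a * b)`.) -/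
theorem tr_cs (h : Tr τ) (a b : B) : τ (star a * b) ^ 2 ≤ N2 τ a * N2 τ b := by
  have h1 : ∀ t : ℝ, 0 ≤ N2 τ b * (t * t) + 2 * τ (star a * b) * t + N2 τ a := by
    intro t
    have h2 := n2_nonneg h (a + t • b)
    rw [n2_add h, n2_smul, mul_smul_comm, map_smul, smul_eq_mul] at h2
    linarith
  have h3 := discrim_le_zero h1
  unfold discrim at h3
  nlinarith

theorem tr_cs' (h : Tr τ) (a b : B) : |τ (star a * b)| ≤ √(N2 τ a) * √(N2 τ b) := by
  rw [← Real.sqrt_mul (n2_nonneg h a)]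
  exact Real.abs_le_sqrt (tr_cs h a b)

theorem n2_sqrt_add (h : Tr τ) (a b : B) : √(N2 τ (a + b)) ≤ √(N2 τ a) + √(N2 τ b) := by
  rw [Real.sqrt_le_left (by positivity), n2_add h]
  have h1 := (abs_le.1 (tr_cs' h a b)).2
  have h2 := Real.sq_sqrt (n2_nonneg h a)
  have h3 := Real.sq_sqrt (n2_nonneg h b)
  nlinarith

theorem n2_sqrt_sub (h : Tr τ) (a b : B) : √(N2 τ (a - b)) ≤ √(N2 τ a) + √(N2 τ b) := by
  have h1 := n2_sqrt_add h a ((-1 : ℝ) • b)
  rw [n2_smul] at h1
  have h2 : a + (-1 : ℝ) • b = a - b := by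
    rw [neg_one_smul, sub_eq_add_neg]
  rw [h2] at h1
  simpa using h1

/-- TB2.  `‖b‖² - star b * b = star c * c` (spectral order: `star b * b ≤ algebraMap (‖b‖ ^ 2)`,
`CStarAlgebra.nonneg_iff_eq_star_mul_self`), then `τ (star a * (star c * c) * a) ≥ 0`. -/
theorem n2_mul_le (h : Tr τ) (a b : B) : N2 τ (b * a) ≤ ‖b‖ ^ 2 * N2 τ a := by
  letI := CStarAlgebra.spectralOrder B
  haveI := CStarAlgebra.spectralOrderedRing B
  have h1 : 0 ≤ algebraMap ℝ B (‖b‖ ^ 2) - star b * b :=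
    sub_nonneg.2 CStarAlgebra.star_mul_le_algebraMap_norm_sq
  obtain ⟨c, hc⟩ := CStarAlgebra.nonneg_iff_eq_star_mul_self.1 h1
  have h2 := n2_nonneg h (c * a)
  have h3 : star (c * a) * (c * a) = (‖b‖ ^ 2) • (star a * a) - star (b * a) * (b * a) := by
    calc star (c * a) * (c * a) = star a * (star c * c) * a := by
          rw [star_mul]
          noncomm_ring
      _ = star a * (algebraMap ℝ B (‖b‖ ^ 2) - star b * b) * a := by rw [hc]
      _ = (‖b‖ ^ 2) • (star a * a) - star (b * a) * (b * a) := by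
          rw [star_mul, mul_sub, sub_mul, Algebra.algebraMap_eq_smul_one, mul_smul_comm, mul_one,
            smul_mul_assoc]
          congr 1
          noncomm_ring
  unfold N2 at h2 ⊢
  rw [h3, map_sub, map_smul, smul_eq_mul] at h2
  linarith

/-- from `n2_mul_le` and `n2_star` -/
theorem n2_mul_le' (h : Tr τ) (a b : B) : N2 τ (a * b) ≤ ‖b‖ ^ 2 * N2 τ a := by
  have h1 := n2_mul_le h (star a) (star b)
  rwa [← star_mul, n2_star h, n2_star h, norm_star] at h1

end Vale.Agent.P095G
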