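import Vale.Agent.P095G.Defs
import Vale.Agent.P095.Sat
import Vale.Agent.P095.FomCop
import Vale.Agent.P095.Tr
import Vale.Agent.P095.Step
import Vale.Agent.P101K.NoChar

open scoped ENNReal Topology
open Filter

namespace Vale.Agent.P095G

open Vale.Agent.P095 Vale.Agent.P101K

universe u v

/-- AO1.  `cenHom_to_fix` with `H = ∅` (or `⊥`), `dimdrop_no_char`, `fom_eqCopies`/`hasCopies`; then
`exists_witness`, `exists_z`, `far_full`, `exists_orth`, `exists_sqz` as in `main_abstract`. -/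
theorem fom_sqz (A : Type u) [CStarAlgebra A] [Nontrivial A] [TopologicalSpace.SeparableSpace A]
    (ω : Ultrafilter ℕ) (hω : (ω : Filter ℕ) ≤ atTop) (h : ZStable A ω) :
    ∃ y : Fom A ω, y * y = 0 ∧ Full {y} := by
  let α : Unit →* (A ≃⋆ₐ[ℂ] A) := 1
  have hC : HasCopies (fixAlg (fomAct ω α) (∅ : Set Unit)) :=
    hasCopies_fix _ (fom_eqCopies A ω hω α) ∅
  obtain ⟨φ, hφ⟩ := h 0
  obtain ⟨Θ⟩ := cenHom_to_fix ω α (∅ : Set Unit) φ hφ (fun _ hh => absurd hh (Set.notMem_empty _))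
  have hE : IsEmpty (fixAlg (fomAct ω α) (∅ : Set Unit) →⋆ₐ[ℂ] ℂ) :=
    ⟨fun χ => (dimdrop_no_char (Fin 2) (Fin 3)).false (χ.comp Θ)⟩
  let _ : PartialOrder (fixAlg (fomAct ω α) (∅ : Set Unit)) := CStarAlgebra.spectralOrder _
  have _ : StarOrderedRing (fixAlg (fomAct ω α) (∅ : Set Unit)) :=
    CStarAlgebra.spectralOrderedRing _
  obtain ⟨z, hz, hz1, hzf⟩ := exists_z hC (exists_witness hE)
  obtain ⟨N, hN, hf⟩ := far_full z hz hz1 hzf 7
  obtain ⟨E, h01, h10, h0, h1⟩ := exists_orth hC z hz N hN hf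
  obtain ⟨y, hy, n, p, x, p', hx, hs⟩ := exists_sqz hC E h01 h10 h0 h1
  refine ⟨y, ?_, n, fun i => p i, fun i => x i, fun i => p' i, fun i => ?_, ?_⟩
  · exact congrArg Subtype.val hy
  · exact congrArg Subtype.val (hx i)
  · have := congrArg (fixAlg (fomAct ω α) (∅ : Set Unit)).subtype hs
    rw [map_sum, map_one] at this
    exact this

end Vale.Agent.P095G
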