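import Vale.Agent.P095G.Base
import Vale.Agent.P095G.AomA

open scoped ENNReal Topology
open Filter

namespace Vale.Agent.P095G

open Vale.Agent.P095 Vale.Agent.P101K

universe u v

/-- AO2.  `D i = {b | ∃ t, b = ((θ i t : Fom A ω) : Aom A ω)}` with `θ` from `fom_eqCopies` for the
countable set `{y, p k, p' k}`; `base_good` with `M` = the maximum of the bounds of `‖θ i b‖`. -/
theorem aom_good (A : Type u) [CStarAlgebra A] [Nontrivial A] [TopologicalSpace.SeparableSpace A]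
    (ω : Ultrafilter ℕ) (hω : (ω : Filter ℕ) ≤ atTop) {G : Type v} [Group G] [Countable G]
    (α : G →* (A ≃⋆ₐ[ℂ] A)) (h : ZStable A ω) :
    ∃ (D : ℕ → Set (Aom A ω)) (c : ℝ), 0 < c ∧ c ≤ 1 / 10 ∧ ComFam D ∧
      (∀ g i, ∀ a ∈ D i, aomMap ω (actHom α g) a ∈ D i) ∧ (∀ i, ∃ x, Good D 1 c {i} x) ∧
      ∀ i, ∀ d ∈ D i, d ∈ Fom A ω := by
  obtain ⟨y, hyy, n, p, x, p', hx, hsum⟩ := fom_sqz A ω hω h
  have hsum' : ∑ k, p k * y * p' k = 1 := by
    rw [← hsum]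
    refine Finset.sum_congr rfl fun k _ => ?_
    rw [Set.mem_singleton_iff.1 (hx k)]
  set X : Set (Fom A ω) := {y} ∪ (Set.range p ∪ Set.range p') with hX
  have hXc : X.Countable :=
    (Set.countable_singleton y).union ((Set.countable_range p).union (Set.countable_range p'))
  obtain ⟨C, hC, hXC, θ, hcomm, hbd, heq⟩ := fom_eqCopies A ω hω α X hXc
  have hyC : y ∈ C := hXC (Or.inl rfl)
  have hpC : ∀ k, p k ∈ C := fun k => hXC (Or.inr (Or.inl ⟨k, rfl⟩))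
  have hpC' : ∀ k, p' k ∈ C := fun k => hXC (Or.inr (Or.inr ⟨k, rfl⟩))
  choose Mb hMb using hbd
  have hMb0 : ∀ b, 0 ≤ Mb b := fun b => (norm_nonneg _).trans (hMb b 0)
  set M : ℝ := Mb ⟨y, hyC⟩ + (∑ k, Mb ⟨p k, hpC k⟩ + ∑ k, Mb ⟨p' k, hpC' k⟩) with hM
  have hs1 : 0 ≤ ∑ k, Mb ⟨p k, hpC k⟩ := Finset.sum_nonneg fun k _ => hMb0 _
  have hs2 : 0 ≤ ∑ k, Mb ⟨p' k, hpC' k⟩ := Finset.sum_nonneg fun k _ => hMb0 _
  have hM1 : Mb ⟨y, hyC⟩ ≤ M := by linarith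
  have hM2 : ∀ k, Mb ⟨p k, hpC k⟩ ≤ M := fun k => by
    have := Finset.single_le_sum (f := fun k => Mb ⟨p k, hpC k⟩) (fun k _ => hMb0 _)
      (Finset.mem_univ k)
    have h3 := hMb0 ⟨y, hyC⟩
    linarith
  have hM3 : ∀ k, Mb ⟨p' k, hpC' k⟩ ≤ M := fun k => by
    have := Finset.single_le_sum (f := fun k => Mb ⟨p' k, hpC' k⟩) (fun k _ => hMb0 _)
      (Finset.mem_univ k)
    have h3 := hMb0 ⟨y, hyC⟩
    linarith
  obtain ⟨c, hc0, hc1, hgood⟩ := base_good.{u} n M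
  set D : ℕ → Set (Aom A ω) := fun i => {b | ∃ t : C, b = ((θ i t : Fom A ω) : Aom A ω)} with hD
  refine ⟨D, c, hc0, hc1, ?_, ?_, ?_, ?_⟩
  · rintro i j hij _ ⟨s, rfl⟩ _ ⟨t, rfl⟩
    have h1 : θ i s * θ j t = θ j t * θ i s := hcomm i j hij s t
    have h2 : θ i (star s) * θ j t = θ j t * θ i (star s) := hcomm i j hij (star s) t
    rw [map_star] at h2
    constructor
    · exact congrArg (fun z : Fom A ω => (z : Aom A ω)) h1
    · exact congrArg (fun z : Fom A ω => (z : Aom A ω)) h2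
  · rintro g i _ ⟨s, rfl⟩
    refine ⟨⟨fomAct ω α g s, hC g s s.2⟩, ?_⟩
    rw [← heq i g s, fomAct_coe]
  · intro i
    refine hgood (Aom A ω) D i ((θ i ⟨y, hyC⟩ : Fom A ω) : Aom A ω)
      (fun k => ((θ i ⟨p k, hpC k⟩ : Fom A ω) : Aom A ω))
      (fun k => ((θ i ⟨p' k, hpC' k⟩ : Fom A ω) : Aom A ω)) ?_ ?_ ?_ ?_ ?_ ?_ ?_ ?_
    · have h1 : θ i ⟨y, hyC⟩ * θ i ⟨y, hyC⟩ = 0 := by
        rw [← map_mul]
        have : (⟨y, hyC⟩ : C) * ⟨y, hyC⟩ = 0 := Subtype.ext hyy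
        rw [this, map_zero]
      exact congrArg (fun z : Fom A ω => (z : Aom A ω)) h1
    · have h1 : ∑ k, θ i ⟨p k, hpC k⟩ * θ i ⟨y, hyC⟩ * θ i ⟨p' k, hpC' k⟩ = 1 := by
        rw [← map_one (θ i)]
        have : (1 : C) = ∑ k, (⟨p k, hpC k⟩ : C) * ⟨y, hyC⟩ * ⟨p' k, hpC' k⟩ := by
          refine Subtype.ext ?_
          rw [AddSubmonoidClass.coe_finsetSum]
          exact hsum'.symm
        rw [this, map_sum]
        refine Finset.sum_congr rfl fun k _ => ?_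
        rw [map_mul, map_mul]
      have h2 := congrArg (fun z : Fom A ω => (z : Aom A ω)) h1
      simp only [AddSubmonoidClass.coe_finsetSum] at h2
      exact h2
    · exact (hMb _ i).trans hM1
    · exact fun k => (hMb _ i).trans (hM2 k)
    · exact fun k => (hMb _ i).trans (hM3 k)
    · exact ⟨_, rfl⟩
    · exact fun k => ⟨_, rfl⟩
    · exact fun k => ⟨_, rfl⟩
  · rintro i _ ⟨t, rfl⟩
    exact (θ i t).2

end Vale.Agent.P095G
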