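import Vale.Agent.P095G.Defs

open scoped ENNReal Topology
open Filter

namespace Vale.Agent.P095G

open Vale.Agent.P095 Vale.Agent.P101K

universe u v

/-- AO3. -/
theorem aomMap_isAct (A : Type u) [CStarAlgebra A] [Nontrivial A] (ω : Ultrafilter ℕ)
    {G : Type v} [Group G] (α : G →* (A ≃⋆ₐ[ℂ] A)) :
    IsAct (fun g => aomMap ω (actHom α g)) := by
  refine ⟨fun x => ?_, fun g h x => ?_⟩
  · obtain ⟨y, rfl⟩ := omk_surjective A ω x
    change aomMap ω (actHom α 1) (omk A ω y) = omk A ω y
    rw [aomMap_omk]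
    congr 1
    exact lp.ext (funext fun n => (actHom_isAct α).one _)
  · obtain ⟨y, rfl⟩ := omk_surjective A ω x
    change aomMap ω (actHom α (g * h)) (omk A ω y) =
      aomMap ω (actHom α g) (aomMap ω (actHom α h) (omk A ω y))
    rw [aomMap_omk, aomMap_omk, aomMap_omk]
    congr 1
    exact lp.ext (funext fun n => (actHom_isAct α).mul _ _ _)

end Vale.Agent.P095G
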