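import Vale.Agent.P095G.UDefs

open scoped ENNReal Topology
open Filter

namespace Vale.Agent.P095G

open Vale.Agent.P095 Vale.Agent.P101K

universe u v

/-- UT4.  A self-adjoint element of norm `< 1` lifts to self-adjoint contractions (`aom_lift`, real
part). -/
theorem sa_lift {A : Type u} [CStarAlgebra A] [Nontrivial A] (ω : Ultrafilter ℕ) (V : Aom A ω)
    (hV : star V = V) (hV1 : ‖V‖ < 1) :
    ∃ x : Bdd A, omk A ω x = V ∧ ∀ n, star (x n) = x n ∧ ‖x n‖ ≤ 1 := by
  obtain ⟨a, ha, ha1⟩ := aom_lift V 1 hV1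
  have ha' : omk A ω a = V := ha
  refine ⟨(((1 / 2 : ℝ)) : ℂ) • (a + star a), ?_, fun n => ⟨?_, ?_⟩⟩
  · rw [map_smul, map_add, map_star, ha', hV, ← two_smul ℂ V, smul_smul]
    norm_num
  · rw [aom_smul_apply, aom_add_apply, aom_star_apply, star_smul, star_add, star_star]
    have : star (((1 / 2 : ℝ)) : ℂ) = (((1 / 2 : ℝ)) : ℂ) := Complex.conj_ofReal _
    rw [this, add_comm]
  · rw [aom_smul_apply, aom_add_apply, aom_star_apply, norm_smul, Complex.norm_real]
    have h1 := norm_add_le (a n) (star (a n))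
    rw [norm_star] at h1
    have h2 := aom_apply_le a n
    have h3 : ‖(1 / 2 : ℝ)‖ = 1 / 2 := by norm_num
    rw [h3]
    linarith


end Vale.Agent.P095G
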