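import Vale.Agent.P095G.UltraB
import Vale.Agent.P095G.UltraC

open scoped ENNReal Topology
open Filter

namespace Vale.Agent.P095G

open Vale.Agent.P095 Vale.Agent.P101K

universe u v

theorem UD_norm_eq {A : Type u} [CStarAlgebra A] {τ : A →ₗ[ℂ] ℂ} (h : TracialState τ) {y : A}
    (hy : star y = y) : ‖τ (y * y)‖ = (τ (y * y)).re := by
  have h1 := h.pos y
  rw [hy] at h1
  have h2 : τ (y * y) = (((τ (y * y)).re : ℝ) : ℂ) := Complex.ext (by simp) (by simp [h1.2])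
  conv_lhs => rw [h2]
  rw [Complex.norm_real, Real.norm_of_nonneg h1.1]

theorem UD_one {A : Type u} [CStarAlgebra A] [Nontrivial A] {τ : A →ₗ[ℂ] ℂ} (h : TracialState τ)
    {y : A} (hy : star y = y) (hy1 : ‖y‖ ≤ 1) : ‖τ (1 - y * y)‖ = 1 - (τ (y * y)).re := by
  have h1 := h.pos y
  rw [hy] at h1
  have h2 : τ (1 - y * y) = ((1 - (τ (y * y)).re : ℝ) : ℂ) := by
    rw [map_sub, h.one]
    exact Complex.ext (by simp) (by simp [h1.2])
  rw [h2, Complex.norm_real, Real.norm_of_nonneg]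
  have h3 : (τ (y * y)).re ≤ 1 := by
    refine (Complex.re_le_norm _).trans ((ts_norm_le h _).trans ?_)
    refine (norm_mul_le _ _).trans ?_
    nlinarith [norm_nonneg y]
  linarith

theorem UD_abs (z : ℂ) : ‖z‖ ≤ |z.re| + |z.im| := Complex.norm_le_abs_re_add_abs_im z

/-- UT5.  Transfer.  Lift `V` to `x` (`sa_lift`).  If no `x n` works for `ω`-many `n`, choose bad
`τ_n` (for `n` where a norm condition does not fail), finitely many kinds of failure: one of them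
occurs for `ω`-many `n` (`Ultrafilter.eventually_or`), `limit_trace`, contradiction.  The modulus
`‖τ(a v)‖ ≤ |re τ(a v)| + |re τ(-I a v)|`; `τ(1 - v²)` and `τ((α g v - v)²)` are real `≥ 0`. -/
theorem transfer {A : Type u} [CStarAlgebra A] [Nontrivial A] (ω : Ultrafilter ℕ)
    {G : Type v} [Group G] (α : G →* (A ≃⋆ₐ[ℂ] A)) (E : Finset A) (K : Finset G) (ε : ℝ)
    (hε : 0 < ε) (V : Aom A ω) (hV : star V = V) (hV1 : ‖V‖ < 1) (hVF : V ∈ Fom A ω)
    (h1 : ∀ φ : Aom A ω →ₗ[ℝ] ℝ, Tr φ → ∀ a : A, φ (omk A ω (cst A a) * V) = 0)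
    (h2 : ∀ φ : Aom A ω →ₗ[ℝ] ℝ, Tr φ → (1 - ε / 2) * φ 1 ≤ φ (V * V))
    (h3 : ∀ φ : Aom A ω →ₗ[ℝ] ℝ, Tr φ → ∀ s ∈ K,
      φ ((aomMap ω (actHom α s) V - V) * (aomMap ω (actHom α s) V - V)) ≤ ε / 2 * φ 1) :
    ∃ v : A, star v = v ∧ ‖v‖ ≤ 1 ∧ (∀ a ∈ E, ‖a * v - v * a‖ < ε) ∧
      ∀ τ : A →ₗ[ℂ] ℂ, TracialState τ → (∀ a ∈ E, ‖τ (a * v)‖ < ε) ∧ ‖τ (1 - v * v)‖ < ε ∧
        ∀ g ∈ K, ‖τ ((α g v - v) * (α g v - v))‖ < ε := by
  classical
  obtain ⟨x, hxV, hx⟩ := sa_lift ω V hV hV1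
  by_contra hcon
  push Not at hcon
  -- almost commuting
  have hcomm : ∀ᶠ n in (ω : Filter ℕ), ∀ a ∈ E, ‖a * x n - x n * a‖ < ε := by
    rw [Filter.eventually_all_finset]
    intro a _
    rw [← hxV, omk_mem_fom] at hVF
    have h4 := hVF a
    filter_upwards [h4.eventually (gt_mem_nhds hε)] with n hn
    rwa [norm_sub_rev]
  have hbad : ∀ n, (∀ a ∈ E, ‖a * x n - x n * a‖ < ε) → ∃ τ : A →ₗ[ℂ] ℂ, TracialState τ ∧
      ((∀ a ∈ E, ‖τ (a * x n)‖ < ε) → ‖τ (1 - x n * x n)‖ < ε →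
        ∃ g ∈ K, ε ≤ ‖τ ((α g (x n) - x n) * (α g (x n) - x n))‖) := by
    intro n hn
    exact hcon (x n) (hx n).1 (hx n).2 hn
  obtain ⟨n0, hn0⟩ := hcomm.exists
  obtain ⟨τ0, hτ0, -⟩ := hbad n0 hn0
  have hch : ∀ n, ∃ τ : A →ₗ[ℂ] ℂ, TracialState τ ∧ ((∀ a ∈ E, ‖a * x n - x n * a‖ < ε) →
      ((∀ a ∈ E, ‖τ (a * x n)‖ < ε) → ‖τ (1 - x n * x n)‖ < ε →
        ∃ g ∈ K, ε ≤ ‖τ ((α g (x n) - x n) * (α g (x n) - x n))‖)) := by
    intro n
    by_cases h : ∀ a ∈ E, ‖a * x n - x n * a‖ < ε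
    · obtain ⟨τ, hτ, hτ2⟩ := hbad n h
      exact ⟨τ, hτ, fun _ => hτ2⟩
    · exact ⟨τ0, hτ0, fun h' => absurd h' h⟩
  choose τ hτ hτ2 using hch
  obtain ⟨φ, hφ, hlim⟩ := limit_trace ω τ hτ
  have hφ1 : φ 1 = 1 := by
    have h4 := hlim 1
    have h5 : (fun n => (τ n ((1 : Bdd A) n)).re) = fun _ => (1 : ℝ) := by
      funext n
      have : (1 : Bdd A) n = 1 := rfl
      rw [this, (hτ n).one, Complex.one_re]
    rw [h5, map_one] at h4
    exact tendsto_nhds_unique h4 tendsto_const_nhds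
  have hE : ∀ᶠ n in (ω : Filter ℕ), ∀ a ∈ E, ‖τ n (a * x n)‖ < ε := by
    rw [Filter.eventually_all_finset]
    intro a _
    have hre : ∀ b : A, Tendsto (fun n => (τ n (b * x n)).re) ω (𝓝 0) := by
      intro b
      have h4 := hlim (cst A b * x)
      rw [map_mul, hxV, h1 φ hφ b] at h4
      exact h4
    have h5 := (hre a).abs.add (hre (-Complex.I • a)).abs
    rw [abs_zero, add_zero] at h5
    filter_upwards [h5.eventually (gt_mem_nhds hε)] with n hn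
    refine (UD_abs _).trans_lt ?_
    rw [smul_mul_assoc, map_smul] at hn
    simpa using hn
  have h1' : ∀ᶠ n in (ω : Filter ℕ), ‖τ n (1 - x n * x n)‖ < ε := by
    have h4 := hlim (x * x)
    rw [map_mul, hxV] at h4
    have h5 : 1 - ε < φ (V * V) := by
      have := h2 φ hφ
      rw [hφ1, mul_one] at this
      linarith
    filter_upwards [h4.eventually (lt_mem_nhds h5)] with n hn
    rw [UD_one (hτ n) (hx n).1 (hx n).2]
    have h6 : (x * x) n = x n * x n := rfl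
    rw [h6] at hn
    linarith
  have hK : ∀ᶠ n in (ω : Filter ℕ), ∀ g ∈ K,
      ‖τ n ((α g (x n) - x n) * (α g (x n) - x n))‖ < ε := by
    rw [Filter.eventually_all_finset]
    intro g hg
    have h4 := hlim ((bmap (actHom α g) x - x) * (bmap (actHom α g) x - x))
    rw [map_mul, map_sub, ← aomMap_omk, hxV] at h4
    have h5 : φ ((aomMap ω (actHom α g) V - V) * (aomMap ω (actHom α g) V - V)) < ε := by
      have := h3 φ hφ g hg
      rw [hφ1, mul_one] at this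
      linarith
    filter_upwards [h4.eventually (gt_mem_nhds h5)] with n hn
    have h6 : star (α g (x n) - x n) = α g (x n) - x n := by
      rw [star_sub, ← map_star, (hx n).1]
    rw [UD_norm_eq (hτ n) h6]
    exact hn
  obtain ⟨n, ⟨⟨hn1, hn2⟩, hn3⟩, hn4⟩ := (((hcomm.and hE).and h1').and hK).exists
  obtain ⟨g, hg, hg2⟩ := hτ2 n hn1 hn2 hn3
  exact absurd hg2 (not_le.2 (hn4 g hg))

end Vale.Agent.P095G
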