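import Vale.Agent.P095G.Cls
import Vale.Agent.P095G.AmpM
import Vale.Agent.P095G.AomB
import Vale.Agent.P095G.AomC
import Vale.Agent.P095G.UltraD

open scoped ENNReal Topology
open Filter

namespace Vale.Agent.P095G

open Vale.Agent.P095 Vale.Agent.P101K

universe u v

theorem FIN_mem {A : Type u} [CStarAlgebra A] [Nontrivial A] {ω : Ultrafilter ℕ}
    {D : ℕ → Set (Aom A ω)} (hDF : ∀ i, ∀ d ∈ D i, d ∈ Fom A ω) (I : Finset ℕ) (a : A) :
    omk A ω (cst A a) ∈ Zc D I := by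
  unfold Zc
  rw [StarSubalgebra.mem_centralizer_iff]
  intro d hd
  obtain ⟨i, hi⟩ := Set.mem_iUnion.1 hd
  obtain ⟨_, hdi⟩ := Set.mem_iUnion.1 hi
  have h1 : d ∈ Fom A ω := hDF i d hdi
  have h2 : star d ∈ Fom A ω := star_mem h1
  unfold Fom at h1 h2
  rw [StarSubalgebra.mem_centralizer_iff] at h1 h2
  exact ⟨((h1 _ ⟨a, rfl⟩).1).symm, ((h2 _ ⟨a, rfl⟩).1).symm⟩

/-- FIN.  `aom_good`, `propP_of_cls`, `amp` (with `1 - ε/8` etc.), `V' = (1 - δ) • V`, `transfer`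
(`omk (cst a) ∈ Zc D I` because `D i ⊆ Fom A ω`). -/
theorem main_of_propP (A : Type u) [CStarAlgebra A] [Nontrivial A]
    [TopologicalSpace.SeparableSpace A]
    (ω : Ultrafilter ℕ) (hω : (ω : Filter ℕ) ≤ atTop) (h : ZStable A ω) (G : Type v) [Group G]
    [Countable G] (hP : PropP.{u, v} G) (α : G →* (A ≃⋆ₐ[ℂ] A)) : EqGamma α := by
  intro E K ε hε
  obtain ⟨D, c, hc, hc1, hcom, hinv, hgood, hDF⟩ := aom_good A ω hω α h
  obtain ⟨e, he0, he1, heε⟩ : ∃ e : ℝ, 0 < e ∧ e ≤ 1 / 8 ∧ 8 * e ≤ ε := by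
    refine ⟨min (1 / 8) (ε / 8), lt_min (by norm_num) (by positivity), min_le_left _ _, ?_⟩
    have := min_le_right (1 / 8) (ε / 8)
    linarith
  obtain ⟨I, V, -, hV, hAI⟩ := amp (K := K) hcom (aomMap_isAct A ω α) hinv hc (by linarith)
    (fun ε' n₀ hε' => hP (Aom A ω) D hcom (fun g => aomMap ω (actHom α g)) (aomMap_isAct A ω α)
      hinv c hc hc1 hgood K ε' n₀ hε') e he0 0
  have h1Z : (1 : Aom A ω) ∈ Zc D I := one_mem _
  have hVs : star V = V := hV.sa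
  have hre : star (((1 - e : ℝ)) : ℂ) = (((1 - e : ℝ)) : ℂ) := Complex.conj_ofReal _
  -- real scalars
  have hsm : ∀ (φ : Aom A ω →ₗ[ℝ] ℝ) (x : Aom A ω), φ ((((1 - e : ℝ)) : ℂ) • x) = (1 - e) * φ x := by
    intro φ x
    have h2 : (((1 - e : ℝ)) : ℂ) • x = (1 - e : ℝ) • x := Complex.coe_smul _ _
    rw [h2, map_smul, smul_eq_mul]
  have h1e : 0 ≤ 1 - e := by linarith
  have hsq : (1 - e) * (1 - e) ≤ 1 := by nlinarith
  refine transfer ω α E K ε hε ((((1 - e : ℝ)) : ℂ) • V) ?_ ?_ ?_ ?_ ?_ ?_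
  · rw [star_smul, hre, hVs]
  · rw [norm_smul, Complex.norm_real, Real.norm_eq_abs, abs_of_nonneg h1e]
    have h2 := mul_le_mul_of_nonneg_left hV.norm h1e
    linarith
  · have h2 : V ∈ Fom A ω := by
      unfold Fom
      rw [StarSubalgebra.mem_centralizer_iff]
      rintro _ ⟨a, rfl⟩
      refine ⟨hV.cent _ (FIN_mem hDF I a), ?_⟩
      exact hV.cent _ (star_mem (FIN_mem hDF I a))
    exact (Fom A ω).smul_mem h2 _
  · intro φ hφ a
    rw [mul_smul_comm, hsm, hV.mean φ hφ _ (FIN_mem hDF I a), mul_zero]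
  · intro φ hφ
    have h2 := hV.var φ hφ 1 h1Z
    unfold N2 at h2
    rw [star_one, one_mul, mul_one, hVs] at h2
    have h3 : 0 ≤ φ 1 := by
      have := hφ.pos 1
      rwa [star_one, one_mul] at this
    rw [smul_mul_smul_comm]
    have h4 : φ (((((1 - e : ℝ)) : ℂ) * (((1 - e : ℝ)) : ℂ)) • (V * V)) =
        (1 - e) * ((1 - e) * φ (V * V)) := by
      rw [mul_smul, hsm, hsm]
    rw [h4]
    have h5 : (1 - e) * ((1 - e) * ((1 - e) * φ 1)) ≤ (1 - e) * ((1 - e) * φ (V * V)) := by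
      gcongr
    refine le_trans ?_ h5
    have h6 : (1 - ε / 2) ≤ (1 - e) * ((1 - e) * (1 - e)) := by nlinarith
    have h7 := mul_le_mul_of_nonneg_right h6 h3
    linarith
  · intro φ hφ s hs
    have h2 := hAI φ hφ 1 h1Z s hs
    unfold N2 at h2
    have h3 : 0 ≤ φ 1 := by
      have := hφ.pos 1
      rwa [star_one, one_mul] at this
    obtain ⟨y, hy⟩ : ∃ y, y = aomMap ω (actHom α s) V - V := ⟨_, rfl⟩
    have hys : star y = y := by
      rw [hy, star_sub, ← map_star, hVs]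
    rw [← hy, mul_one, star_one, one_mul, hys] at h2
    have h4 : aomMap ω (actHom α s) ((((1 - e : ℝ)) : ℂ) • V) - (((1 - e : ℝ)) : ℂ) • V =
        (((1 - e : ℝ)) : ℂ) • y := by
      rw [map_smul, hy, smul_sub]
    have h5 : 0 ≤ φ (y * y) := by
      have := hφ.pos y
      rwa [hys] at this
    rw [h4, smul_mul_smul_comm, mul_smul, hsm, hsm, ← mul_assoc]
    calc (1 - e) * (1 - e) * φ (y * y) ≤ 1 * φ (y * y) := by gcongr
      _ ≤ e * φ 1 := by rw [one_mul]; exact h2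
      _ ≤ ε / 2 * φ 1 := by gcongr; linarith


theorem main (A : Type u) [CStarAlgebra A] [Nontrivial A] [TopologicalSpace.SeparableSpace A]
    (ω : Ultrafilter ℕ) (hω : (ω : Filter ℕ) ≤ atTop) (h : ZStable A ω) (G : Type v) [Group G]
    [Countable G] (hG : SubexpAmenable G) (α : G →* (A ≃⋆ₐ[ℂ] A)) : EqGamma α :=
  main_of_propP A ω hω h G (propP_of_cls G hG) α

end Vale.Agent.P095G
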