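import Vale.Agent.P095G.DynD
import Vale.Agent.P095G.Zb

namespace Vale.Agent.P095G

open Vale.Agent.P095

universe u v

variable {B : Type u} [CStarAlgebra B] {D : ℕ → Set B}

variable {G : Type v} [Group G] {β : G → (B →⋆ₐ[ℂ] B)}

theorem SA_smul {I : Finset ℕ} {z : B} (hz : z ∈ Zc D I) (r : ℝ) : r • z ∈ Zc D I := by
  rw [← Complex.coe_smul]
  exact (Zc D I).smul_mem hz _

theorem SA_map (f : B →⋆ₐ[ℂ] B) (δ : ℝ) (W S : B) : f (stp δ W S) = stp δ (f W) (f S) := by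
  have hr : ∀ (r : ℝ) (x : B), f (r • x) = r • f x := by
    intro r x
    rw [← Complex.coe_smul, map_smul, Complex.coe_smul]
  unfold stp
  rw [map_add, map_sub, hr, hr, map_mul, map_mul, map_mul, map_sub, map_one, map_mul]

/-- SA.  One step keeps almost invariance: `stp_diff` with `W' = β s W`, `S' = β s S`
(`good_act`, `good_mem`, `β s (stp δ W S) = stp δ (β s W) (β s S)`). -/
theorem stp_ai (hD : ComFam D) (hβ : IsAct β) (hinv : ∀ g i, ∀ a ∈ D i, β g a ∈ D i)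
    {K : Finset G} {I J : Finset ℕ} (hIJ : Disjoint I J) {δ R r μ η : ℝ} {W S : B}
    (hW : Good D 1 μ I W) (hS : Good D R r J S) (hδ : 0 < δ) (hδR : δ * R ≤ 1 / 100)
    (hη : 0 < η) (hη1 : η ≤ 1 / 4) (hW' : AI β D K (400 * η) I W) (hS' : RI β D K η J S) :
    AI β D K (400 * η) (I ∪ J) (stp δ W S) := by
  intro τ hτ w hw s hs
  have gW' : Good D 1 μ I (β s W) := good_act hβ hinv s hW
  have gS' : Good D R r J (β s S) := good_act hβ hinv s hS
  have hWJ : W ∈ Zc D J := good_mem hD hIJ hW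
  have hSI : S ∈ Zc D I := good_mem hD hIJ.symm hS
  have hWJ' : β s W ∈ Zc D J := good_mem hD hIJ gW'
  have hSI' : β s S ∈ Zc D I := good_mem hD hIJ.symm gS'
  have hwI : w ∈ Zc D I := Zc_anti Finset.subset_union_left hw
  have hwJ : w ∈ Zc D J := Zc_anti Finset.subset_union_right hw
  have hsI : star w ∈ Zc D I := star_mem hwI
  have hsJ : star w ∈ Zc D J := star_mem hwJ
  rw [SA_map]
  exact stp_diff hτ hW.sa hW.norm hS.sa hS.norm gW'.sa gW'.norm gS'.sa gS'.norm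
    (hW.cent S hSI).symm (hW.cent _ hSI').symm (gW'.cent S hSI).symm (gW'.cent _ hSI').symm
    (hW.cent w hwI) (hS.cent w hwJ) (gW'.cent w hwI) (gS'.cent w hwJ)
    (hW.cent _ hsI) (hS.cent _ hsJ) (gW'.cent _ hsI) (gS'.cent _ hsJ) hδ hδR hη hη1
    (hW' τ hτ _ (mul_mem (sub_mem (one_mem _) (SA_smul (mul_mem hSI' hSI') _)) hwI) s hs)
    (hW' τ hτ _ (mul_mem hSI' hwI) s hs)
    (hS' τ hτ w hwJ s hs)
    (gS'.mean τ hτ _ (mul_mem (mul_mem (mul_mem hsJ (sub_mem hWJ' hWJ))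
      (sub_mem (mul_mem hWJ' hWJ') (mul_mem hWJ hWJ))) hwJ))
    (gS'.mean τ hτ _ (mul_mem (mul_mem (mul_mem hsJ (sub_mem hWJ' hWJ))
      (sub_mem (one_mem _) (mul_mem hWJ hWJ))) hwJ))
    (hS.mean τ hτ _ (mul_mem (mul_mem (mul_mem hsJ (sub_mem hWJ' hWJ))
      (sub_mem (one_mem _) (mul_mem hWJ hWJ))) hwJ))

end Vale.Agent.P095G
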