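import Vale.Agent.P095G.StepG
import Vale.Agent.P095G.StepA

namespace Vale.Agent.P095G

open Vale.Agent.P095

universe u v

variable {B : Type u} [CStarAlgebra B] {D : ℕ → Set B}

variable {G : Type v} [Group G] {β : G → (B →⋆ₐ[ℂ] B)}

theorem DY_base {K : Finset G} {η : ℝ} (hη : 0 < η) :
    Good D 1 0 ∅ (0 : B) ∧ AI β D K (400 * η) ∅ (0 : B) := by
  constructor
  · refine ⟨star_zero B, ?_, ?_, ?_, ?_⟩
    · rw [norm_zero]; norm_num
    · intro z _
      rw [mul_zero, zero_mul]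
    · intro τ _ z _
      rw [mul_zero, map_zero]
    · intro τ _ w _
      unfold N2
      rw [zero_mul, zero_mul, star_zero, mul_zero, map_zero]
  · intro τ hτ w _ s _
    have h1 : N2 τ ((β s 0 - 0) * w) = 0 := by
      unfold N2
      rw [map_zero, sub_zero, zero_mul, mul_zero, map_zero]
    rw [h1]
    have h2 : 0 ≤ N2 τ w := hτ.pos w
    positivity

theorem DY_min (m : ℕ) (x : ℝ) (hx : 0 ≤ x) :
    min (1 / 10 : ℝ) (min (1 / 10) ((m : ℝ) * x) + x) = min (1 / 10) (((m + 1 : ℕ) : ℝ) * x) := by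
  push_cast
  rcases le_total ((m : ℝ) * x) (1 / 10) with h | h
  · rw [min_eq_right h]
    congr 1
    ring
  · rw [min_eq_left h, min_eq_left (by linarith), min_eq_left (by linarith)]

/-- DY.  Iterate: start with `W = 0`, `I = ∅`; induction on the number `m` of steps for
`∃ I W, (∀ i ∈ I, n₀ ≤ i) ∧ Good D 1 (min (1/10) (m * (δ² r / 10))) I W ∧ AI β D K (400 η) I W`. -/
theorem dyn (hD : ComFam D) (hβ : IsAct β) (hinv : ∀ g i, ∀ a ∈ D i, β g a ∈ D i)
    {K : Finset G} {η : ℝ} (hη : 0 < η) (hη1 : η ≤ 1 / 4)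
    (h : ∃ R r : ℝ, 0 < R ∧ 0 < r ∧ ∀ n₀ : ℕ, ∃ (I : Finset ℕ) (S : B), (∀ i ∈ I, n₀ ≤ i) ∧
      Good D R r I S ∧ RI β D K η I S) (n₀ : ℕ) :
    ∃ (I : Finset ℕ) (V : B), (∀ i ∈ I, n₀ ≤ i) ∧ Good D 1 (1 / 10) I V ∧
      AI β D K (400 * η) I V := by
  obtain ⟨R, r, hR, hr, hblk⟩ := h
  obtain ⟨δ, hδ, hδR⟩ : ∃ δ : ℝ, 0 < δ ∧ δ * R ≤ 1 / 100 := by
    refine ⟨1 / (100 * R), by positivity, le_of_eq ?_⟩
    field_simp
  have hx : 0 < δ ^ 2 * r / 10 := by positivity
  have key : ∀ m : ℕ, ∃ (I : Finset ℕ) (W : B), (∀ i ∈ I, n₀ ≤ i) ∧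
      Good D 1 (min (1 / 10) ((m : ℝ) * (δ ^ 2 * r / 10))) I W ∧ AI β D K (400 * η) I W := by
    intro m
    induction m with
    | zero =>
      refine ⟨∅, 0, ?_, ?_, (DY_base hη).2⟩
      · intro i hi
        simp at hi
      · have h1 : min (1 / 10 : ℝ) (((0 : ℕ) : ℝ) * (δ ^ 2 * r / 10)) = 0 := by
          rw [Nat.cast_zero, zero_mul]
          exact min_eq_right (by norm_num)
        rw [h1]
        exact (DY_base (β := β) (K := K) hη).1
    | succ m ih =>
      obtain ⟨I, W, hI, hW, hA⟩ := ih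
      obtain ⟨J, S, hJ, hS, hRI⟩ := hblk (max n₀ (I.sup id + 1))
      have hIJ : Disjoint I J := by
        rw [Finset.disjoint_left]
        intro i hi hj
        have h1 : i ≤ I.sup id := Finset.le_sup (f := id) hi
        have h2 := hJ i hj
        have h3 : I.sup id + 1 ≤ i := le_trans (le_max_right _ _) h2
        omega
      refine ⟨I ∪ J, stp δ W S, ?_, ?_, ?_⟩
      · intro i hi
        rcases Finset.mem_union.1 hi with h1 | h1
        · exact hI i h1
        · exact le_trans (le_max_left _ _) (hJ i h1)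
      · have h1 := stp_good hD hIJ hW hS hδ hδR (le_min (by norm_num) (by positivity))
          (min_le_left _ _) hr
        rw [DY_min m _ hx.le] at h1
        exact h1
      · exact stp_ai hD hβ hinv hIJ hW hS hδ hδR hη hη1 hA hRI
  obtain ⟨m, hm⟩ := exists_nat_ge ((1 / 10 : ℝ) / (δ ^ 2 * r / 10))
  obtain ⟨I, V, hI, hV, hA⟩ := key m
  refine ⟨I, V, hI, ?_, hA⟩
  have h1 : (1 / 10 : ℝ) ≤ (m : ℝ) * (δ ^ 2 * r / 10) := by
    rw [div_le_iff₀ hx] at hm
    exact hm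
  rw [min_eq_left h1] at hV
  exact hV

end Vale.Agent.P095G
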