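import Vale.Agent.P095G.HI
import Vale.Agent.P095G.StepD
import Vale.Agent.P095G.Final

open scoped ENNReal Topology
open Filter

namespace Vale.Agent.P095G

open Vale.Agent.P095 Vale.Agent.P101K

universe u v

/-- HJ.  `block_am` and `dyn` with `η = min (1/4) (ε/400)`. -/
theorem propP_folner (G : Type v) [Group G] (hF : Folner G) : PropP.{u, v} G := by
  intro B _ D hD β hβ hinv c hc hc1 hx K ε n₀ hε
  obtain ⟨η, hη, hη1, hη2⟩ : ∃ η : ℝ, 0 < η ∧ η ≤ 1 / 4 ∧ 400 * η ≤ ε := by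
    refine ⟨min (1 / 4) (ε / 400), lt_min (by norm_num) (by positivity), min_le_left _ _, ?_⟩
    have h1 := min_le_right (1 / 4) (ε / 400)
    linarith
  obtain ⟨I, V, hI, hV, hA⟩ := dyn hD hβ hinv (K := K) hη hη1
    (block_am hD hβ hinv hF hc hx K η hη) n₀
  refine ⟨I, V, hI, ⟨hV.sa, hV.norm, hV.cent, hV.mean, fun τ hτ w hw => ?_⟩,
    fun τ hτ w hw s hs => ?_⟩
  · exact (mul_le_mul_of_nonneg_right hc1 (hτ.pos w)).trans (hV.var τ hτ w hw)
  · exact (hA τ hτ w hw s hs).trans (mul_le_mul_of_nonneg_right hη2 (hτ.pos w))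

/-- HK.  As `main` with `propP_folner`. -/
theorem main_am (A : Type u) [CStarAlgebra A] [Nontrivial A] [TopologicalSpace.SeparableSpace A]
    (ω : Ultrafilter ℕ) (hω : (ω : Filter ℕ) ≤ atTop) (h : ZStable A ω) (G : Type v) [Group G]
    [Countable G] (hG : Folner G) (α : G →* (A ≃⋆ₐ[ℂ] A)) : EqGamma α :=
  main_of_propP A ω hω h G (propP_folner G hG) α

end Vale.Agent.P095G
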