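import Vale.Agent.P095G.AmpN
import Vale.Agent.P095G.Zb

namespace Vale.Agent.P095G

open Vale.Agent.P095

universe u v

variable {B : Type u} [CStarAlgebra B] {D : ℕ → Set B}

/-- the real inequality in `AG` -/
theorem AG_real {c μ n x y P q : ℝ} (hc : 0 ≤ c) (hc1 : c ≤ 1) (hμ : 0 ≤ μ) (hn : 0 < n)
    (hx : μ * n ≤ x) (hxn : x ≤ n) (hcs : (n - x) ^ 2 ≤ n * y) (hq : c * y ≤ q)
    (hP : P = x + 1 / 4 * q) : (μ + c / 4 * (1 - μ) ^ 2) * n ≤ P := by
  have h1 : c / 4 * (n - x) ^ 2 ≤ c / 4 * (n * y) :=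
    mul_le_mul_of_nonneg_left hcs (by linarith)
  have h2 : n * (c * y) ≤ n * q := mul_le_mul_of_nonneg_left hq hn.le
  have h3 : 0 ≤ (x - μ * n) * (n - c / 4 * ((n - x) + (n - μ * n))) := by
    apply mul_nonneg (by linarith)
    have h4 : 0 ≤ (n - x) + (n - μ * n) := by
      have : μ * n ≤ n := le_trans hx hxn
      linarith
    have h5 : (n - x) + (n - μ * n) ≤ 2 * n := by
      have : 0 ≤ μ * n := by positivity
      linarith
    have h6 : c / 4 * ((n - x) + (n - μ * n)) ≤ 1 / 4 * (2 * n) :=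
      mul_le_mul (by linarith) h5 h4 (by norm_num)
    linarith
  have h7 : n * ((μ + c / 4 * (1 - μ) ^ 2) * n) ≤ n * P := by
    rw [hP]
    nlinarith [h1, h2, h3]
  exact le_of_mul_le_mul_left h7 hn

/-- the cross term is zero -/
theorem AG_cross {J : Finset ℕ} {c : ℝ} {W V w : B} (hWs : star W = W)
    (hWJ : W ∈ Zc D J) (hV : Good D 1 c J V) (hw : w ∈ Zc D J) {τ : B →ₗ[ℝ] ℝ} (hτ : Tr τ) :
    τ (star (W * w) * ((1 / 2 : ℝ) • ((1 - W * W) * V) * w)) = 0 := by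
  have h1 : star (W * w) * ((1 / 2 : ℝ) • ((1 - W * W) * V) * w)
      = (1 / 2 : ℝ) • ((star w * W * (1 - W * W) * V) * w) := by
    rw [star_mul, hWs, smul_mul_assoc, mul_smul_comm]
    congr 1
    noncomm_ring
  have h2 : w * (star w * W * (1 - W * W) * V) = (w * star w * W * (1 - W * W)) * V := by
    noncomm_ring
  have h3 : w * star w * W * (1 - W * W) ∈ Zc D J :=
    mul_mem (mul_mem (mul_mem hw (star_mem hw)) hWJ) (sub_mem (one_mem _) (mul_mem hWJ hWJ))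
  rw [h1, map_smul, hτ.comm, h2, hV.mean τ hτ _ h3, smul_zero]

theorem AG_n2 {J : Finset ℕ} {c : ℝ} {W V w : B} (hWs : star W = W) (hWV : W * V = V * W)
    (hWJ : W ∈ Zc D J) (hV : Good D 1 c J V) (hw : w ∈ Zc D J) {τ : B →ₗ[ℝ] ℝ} (hτ : Tr τ) :
    N2 τ ((W + (1 / 2 : ℝ) • ((1 - W * W) * V)) * w)
      = N2 τ (W * w) + 1 / 4 * N2 τ (V * ((1 - W * W) * w)) := by
  have h1 : (1 - W * W) * V = V * (1 - W * W) := by
    have : W * W * V = V * (W * W) := by
      rw [mul_assoc, hWV, ← mul_assoc, hWV, mul_assoc]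
    rw [sub_mul, mul_sub, one_mul, mul_one, this]
  have h2 : (1 / 2 : ℝ) • ((1 - W * W) * V) * w = (1 / 2 : ℝ) • (V * ((1 - W * W) * w)) := by
    rw [smul_mul_assoc, h1, mul_assoc]
  rw [add_mul, n2_add hτ, AG_cross hWs hWJ hV hw hτ, h2, n2_smul]
  norm_num

theorem AG_cs {W w : B} (hWs : star W = W) {τ : B →ₗ[ℝ] ℝ} (hτ : Tr τ) :
    (N2 τ w - N2 τ (W * w)) ^ 2 ≤ N2 τ w * N2 τ ((1 - W * W) * w) := by
  have h := tr_cs hτ w ((1 - W * W) * w)
  have h1 : star w * ((1 - W * W) * w) = star w * w - star (W * w) * (W * w) := by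
    rw [star_mul, hWs]
    noncomm_ring
  rw [h1, map_sub] at h
  exact h

/-- AG.  `N(W₊w) = N(Ww) + N((1-W²)Vw)/4` (cross term 0 by `mean` of `V`),
`N(V(1-W²)w) ≥ c N((1-W²)w) ≥ c (N(w)-N(Ww))²/N(w)` (Cauchy-Schwarz), and
`m ↦ m + (c/4)(1-m)²` is increasing on `[0,1]`. -/
theorem amp_good (hD : ComFam D) {I J : Finset ℕ} (hIJ : Disjoint I J) {c μ : ℝ} {W V : B}
    (hc : 0 ≤ c) (hc1 : c ≤ 1) (hμ : 0 ≤ μ) (hμ1 : μ ≤ 1)
    (hW : Good D 1 μ I W) (hV : Good D 1 c J V) :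
    Good D 1 (μ + c / 4 * (1 - μ) ^ 2) (I ∪ J) (W + (1 / 2 : ℝ) • ((1 - W * W) * V)) := by
  have hWJ : W ∈ Zc D J := good_mem hD hIJ hW
  have hVI : V ∈ Zc D I := good_mem hD hIJ.symm hV
  have hWV : W * V = V * W := (hW.cent V hVI).symm
  have hcom : (1 - W * W) * V = V * (1 - W * W) := by
    have : W * W * V = V * (W * W) := by
      rw [mul_assoc, hWV, ← mul_assoc, hWV, mul_assoc]
    rw [sub_mul, mul_sub, one_mul, mul_one, this]
  refine ⟨?_, amp_norm hW.sa hW.norm hV.sa hV.norm hWV, ?_, ?_, ?_⟩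
  · rw [star_add, star_smul, star_mul, star_sub, star_one, star_mul, hW.sa, hV.sa, hcom]
    simp
  · intro z hz
    have hzI := Zc_anti Finset.subset_union_left hz
    have hzJ := Zc_anti Finset.subset_union_right hz
    have h1 := hW.cent z hzI
    have h2 := hV.cent z hzJ
    have h4 : z * (W * W) = W * W * z := by rw [← mul_assoc, h1, mul_assoc, h1, mul_assoc]
    have h3 : z * ((1 - W * W) * V) = (1 - W * W) * V * z := by
      rw [← mul_assoc, mul_sub, h4, mul_one, mul_assoc (1 - W * W) V z, ← h2, ← mul_assoc,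
        sub_mul 1 (W * W) z, one_mul]
    rw [mul_add, add_mul, h1, mul_smul_comm, smul_mul_assoc, h3]
  · intro τ hτ z hz
    have hzI := Zc_anti Finset.subset_union_left hz
    have hzJ := Zc_anti Finset.subset_union_right hz
    have h1 : z * ((1 - W * W) * V) = (z * (1 - W * W)) * V := by noncomm_ring
    have h2 : z * (1 - W * W) ∈ Zc D J :=
      mul_mem hzJ (sub_mem (one_mem _) (mul_mem hWJ hWJ))
    rw [mul_add, mul_smul_comm, map_add, map_smul, hW.mean τ hτ z hzI, h1, hV.mean τ hτ _ h2,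
      smul_zero, add_zero]
  · intro τ hτ w hw
    have hwI := Zc_anti Finset.subset_union_left hw
    have hwJ := Zc_anti Finset.subset_union_right hw
    rcases (n2_nonneg hτ w).eq_or_lt with h0 | h0
    · rw [← h0, mul_zero]
      exact n2_nonneg hτ _
    · have h2 : (1 - W * W) * w ∈ Zc D J :=
        mul_mem (sub_mem (one_mem _) (mul_mem hWJ hWJ)) hwJ
      have h3 : N2 τ (W * w) ≤ N2 τ w := by
        have h4 := n2_mul_le hτ w W
        have h5 : ‖W‖ ^ 2 ≤ 1 := by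
          have := hW.norm
          have h6 := norm_nonneg W
          nlinarith
        calc N2 τ (W * w) ≤ ‖W‖ ^ 2 * N2 τ w := h4
          _ ≤ 1 * N2 τ w := mul_le_mul_of_nonneg_right h5 h0.le
          _ = N2 τ w := one_mul _
      exact AG_real hc hc1 hμ h0 (hW.var τ hτ w hwI) h3 (AG_cs hW.sa hτ)
        (hV.var τ hτ _ h2) (AG_n2 hW.sa hWV hWJ hV hwJ hτ)

end Vale.Agent.P095G
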