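import Vale.Agent.P095G.Defs

namespace Vale.Agent.P095G.AmpNPf

universe u

variable {B : Type u} [CStarAlgebra B]

theorem le_one_of_norm [PartialOrder B] [StarOrderedRing B] {x : B} (hx : star x = x)
    (h : ‖x‖ ≤ 1) : x ≤ 1 := by
  have h1 : IsSelfAdjoint x := hx
  have h2 := h1.le_algebraMap_norm_self
  refine h2.trans ?_
  rw [Algebra.algebraMap_eq_smul_one]
  calc ‖x‖ • (1 : B) ≤ (1 : ℝ) • 1 := smul_le_smul_of_nonneg_right h zero_le_one
    _ = 1 := one_smul _ _

/-- `-1 ≤ x ≤ 1` gives `‖x‖ ≤ 1` -/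
theorem norm_le_one_of_mul [PartialOrder B] [StarOrderedRing B] {x : B} (hx : star x = x)
    (h : 0 ≤ (1 - x) * (1 + x)) : ‖x‖ ≤ 1 := by
  have h1 : star x * x ≤ 1 := by
    rw [hx, ← sub_nonneg]
    have : 1 - x * x = (1 - x) * (1 + x) := by noncomm_ring
    rw [this]
    exact h
  have h2 : ‖star x * x‖ ≤ 1 :=
    (CStarAlgebra.norm_le_one_iff_of_nonneg (star x * x) (star_mul_self_nonneg x)).2 h1
  rw [CStarRing.norm_star_mul_self] at h2
  nlinarith [norm_nonneg x]

theorem half_norm {W V : B} (hW1 : ‖W‖ ≤ 1) (hV1 : ‖V‖ ≤ 1) :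
    ‖(1 / 2 : ℝ) • ((1 + W) * V)‖ ≤ 1 := by
  rw [norm_smul]
  have h1 : ‖(1 : B) + W‖ ≤ 2 := by
    refine (norm_add_le _ _).trans ?_
    have : ‖(1 : B)‖ ≤ 1 := by
      rcases subsingleton_or_nontrivial B with h | h
      · rw [Subsingleton.elim (1 : B) 0, norm_zero]; exact zero_le_one
      · exact CStarRing.norm_one.le
    linarith
  have h2 : ‖(1 + W) * V‖ ≤ 2 * 1 :=
    (norm_mul_le _ _).trans (mul_le_mul h1 hV1 (norm_nonneg _) (by norm_num))
  rw [Real.norm_of_nonneg (by norm_num)]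
  linarith

theorem amp_norm {W V : B} (hW : star W = W) (hW1 : ‖W‖ ≤ 1) (hV : star V = V) (hV1 : ‖V‖ ≤ 1)
    (hWV : W * V = V * W) : ‖W + (1 / 2 : ℝ) • ((1 - W * W) * V)‖ ≤ 1 := by
  let _ := CStarAlgebra.spectralOrder B
  let _ := CStarAlgebra.spectralOrderedRing B
  set X : B := W + (1 / 2 : ℝ) • ((1 - W * W) * V) with hX
  have hc : Commute W V := hWV
  have hc1 : Commute W ((1 / 2 : ℝ) • ((1 + W) * V)) :=
    (((Commute.one_right W).add_right (Commute.refl W)).mul_right hc).smul_right _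
  have hc2 : Commute W ((1 / 2 : ℝ) • ((1 - W) * V)) :=
    (((Commute.one_right W).sub_right (Commute.refl W)).mul_right hc).smul_right _
  have hXs : star X = X := by
    have h1 : Commute (1 - W * W) V :=
      (Commute.one_left V).sub_left (hc.mul_left hc)
    rw [hX, star_add, star_smul, star_mul, star_sub, star_mul, star_one, hW, hV, h1.eq]
    simp
  have hA : 0 ≤ 1 - X := by
    have e : 1 - X = (1 - W) * (1 - (1 / 2 : ℝ) • ((1 + W) * V)) := by
      rw [hX, mul_sub, mul_one, mul_smul_comm, ← mul_assoc, sub_add_eq_sub_sub]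
      congr 2
      noncomm_ring
    rw [e]
    refine Commute.mul_nonneg (sub_nonneg.2 (le_one_of_norm hW hW1)) (sub_nonneg.2
      (le_one_of_norm ?_ (half_norm hW1 hV1))) ?_
    · have h1 : Commute (1 + W) V := (Commute.one_left V).add_left hc
      rw [star_smul, star_mul, star_add, star_one, hW, hV, h1.eq]
      simp
    · exact ((Commute.one_right _).sub_right
        ((Commute.one_left _).sub_left hc1))
  have hB : 0 ≤ 1 + X := by
    have e : 1 + X = (1 + W) * (1 + (1 / 2 : ℝ) • ((1 - W) * V)) := by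
      rw [hX, mul_add, mul_one, mul_smul_comm, ← mul_assoc, ← add_assoc]
      congr 3
      noncomm_ring
    have hn : ‖-W‖ ≤ 1 := by rw [norm_neg]; exact hW1
    have hn' : ‖-V‖ ≤ 1 := by rw [norm_neg]; exact hV1
    rw [e]
    refine Commute.mul_nonneg ?_ ?_ ?_
    · have := le_one_of_norm (x := -W) (by rw [star_neg, hW]) hn
      have h2 := sub_nonneg.2 this
      rwa [sub_neg_eq_add] at h2
    · have h3 := half_norm (W := -W) (V := -V) hn hn'
      have e2 : (1 / 2 : ℝ) • ((1 + -W) * -V) = - ((1 / 2 : ℝ) • ((1 - W) * V)) := by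
        rw [← sub_eq_add_neg, mul_neg, smul_neg]
      rw [e2] at h3
      have h1 : Commute (1 - W) V := (Commute.one_left V).sub_left hc
      have := le_one_of_norm (x := - ((1 / 2 : ℝ) • ((1 - W) * V))) (by
        rw [star_neg, star_smul, star_mul, star_sub, star_one, hW, hV, h1.eq]
        simp) h3
      have h2 := sub_nonneg.2 this
      rwa [sub_neg_eq_add] at h2
    · exact ((Commute.one_right _).add_right
        ((Commute.one_left _).add_left hc2))
  exact norm_le_one_of_mul hXs (Commute.mul_nonneg hA hB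
    (((Commute.one_left _).sub_left ((Commute.one_right _).add_right (Commute.refl _)))))

end Vale.Agent.P095G.AmpNPf
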