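import Vale.Agent.P095G.DynP
import Vale.Agent.P095G.AmpNPf

namespace Vale.Agent.P095G

open Vale.Agent.P095

universe u v

variable {B : Type u} [CStarAlgebra B] {D : ℕ → Set B}

/-- AN.  `1 - W₊ = (1-W)(1 - (1/2)(1+W)V)`, `1 + W₊ = (1+W)(1 + (1/2)(1-W)V)`. -/
theorem amp_norm {W V : B} (hW : star W = W) (hW1 : ‖W‖ ≤ 1) (hV : star V = V) (hV1 : ‖V‖ ≤ 1)
    (hWV : W * V = V * W) : ‖W + (1 / 2 : ℝ) • ((1 - W * W) * V)‖ ≤ 1 := by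
  exact AmpNPf.amp_norm hW hW1 hV hV1 hWV

end Vale.Agent.P095G
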