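import Vale.Agent.P095G.Defs

namespace Vale.Agent.P095G

open Vale.Agent.P095

universe u v

/-- BA.  Reindexing `q ↦ s * q`; the supports of `κ` and `κ (s⁻¹ ·)` are in `P`. -/
theorem tt_act {B : Type u} [CStarAlgebra B] {Q : Type v} [Group Q] (f : B →⋆ₐ[ℂ] B) (n : ℕ)
    (P : Finset Q) (X : ℕ → Q → B) (κ : Q → ℝ) (s : Q) (h1 : ∀ q, q ∉ P → κ q = 0)
    (h2 : ∀ q, q ∉ P → κ (s⁻¹ * q) = 0) :
    f (TT n P X κ) = TT n P (fun k q => f (X k (s⁻¹ * q))) (fun q => κ (s⁻¹ * q)) := by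
  unfold TT
  rw [map_sum]
  refine Finset.sum_congr rfl fun i _ => ?_
  rw [map_sum]
  refine Finset.sum_congr rfl fun j _ => ?_
  rw [map_sum]
  have hs : ∀ q, f (κ q • (X i q * X j q)) = κ q • (f (X i q) * f (X j q)) := by
    intro q
    rw [← Complex.coe_smul (κ q) (X i q * X j q), map_smul, map_mul, Complex.coe_smul]
  simp only [hs]
  have e1 : ∑ q ∈ P, κ q • (f (X i q) * f (X j q))
      = ∑ᶠ q, κ q • (f (X i q) * f (X j q)) := by
    refine (finsum_eq_sum_of_support_subset _ fun q hq => ?_).symm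
    by_contra hqP
    exact hq (by
      have : κ q = 0 := h1 q hqP
      simp only [this, zero_smul])
  have e2 : ∑ q ∈ P, κ (s⁻¹ * q) • (f (X i (s⁻¹ * q)) * f (X j (s⁻¹ * q)))
      = ∑ᶠ q, κ (s⁻¹ * q) • (f (X i (s⁻¹ * q)) * f (X j (s⁻¹ * q))) := by
    refine (finsum_eq_sum_of_support_subset _ fun q hq => ?_).symm
    by_contra hqP
    exact hq (by
      have : κ (s⁻¹ * q) = 0 := h2 q hqP
      simp only [this, zero_smul])
  rw [e1, e2]
  exact (finsum_comp_equiv (f := fun q => κ q • (f (X i q) * f (X j q)))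
    (Equiv.mulLeft s⁻¹)).symm

/-- BA2. -/
theorem tt_sub {B : Type u} [CStarAlgebra B] {Q : Type v} (n : ℕ) (P : Finset Q) (X : ℕ → Q → B)
    (a b : Q → ℝ) : TT n P X a - TT n P X b = TT n P X (fun q => a q - b q) := by
  unfold TT
  simp only [sub_smul, Finset.sum_sub_distrib]

/-- BA3. -/
theorem tt_congr {B : Type u} [CStarAlgebra B] {Q : Type v} (n : ℕ) (P : Finset Q)
    (X Y : ℕ → Q → B) (a b : Q → ℝ) (h : ∀ k < n, ∀ q ∈ P, X k q = Y k q)
    (hab : ∀ q ∈ P, a q = b q) : TT n P X a = TT n P Y b := by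
  unfold TT
  refine Finset.sum_congr rfl fun i hi => Finset.sum_congr rfl fun j hj =>
    Finset.sum_congr rfl fun q hq => ?_
  have hi' : i < n := Finset.mem_range.1 hi
  have hj' : j < n := lt_trans (Finset.mem_range.1 hj) hi'
  rw [h i hi' q hq, h j hj' q hq, hab q hq]

end Vale.Agent.P095G
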