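import Vale.Agent.P095G.Defs

namespace Vale.Agent.P095G

universe u v

/-- BB.  Successive choice of disjoint finite sets. -/
theorem seq_blocks {B : Type u} (p : Finset ℕ → B → Prop)
    (h : ∀ n₀ : ℕ, ∃ (I : Finset ℕ) (V : B), (∀ i ∈ I, n₀ ≤ i) ∧ p I V) (n₀ : ℕ) :
    ∃ (I : ℕ → Finset ℕ) (V : ℕ → B), (∀ k, ∀ i ∈ I k, n₀ ≤ i) ∧ (∀ k, p (I k) (V k)) ∧
      ∀ j k, j ≠ k → Disjoint (I j) (I k) := by
  choose I' V' hI hp using h
  let N : ℕ → ℕ := fun k => Nat.rec n₀ (fun _ n => max n ((I' n).sup id + 1)) k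
  have hN0 : N 0 = n₀ := rfl
  have hNs : ∀ k, N (k + 1) = max (N k) ((I' (N k)).sup id + 1) := fun k => rfl
  have hmono : Monotone N := monotone_nat_of_le_succ fun k => by
    rw [hNs]; exact le_max_left _ _
  have hlt : ∀ j k, j < k → Disjoint (I' (N j)) (I' (N k)) := by
    intro j k hjk
    rw [Finset.disjoint_left]
    intro i hi hi'
    have h1 : i ≤ (I' (N j)).sup id := Finset.le_sup (f := id) hi
    have h2 : (I' (N j)).sup id + 1 ≤ N (j + 1) := by rw [hNs]; exact le_max_right _ _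
    have h3 : N (j + 1) ≤ N k := hmono hjk
    have h4 := hI (N k) i hi'
    omega
  refine ⟨fun k => I' (N k), fun k => V' (N k), fun k i hi => ?_, fun k => hp _, fun j k hjk => ?_⟩
  · have h1 := hI (N k) i hi
    have h2 : N 0 ≤ N k := hmono (Nat.zero_le k)
    rw [hN0] at h2
    exact h2.trans h1
  · rcases lt_or_gt_of_ne hjk with h | h
    · exact hlt j k h
    · exact (hlt k j h).symm

end Vale.Agent.P095G
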