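import Vale.Agent.P095G.Tb
import Vale.Agent.P095G.Zb

namespace Vale.Agent.P095G

universe u v

variable {B : Type u} [CStarAlgebra B] {D : ℕ → Set B} {τ : B →ₗ[ℝ] ℝ}

private theorem QD_comm (hD : ComFam D) {Q : Type v} {n : ℕ} {I : ℕ → Finset ℕ}
    (hI : ∀ i j, i < n → j < n → i ≠ j → Disjoint (I i) (I j)) {c : ℝ}
    {X : ℕ → Q → B} (hX : ∀ i < n, ∀ q, Good D 1 c (I i) (X i q)) {i j : ℕ} (hi : i < n)
    (hj : j < i) (q : Q) : X j q * X i q = X i q * X j q :=
  (hX i hi q).cent _ (good_mem hD (hI j i (hj.trans hi) hi hj.ne) (hX j (hj.trans hi) q))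

private theorem QD_anti {n : ℕ} {I : ℕ → Finset ℕ} {z : B}
    (hz : z ∈ Zc D ((Finset.range n).biUnion I)) {i : ℕ} (hi : i < n) : z ∈ Zc D (I i) :=
  Zc_anti (Finset.subset_biUnion_of_mem I (Finset.mem_range.2 hi)) hz

/-- QD. -/
theorem tt_basic (hD : ComFam D) {Q : Type v} (n : ℕ) (I : ℕ → Finset ℕ)
    (hI : ∀ i j, i < n → j < n → i ≠ j → Disjoint (I i) (I j)) {c : ℝ}
    (X : ℕ → Q → B) (hX : ∀ i < n, ∀ q, Good D 1 c (I i) (X i q)) (P : Finset Q) (a : Q → ℝ) :
    star (TT n P X a) = TT n P X a ∧ ‖TT n P X a‖ ≤ n ^ 2 * ∑ q ∈ P, |a q| ∧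
      (∀ z ∈ Zc D ((Finset.range n).biUnion I), z * TT n P X a = TT n P X a * z) ∧
      ∀ τ, Tr τ → ∀ z ∈ Zc D ((Finset.range n).biUnion I), τ (z * TT n P X a) = 0 := by
  refine ⟨?_, ?_, ?_, ?_⟩
  · unfold TT
    rw [star_sum]
    refine Finset.sum_congr rfl fun i hi => ?_
    rw [star_sum]
    refine Finset.sum_congr rfl fun j hj => ?_
    rw [star_sum]
    refine Finset.sum_congr rfl fun q _ => ?_
    have hi' := Finset.mem_range.1 hi
    have hj' := Finset.mem_range.1 hj
    rw [star_smul, star_mul, (hX i hi' q).sa, (hX j (hj'.trans hi') q).sa,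
      QD_comm hD hI hX hi' hj' q, star_trivial]
  · unfold TT
    have h0 : 0 ≤ ∑ q ∈ P, |a q| := Finset.sum_nonneg fun q _ => abs_nonneg _
    have h1 : ∀ i ∈ Finset.range n, ‖∑ j ∈ Finset.range i, ∑ q ∈ P, a q • (X i q * X j q)‖ ≤
        n * ∑ q ∈ P, |a q| := by
      intro i hi
      have hi' := Finset.mem_range.1 hi
      have h2 : ∀ j ∈ Finset.range i, ‖∑ q ∈ P, a q • (X i q * X j q)‖ ≤ ∑ q ∈ P, |a q| := by
        intro j hj
        have hj' := Finset.mem_range.1 hj
        refine norm_sum_le_of_le _ fun q _ => ?_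
        rw [norm_smul, Real.norm_eq_abs]
        have h3 : ‖X i q * X j q‖ ≤ 1 := by
          refine (norm_mul_le _ _).trans ?_
          calc ‖X i q‖ * ‖X j q‖ ≤ 1 * 1 :=
                mul_le_mul (hX i hi' q).norm (hX j (hj'.trans hi') q).norm (norm_nonneg _)
                  zero_le_one
            _ = 1 := one_mul 1
        calc |a q| * ‖X i q * X j q‖ ≤ |a q| * 1 := mul_le_mul_of_nonneg_left h3 (abs_nonneg _)
          _ = |a q| := mul_one _
      refine (norm_sum_le_of_le _ h2).trans ?_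
      rw [Finset.sum_const, Finset.card_range, nsmul_eq_mul]
      refine mul_le_mul_of_nonneg_right ?_ h0
      exact_mod_cast hi'.le
    refine (norm_sum_le_of_le _ h1).trans ?_
    rw [Finset.sum_const, Finset.card_range, nsmul_eq_mul]
    exact le_of_eq (by ring)
  · intro z hz
    unfold TT
    rw [Finset.mul_sum, Finset.sum_mul]
    refine Finset.sum_congr rfl fun i hi => ?_
    rw [Finset.mul_sum, Finset.sum_mul]
    refine Finset.sum_congr rfl fun j hj => ?_
    rw [Finset.mul_sum, Finset.sum_mul]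
    refine Finset.sum_congr rfl fun q _ => ?_
    have hi' := Finset.mem_range.1 hi
    have hj' := Finset.mem_range.1 hj
    rw [mul_smul_comm, smul_mul_assoc, ← mul_assoc z, (hX i hi' q).cent z (QD_anti hz hi'),
      mul_assoc (X i q) z, (hX j (hj'.trans hi') q).cent z (QD_anti hz (hj'.trans hi')),
      ← mul_assoc]
  · intro τ hτ z hz
    unfold TT
    rw [Finset.mul_sum, map_sum]
    refine Finset.sum_eq_zero fun i hi => ?_
    rw [Finset.mul_sum, map_sum]
    refine Finset.sum_eq_zero fun j hj => ?_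
    rw [Finset.mul_sum, map_sum]
    refine Finset.sum_eq_zero fun q _ => ?_
    have hi' := Finset.mem_range.1 hi
    have hj' := Finset.mem_range.1 hj
    rw [mul_smul_comm, map_smul, ← mul_assoc z,
      (hX j (hj'.trans hi') q).mean τ hτ (z * X i q)
        (mul_mem (QD_anti hz (hj'.trans hi'))
          (good_mem hD (hI i j hi' (hj'.trans hi') hj'.ne') (hX i hi' q))), smul_zero]

end Vale.Agent.P095G
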