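import Vale.Agent.P095G.Tb
import Vale.Agent.P095G.Zb

namespace Vale.Agent.P095G

universe u v

variable {B : Type u} [CStarAlgebra B] {D : ℕ → Set B} {τ : B →ₗ[ℝ] ℝ}

theorem QE_sqrt_sum (hτ : Tr τ) {ι : Type v} (s : Finset ι) (f : ι → B) :
    √(N2 τ (∑ k ∈ s, f k)) ≤ ∑ k ∈ s, √(N2 τ (f k)) := by
  classical
  induction s using Finset.induction_on with
  | empty => simp [n2_zero]
  | insert a s ha ih =>
    rw [Finset.sum_insert ha, Finset.sum_insert ha]
    exact (n2_sqrt_add hτ _ _).trans (add_le_add le_rfl ih)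

theorem QE_sqrt_smul (r : ℝ) (a : B) : √(N2 τ (r • a)) = |r| * √(N2 τ a) := by
  rw [n2_smul, Real.sqrt_mul (sq_nonneg r), Real.sqrt_sq_eq_abs]

theorem QE_sqrt_le {r : ℝ} (hr : 0 ≤ r) {a b : B} (h : N2 τ a ≤ r ^ 2 * N2 τ b) :
    √(N2 τ a) ≤ r * √(N2 τ b) := by
  calc √(N2 τ a) ≤ √(r ^ 2 * N2 τ b) := Real.sqrt_le_sqrt h
    _ = r * √(N2 τ b) := by rw [Real.sqrt_mul (sq_nonneg r), Real.sqrt_sq hr]

/-- QE.  Two families that are close: telescoping, `n2_mul_le`, triangle inequality for `√N2`. -/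
theorem tt_close (hD : ComFam D) (hτ : Tr τ) {Q : Type v} (n : ℕ) (I : ℕ → Finset ℕ)
    (hI : ∀ i j, i < n → j < n → i ≠ j → Disjoint (I i) (I j)) {c : ℝ}
    (X Y : ℕ → Q → B) (hX : ∀ i < n, ∀ q, Good D 1 c (I i) (X i q))
    (hY : ∀ i < n, ∀ q, Good D 1 c (I i) (Y i q)) (P : Finset Q) (a : Q → ℝ) {ε : ℝ}
    (hε : 0 ≤ ε) (hXY : ∀ i < n, ∀ q ∈ P, ∀ w ∈ Zc D (I i),
      N2 τ ((Y i q - X i q) * w) ≤ ε ^ 2 * N2 τ w) (w : B)
    (hw : w ∈ Zc D ((Finset.range n).biUnion I)) :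
    √(N2 τ ((TT n P Y a - TT n P X a) * w)) ≤ 2 * n ^ 2 * (∑ q ∈ P, |a q|) * ε * √(N2 τ w) := by
  have hwi : ∀ i < n, w ∈ Zc D (I i) := fun i hi =>
    Zc_anti (Finset.subset_biUnion_of_mem I (Finset.mem_range.2 hi)) hw
  -- one term
  have hterm : ∀ i < n, ∀ j < i, ∀ q ∈ P,
      √(N2 τ ((a q • (Y i q * Y j q) - a q • (X i q * X j q)) * w)) ≤
        |a q| * (2 * ε * √(N2 τ w)) := by
    intro i hi j hj q hq
    have hjn : j < n := hj.trans hi
    have h1 : (a q • (Y i q * Y j q) - a q • (X i q * X j q)) * w =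
        a q • ((Y i q - X i q) * (Y j q * w) + X i q * ((Y j q - X j q) * w)) := by
      rw [← smul_sub, smul_mul_assoc]
      congr 1
      noncomm_ring
    rw [h1, QE_sqrt_smul]
    refine mul_le_mul_of_nonneg_left ?_ (abs_nonneg _)
    refine (n2_sqrt_add hτ _ _).trans ?_
    have h2 : √(N2 τ ((Y i q - X i q) * (Y j q * w))) ≤ ε * √(N2 τ w) := by
      have hmem : Y j q * w ∈ Zc D (I i) :=
        mul_mem (good_mem hD (hI j i hjn hi (ne_of_lt hj)) (hY j hjn q)) (hwi i hi)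
      refine QE_sqrt_le hε ?_
      refine (hXY i hi q hq _ hmem).trans ?_
      refine mul_le_mul_of_nonneg_left ?_ (sq_nonneg _)
      refine (n2_mul_le hτ w (Y j q)).trans ?_
      have h3 : ‖Y j q‖ ^ 2 ≤ 1 := by
        have := (hY j hjn q).norm
        have h0 := norm_nonneg (Y j q)
        nlinarith
      exact mul_le_of_le_one_left (n2_nonneg hτ w) h3
    have h4 : √(N2 τ (X i q * ((Y j q - X j q) * w))) ≤ ε * √(N2 τ w) := by
      refine QE_sqrt_le hε ?_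
      refine (n2_mul_le hτ _ (X i q)).trans ?_
      have h3 : ‖X i q‖ ^ 2 ≤ 1 := by
        have := (hX i hi q).norm
        have h0 := norm_nonneg (X i q)
        nlinarith
      refine (mul_le_of_le_one_left (n2_nonneg hτ _) h3).trans ?_
      exact hXY j hjn q hq w (hwi j hjn)
    calc √(N2 τ ((Y i q - X i q) * (Y j q * w))) + √(N2 τ (X i q * ((Y j q - X j q) * w)))
        ≤ ε * √(N2 τ w) + ε * √(N2 τ w) := add_le_add h2 h4
      _ = 2 * ε * √(N2 τ w) := by ring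
  have hsum : (TT n P Y a - TT n P X a) * w =
      ∑ i ∈ Finset.range n, ∑ j ∈ Finset.range i, ∑ q ∈ P,
        (a q • (Y i q * Y j q) - a q • (X i q * X j q)) * w := by
    unfold TT
    simp only [← Finset.sum_sub_distrib, Finset.sum_mul]
  rw [hsum]
  set M : ℝ := (∑ q ∈ P, |a q|) * (2 * ε * √(N2 τ w)) with hM
  have hM0 : 0 ≤ M := by positivity
  have h5 : ∀ i < n, √(N2 τ (∑ j ∈ Finset.range i, ∑ q ∈ P,
      (a q • (Y i q * Y j q) - a q • (X i q * X j q)) * w)) ≤ n * M := by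
    intro i hi
    refine (QE_sqrt_sum hτ _ _).trans ?_
    calc ∑ j ∈ Finset.range i, √(N2 τ (∑ q ∈ P,
          (a q • (Y i q * Y j q) - a q • (X i q * X j q)) * w))
        ≤ ∑ j ∈ Finset.range i, M := by
          refine Finset.sum_le_sum fun j hj => ?_
          refine (QE_sqrt_sum hτ _ _).trans ?_
          rw [hM, Finset.sum_mul]
          exact Finset.sum_le_sum fun q hq => hterm i hi j (Finset.mem_range.1 hj) q hq
      _ = i * M := by rw [Finset.sum_const, Finset.card_range, nsmul_eq_mul]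
      _ ≤ n * M := by
          refine mul_le_mul_of_nonneg_right ?_ hM0
          exact_mod_cast hi.le
  calc √(N2 τ (∑ i ∈ Finset.range n, ∑ j ∈ Finset.range i, ∑ q ∈ P,
        (a q • (Y i q * Y j q) - a q • (X i q * X j q)) * w))
      ≤ ∑ i ∈ Finset.range n, √(N2 τ (∑ j ∈ Finset.range i, ∑ q ∈ P,
        (a q • (Y i q * Y j q) - a q • (X i q * X j q)) * w)) := QE_sqrt_sum hτ _ _
    _ ≤ ∑ i ∈ Finset.range n, n * M :=
        Finset.sum_le_sum fun i hi => h5 i (Finset.mem_range.1 hi)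
    _ = n * (n * M) := by rw [Finset.sum_const, Finset.card_range, nsmul_eq_mul]
    _ = 2 * n ^ 2 * (∑ q ∈ P, |a q|) * ε * √(N2 τ w) := by rw [hM]; ring

end Vale.Agent.P095G
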