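import Mathlib

namespace Vale.Agent.P095G

universe v

/-- RI1.  `∑∑ κ κ' M ≥ c' A κ(1)² - n A (∑ κ)²` -/
theorem wq_lower {Q : Type v} (P : Finset Q) (M : Q → Q → ℝ) (κ : Q → ℝ) {A c' : ℝ} {n : ℝ}
    (hA : 0 ≤ A) (hn : 0 ≤ n) (hκ : ∀ q, 0 ≤ κ q) (hM : ∀ q q', -(n * A) ≤ M q q')
    (hc : 0 ≤ c') (hd : ∀ q, c' * A ≤ M q q) {o : Q} (ho : o ∈ P) (ho1 : κ o = 1)
    (hcn : 2 * n * (∑ q ∈ P, κ q) ^ 2 ≤ c') :
    c' / 2 * A ≤ ∑ q ∈ P, ∑ q' ∈ P, κ q * κ q' * M q q' := by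
  have hnn : ∀ q q', 0 ≤ κ q * κ q' * (M q q' + n * A) := by
    intro q q'
    have h1 := hM q q'
    exact mul_nonneg (mul_nonneg (hκ q) (hκ q')) (by linarith)
  have hnA : 0 ≤ n * A := mul_nonneg hn hA
  have h1 : c' * A ≤ ∑ q ∈ P, ∑ q' ∈ P, κ q * κ q' * (M q q' + n * A) := by
    calc c' * A ≤ κ o * κ o * (M o o + n * A) := by
          rw [ho1]
          have := hd o
          linarith
      _ ≤ ∑ q' ∈ P, κ o * κ q' * (M o q' + n * A) :=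
          Finset.single_le_sum (f := fun q' => κ o * κ q' * (M o q' + n * A))
            (fun q' _ => hnn o q') ho
      _ ≤ ∑ q ∈ P, ∑ q' ∈ P, κ q * κ q' * (M q q' + n * A) :=
          Finset.single_le_sum (f := fun q => ∑ q' ∈ P, κ q * κ q' * (M q q' + n * A))
            (fun q _ => Finset.sum_nonneg fun q' _ => hnn q q') ho
  have h2 : ∑ q ∈ P, ∑ q' ∈ P, κ q * κ q' * (M q q' + n * A) =
      (∑ q ∈ P, ∑ q' ∈ P, κ q * κ q' * M q q') + n * A * (∑ q ∈ P, κ q) ^ 2 := by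
    rw [sq, Finset.sum_mul_sum, Finset.mul_sum, ← Finset.sum_add_distrib]
    refine Finset.sum_congr rfl fun q _ => ?_
    rw [Finset.mul_sum, ← Finset.sum_add_distrib]
    refine Finset.sum_congr rfl fun q' _ => ?_
    ring
  have h3 : n * A * (∑ q ∈ P, κ q) ^ 2 ≤ c' / 2 * A := by
    have h4 := mul_le_mul_of_nonneg_right hcn hA
    linarith
  linarith

end Vale.Agent.P095G
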