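import Mathlib

namespace Vale.Agent.P095G

universe v

/-- RI2.  `|Δ q| ≤ ε κ q + ρ q`, `M + 2 n A ≥ |M|`:
`∑∑ Δ Δ' M ≤ ∑∑ (εκ+ρ)(εκ'+ρ')(M + 2nA) ≤ ε² ∑∑ κκ'M + 2nε²(∑κ)²A + (2ε∑κ∑ρ + (∑ρ)²)(n²+2n)A`,
`(∑ρ)(1+∑κ) ≤ ε` and `ε ≤ 1`: the last bracket is `≤ 3 ε²`. -/
theorem wq_upper {Q : Type v} (P : Finset Q) (M : Q → Q → ℝ) (κ ρ Δ : Q → ℝ) {A c' ε : ℝ} {n : ℝ}
    (hA : 0 ≤ A) (hn : 0 ≤ n) (hκ : ∀ q, 0 ≤ κ q) (hρ : ∀ q, 0 ≤ ρ q)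
    (hM : ∀ q q', -(n * A) ≤ M q q' ∧ M q q' ≤ n ^ 2 * A)
    (hΔ : ∀ q ∈ P, |Δ q| ≤ ε * κ q + ρ q) (hε : 0 ≤ ε)
    (hρκ : (∑ q ∈ P, ρ q) * (1 + ∑ q ∈ P, κ q) ≤ ε)
    (hcn : 2 * n * (∑ q ∈ P, κ q) ^ 2 ≤ c') :
    ∑ q ∈ P, ∑ q' ∈ P, Δ q * Δ q' * M q q' ≤
      ε ^ 2 * (∑ q ∈ P, ∑ q' ∈ P, κ q * κ q' * M q q') +
        (ε ^ 2 * c' + 3 * ε ^ 2 * (n ^ 2 + 2 * n)) * A := by
  have hnA : 0 ≤ n * A := mul_nonneg hn hA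
  set Sκ := ∑ q ∈ P, κ q with hSκ
  set Sρ := ∑ q ∈ P, ρ q with hSρ
  have hSκ0 : 0 ≤ Sκ := Finset.sum_nonneg fun q _ => hκ q
  have hSρ0 : 0 ≤ Sρ := Finset.sum_nonneg fun q _ => hρ q
  -- step 1: complete `M` to a nonnegative matrix
  have h1 : ∑ q ∈ P, ∑ q' ∈ P, Δ q * Δ q' * M q q' =
      (∑ q ∈ P, ∑ q' ∈ P, Δ q * Δ q' * (M q q' + n * A)) - n * A * (∑ q ∈ P, Δ q) ^ 2 := by
    rw [sq, Finset.sum_mul_sum, Finset.mul_sum, ← Finset.sum_sub_distrib]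
    refine Finset.sum_congr rfl fun q _ => ?_
    rw [Finset.mul_sum, ← Finset.sum_sub_distrib]
    refine Finset.sum_congr rfl fun q' _ => ?_
    ring
  have h2 : ∑ q ∈ P, ∑ q' ∈ P, Δ q * Δ q' * (M q q' + n * A) ≤
      ∑ q ∈ P, ∑ q' ∈ P, (ε * κ q + ρ q) * (ε * κ q' + ρ q') * (M q q' + n * A) := by
    refine Finset.sum_le_sum fun q hq => Finset.sum_le_sum fun q' hq' => ?_
    have h3 := (hM q q').1
    have h4 : 0 ≤ M q q' + n * A := by linarith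
    apply mul_le_mul_of_nonneg_right _ h4
    calc Δ q * Δ q' ≤ |Δ q * Δ q'| := le_abs_self _
      _ = |Δ q| * |Δ q'| := abs_mul _ _
      _ ≤ (ε * κ q + ρ q) * (ε * κ q' + ρ q') :=
          mul_le_mul (hΔ q hq) (hΔ q' hq') (abs_nonneg _) (le_trans (abs_nonneg _) (hΔ q hq))
  -- step 2: separate the parts
  have h5 : ∑ q ∈ P, ∑ q' ∈ P, (ε * κ q + ρ q) * (ε * κ q' + ρ q') * (M q q' + n * A) ≤
      ∑ q ∈ P, ∑ q' ∈ P, (ε ^ 2 * (κ q * κ q' * M q q') + ε ^ 2 * (n * A) * (κ q * κ q') +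
        (n ^ 2 + n) * A * (ε * (κ q * ρ q') + ε * (ρ q * κ q') + ρ q * ρ q')) := by
    refine Finset.sum_le_sum fun q hq => Finset.sum_le_sum fun q' hq' => ?_
    have h6 := (hM q q').2
    have h7 : 0 ≤ ε * (κ q * ρ q') + ε * (ρ q * κ q') + ρ q * ρ q' := by
      have a1 := mul_nonneg (hκ q) (hρ q')
      have a2 := mul_nonneg (hρ q) (hκ q')
      have a3 := mul_nonneg (hρ q) (hρ q')
      have a4 := mul_nonneg hε a1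
      have a5 := mul_nonneg hε a2
      linarith
    have h8 : (M q q' + n * A) * (ε * (κ q * ρ q') + ε * (ρ q * κ q') + ρ q * ρ q') ≤
        (n ^ 2 + n) * A * (ε * (κ q * ρ q') + ε * (ρ q * κ q') + ρ q * ρ q') := by
      apply mul_le_mul_of_nonneg_right _ h7
      linarith
    nlinarith [h8]
  have h9 : ∑ q ∈ P, ∑ q' ∈ P, (ε ^ 2 * (κ q * κ q' * M q q') + ε ^ 2 * (n * A) * (κ q * κ q') +
        (n ^ 2 + n) * A * (ε * (κ q * ρ q') + ε * (ρ q * κ q') + ρ q * ρ q')) =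
      ε ^ 2 * (∑ q ∈ P, ∑ q' ∈ P, κ q * κ q' * M q q') + ε ^ 2 * (n * A) * (Sκ * Sκ) +
        (n ^ 2 + n) * A * (ε * (Sκ * Sρ) + ε * (Sρ * Sκ) + Sρ * Sρ) := by
    have e1 : Sκ * Sκ = ∑ q ∈ P, ∑ q' ∈ P, κ q * κ q' := Finset.sum_mul_sum ..
    have e2 : Sκ * Sρ = ∑ q ∈ P, ∑ q' ∈ P, κ q * ρ q' := Finset.sum_mul_sum ..
    have e3 : Sρ * Sκ = ∑ q ∈ P, ∑ q' ∈ P, ρ q * κ q' := Finset.sum_mul_sum ..
    have e4 : Sρ * Sρ = ∑ q ∈ P, ∑ q' ∈ P, ρ q * ρ q' := Finset.sum_mul_sum ..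
    rw [e1, e2, e3, e4]
    simp only [Finset.sum_add_distrib, Finset.mul_sum, mul_add]
  -- step 3: the numbers
  have h10 : Sρ ≤ ε := by nlinarith [mul_nonneg hSρ0 hSκ0]
  have h11 : Sρ * Sκ ≤ ε := by nlinarith [mul_nonneg hSρ0 hSκ0]
  have h12 : ε * (Sκ * Sρ) + ε * (Sρ * Sκ) + Sρ * Sρ ≤ 3 * ε ^ 2 := by
    have b1 : ε * (Sρ * Sκ) ≤ ε * ε := mul_le_mul_of_nonneg_left h11 hε
    have b2 : Sρ * Sρ ≤ ε * ε := mul_le_mul h10 h10 hSρ0 hε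
    have b3 : Sκ * Sρ = Sρ * Sκ := mul_comm _ _
    rw [b3]
    nlinarith
  have h13 : (n ^ 2 + n) * A * (ε * (Sκ * Sρ) + ε * (Sρ * Sκ) + Sρ * Sρ) ≤
      (n ^ 2 + n) * A * (3 * ε ^ 2) := by
    apply mul_le_mul_of_nonneg_left h12
    positivity
  have h14 : (n ^ 2 + n) * A * (3 * ε ^ 2) ≤ 3 * ε ^ 2 * (n ^ 2 + 2 * n) * A := by
    have : 0 ≤ 3 * ε ^ 2 * n * A := by positivity
    nlinarith
  have h15 : ε ^ 2 * (n * A) * (Sκ * Sκ) ≤ ε ^ 2 * c' * A := by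
    have c0 : 0 ≤ n * Sκ ^ 2 := by positivity
    have c1 : n * Sκ ^ 2 ≤ c' := by linarith
    have c2 : (ε ^ 2 * A) * (n * Sκ ^ 2) ≤ (ε ^ 2 * A) * c' :=
      mul_le_mul_of_nonneg_left c1 (by positivity)
    nlinarith
  have h16 : 0 ≤ n * A * (∑ q ∈ P, Δ q) ^ 2 := by positivity
  have h17 : (ε ^ 2 * c' + 3 * ε ^ 2 * (n ^ 2 + 2 * n)) * A =
      ε ^ 2 * c' * A + 3 * ε ^ 2 * (n ^ 2 + 2 * n) * A := by ring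
  rw [h1, h17]
  linarith

end Vale.Agent.P095G
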