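import Vale.Agent.P095G.QuadC
import Vale.Agent.P095G.QuadD
import Vale.Agent.P095G.QuadE
import Vale.Agent.P095G.RealA
import Vale.Agent.P095G.RealB
import Vale.Agent.P095G.BlkA
import Vale.Agent.P095G.BlkB

namespace Vale.Agent.P095G

open Vale.Agent.P095

universe u v

private theorem bl_sum {Q : Type v} [Group Q] [DecidableEq Q] (P : Finset Q) (κ : Q → ℝ)
    (hκ : ∀ q, 0 ≤ κ q) (h1 : ∀ q, q ∉ P → κ q = 0) (t : Q) :
    ∑ q ∈ P, |κ (t⁻¹ * q)| ≤ ∑ q ∈ P, κ q := by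
  calc ∑ q ∈ P, |κ (t⁻¹ * q)| = ∑ q ∈ P, κ (t⁻¹ * q) :=
        Finset.sum_congr rfl fun q _ => abs_of_nonneg (hκ _)
    _ = ∑ q ∈ P.filter (fun q => t⁻¹ * q ∈ P), κ (t⁻¹ * q) := by
        refine (Finset.sum_filter_of_ne fun q _ h => ?_).symm
        by_contra hn
        exact h (h1 _ hn)
    _ = ∑ p ∈ (P.filter (fun q => t⁻¹ * q ∈ P)).image (fun q => t⁻¹ * q), κ p := by
        refine (Finset.sum_image fun a _ b _ h => ?_).symm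
        exact mul_left_cancel h
    _ ≤ ∑ q ∈ P, κ q := by
        refine Finset.sum_le_sum_of_subset_of_nonneg ?_ fun q _ _ => hκ q
        intro q hq
        obtain ⟨p, hp, rfl⟩ := Finset.mem_image.1 hq
        exact (Finset.mem_filter.1 hp).2

private theorem bl_real {A b c ε₀ η ε₁ n s r x1 x2 t : ℝ} (hc : 0 < c) (hη : 0 < η)
    (hε0 : 0 < ε₀) (hε : ε₀ ^ 2 * (2 * (3 + 48 / c ^ 2) + 2) ≤ η) (hA : 0 ≤ A) (hn : 2 ≤ n)
    (hr : r = c ^ 2 * (n * (n - 1) / 2) / 2) (hb : r * A ≤ b) (hs : 0 ≤ s)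
    (ht : t ≤ s) (ht0 : 0 ≤ t) (hε1 : 0 ≤ ε₁)
    (h1 : √x1 ≤ 2 * n ^ 2 * t * ε₁ * √A) (hx1 : 0 ≤ x1)
    (hε₁ : (2 * n ^ 2 * s * ε₁) ^ 2 ≤ ε₀ ^ 2 * r)
    (h2 : x2 ≤ ε₀ ^ 2 * b + (ε₀ ^ 2 * (c ^ 2 * (n * (n - 1) / 2)) + 3 * ε₀ ^ 2 * (n ^ 2 + 2 * n)) * A) :
    2 * x1 + 2 * x2 ≤ η * b := by
  have hr0 : 0 ≤ r := by
    rw [hr]
    have : 0 ≤ n * (n - 1) := mul_nonneg (by linarith) (by linarith)
    positivity
  have hb0 : 0 ≤ b := (mul_nonneg hr0 hA).trans hb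
  have hx : x1 ≤ ε₀ ^ 2 * b := by
    have h3 : 2 * n ^ 2 * t * ε₁ * √A ≤ 2 * n ^ 2 * s * ε₁ * √A := by
      gcongr
    have h4 : x1 ≤ (2 * n ^ 2 * s * ε₁ * √A) ^ 2 := by
      have h5 := h1.trans h3
      calc x1 = √x1 ^ 2 := (Real.sq_sqrt hx1).symm
        _ ≤ _ := pow_le_pow_left₀ (Real.sqrt_nonneg _) h5 2
    rw [mul_pow, Real.sq_sqrt hA] at h4
    calc x1 ≤ (2 * n ^ 2 * s * ε₁) ^ 2 * A := h4
      _ ≤ (ε₀ ^ 2 * r) * A := mul_le_mul_of_nonneg_right hε₁ hA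
      _ = ε₀ ^ 2 * (r * A) := by ring
      _ ≤ ε₀ ^ 2 * b := mul_le_mul_of_nonneg_left hb (sq_nonneg _)
  have e1 : ε₀ ^ 2 * (c ^ 2 * (n * (n - 1) / 2)) * A = ε₀ ^ 2 * (2 * (r * A)) := by
    rw [hr]
    ring
  have h6 : (n ^ 2 + 2 * n) * A ≤ 16 / c ^ 2 * (r * A) := by
    have h7 : n ^ 2 + 2 * n ≤ 16 / c ^ 2 * r := by
      rw [hr]
      have h8 : 16 / c ^ 2 * (c ^ 2 * (n * (n - 1) / 2) / 2) = 4 * (n * (n - 1)) := by
        field_simp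
        ring
      rw [h8]
      nlinarith
    calc (n ^ 2 + 2 * n) * A ≤ (16 / c ^ 2 * r) * A := mul_le_mul_of_nonneg_right h7 hA
      _ = _ := by ring
  have h9 : x2 ≤ ε₀ ^ 2 * b + ε₀ ^ 2 * (2 * (r * A)) + 3 * ε₀ ^ 2 * (16 / c ^ 2 * (r * A)) := by
    calc x2 ≤ ε₀ ^ 2 * b + (ε₀ ^ 2 * (c ^ 2 * (n * (n - 1) / 2)) +
          3 * ε₀ ^ 2 * (n ^ 2 + 2 * n)) * A := h2
      _ = ε₀ ^ 2 * b + ε₀ ^ 2 * (c ^ 2 * (n * (n - 1) / 2)) * A +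
          3 * ε₀ ^ 2 * ((n ^ 2 + 2 * n) * A) := by ring
      _ ≤ _ := by
          rw [e1]
          gcongr
  have h10 : ε₀ ^ 2 * (2 * (r * A)) ≤ ε₀ ^ 2 * (2 * b) := by gcongr
  have h11 : 3 * ε₀ ^ 2 * (16 / c ^ 2 * (r * A)) ≤ 3 * ε₀ ^ 2 * (16 / c ^ 2 * b) := by gcongr
  have h12 : ε₀ ^ 2 * (2 * (3 + 48 / c ^ 2) + 2) * b ≤ η * b :=
    mul_le_mul_of_nonneg_right hε hb0
  have e2 : ε₀ ^ 2 * (2 * (3 + 48 / c ^ 2) + 2) * b =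
      2 * (ε₀ ^ 2 * b) + 2 * (ε₀ ^ 2 * b + ε₀ ^ 2 * (2 * b) + 3 * ε₀ ^ 2 * (16 / c ^ 2 * b)) := by
    ring
  linarith

/-- BL.  `G` with normal subgroup `N` and weights on `G ⧸ N`.  `σ = Quotient.out`,
`X k q = β (σ q) (x_k)`, `S = TT n P X κ`.  For `s ∈ K`: `β s (X k q) = β (σ (s q)) (β m (x_k))` with
`m = σ(s q)⁻¹ * s * σ q ∈ N` from the finite set `K_N`; so with `Y k q = β s (X k (s⁻¹ q))`
(close to `X k q` by `ai_act`), `β s S = TT n P Y (κ (s⁻¹ ·))` (reindexing, supports in `P`), and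
`β s S - S = (TT Y κ' - TT X κ') + TT X (κ' - κ)`.  Parameters: `ε = min 1 ..` with
`2 ε² (3 + 48 / c²) + 2 ε² ≤ η`, `(P, κ, ρ)` from `Wts`, then `n ≥ 2` with
`c² (n - 1) ≥ 4 (∑κ)²`, `c' = c² n (n-1) / 2`, `r = c'/2`, `R = n² ∑ κ`, and `ε₁` small:
`(2 n² (∑κ) )² ε₁ ≤ ε² r`.  The blocks `I_0, .., I_(n-1)` are chosen successively above `n₀`
(and above the earlier ones). -/
theorem block {B : Type u} [CStarAlgebra B] {D : ℕ → Set B} (hD : ComFam D) {G : Type v} [Group G]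
    {β : G → (B →⋆ₐ[ℂ] B)} (hβ : IsAct β) (hinv : ∀ g i, ∀ a ∈ D i, β g a ∈ D i)
    (N : Subgroup G) [N.Normal] (hW : Wts (G ⧸ N)) {c : ℝ} (hc : 0 < c)
    (hN : ∀ (K : Finset G) (ε : ℝ) (n₀ : ℕ), (K : Set G) ⊆ N → 0 < ε →
      ∃ (I : Finset ℕ) (V : B), (∀ i ∈ I, n₀ ≤ i) ∧ Good D 1 c I V ∧ AI β D K ε I V)
    (K : Finset G) (η : ℝ) (hη : 0 < η) :
    ∃ R r : ℝ, 0 < R ∧ 0 < r ∧ ∀ n₀ : ℕ, ∃ (I : Finset ℕ) (S : B), (∀ i ∈ I, n₀ ≤ i) ∧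
      Good D R r I S ∧ RI β D K η I S := by
  classical
  set C₁ : ℝ := 2 * (3 + 48 / c ^ 2) + 2 with hC₁
  have hC₁p : 0 < C₁ := by positivity
  set ε₀ : ℝ := min 1 (η / C₁) with hε₀
  have hε₀p : 0 < ε₀ := lt_min one_pos (div_pos hη hC₁p)
  have hε₀1 : ε₀ ≤ 1 := min_le_left _ _
  have hε₀2 : ε₀ ^ 2 * C₁ ≤ η := by
    have h1 : ε₀ ^ 2 ≤ ε₀ := by nlinarith
    have h2 : ε₀ ≤ η / C₁ := min_le_right _ _
    rw [le_div_iff₀ hC₁p] at h2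
    nlinarith
  obtain ⟨P, κ, ρ, ho, ho1, hκ, hρ, hP1, hP2, hd, hs⟩ :=
    hW (K.image (fun g : G => (g : G ⧸ N))) ε₀ hε₀p
  set s : ℝ := ∑ q ∈ P, κ q with hsdef
  have hs1 : 1 ≤ s := by
    rw [← ho1]
    exact Finset.single_le_sum (fun q _ => hκ q) ho
  obtain ⟨n, hn⟩ := exists_nat_ge (4 * s ^ 2 / c ^ 2 + 2)
  have hn2 : (2 : ℝ) ≤ n := by
    have : 0 ≤ 4 * s ^ 2 / c ^ 2 := by positivity
    linarith
  have hn4 : 4 * s ^ 2 ≤ c ^ 2 * (n - 1) := by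
    have h1 : 4 * s ^ 2 / c ^ 2 ≤ n - 1 := by linarith
    rw [div_le_iff₀ (by positivity)] at h1
    linarith
  have hn1 : (0 : ℝ) < n - 1 := by linarith
  have hn0 : (0 : ℝ) < n := by linarith
  set c' : ℝ := c ^ 2 * (n * (n - 1) / 2) with hc'
  have hc'p : 0 < c' := by positivity
  have hcn : 2 * (n : ℝ) * s ^ 2 ≤ c' := by
    rw [hc']
    nlinarith
  set r : ℝ := c' / 2 with hr
  have hrp : 0 < r := by positivity
  set m : ℝ := (2 * (n : ℝ) ^ 2 * s) ^ 2 with hm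
  have hmp : 0 < m := by positivity
  set ε₁ : ℝ := min 1 (ε₀ ^ 2 * r / m) with hε₁
  have hε₁p : 0 < ε₁ := lt_min one_pos (by positivity)
  have hε₁2 : (2 * (n : ℝ) ^ 2 * s * ε₁) ^ 2 ≤ ε₀ ^ 2 * r := by
    have h1 : ε₁ ^ 2 ≤ ε₁ := by nlinarith [min_le_left 1 (ε₀ ^ 2 * r / m)]
    have h2 : ε₁ ≤ ε₀ ^ 2 * r / m := min_le_right _ _
    rw [le_div_iff₀ hmp] at h2
    rw [mul_pow]
    calc m * ε₁ ^ 2 ≤ m * ε₁ := mul_le_mul_of_nonneg_left h1 hmp.le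
      _ ≤ ε₀ ^ 2 * r := by linarith
  refine ⟨(n : ℝ) ^ 2 * s, r, by positivity, hrp, fun n₀ => ?_⟩
  -- the finite subset of `N`
  set KN : Finset G := (K ×ˢ P).image (fun x : G × (G ⧸ N) =>
    (Quotient.out x.2)⁻¹ * x.1 * Quotient.out ((x.1 : G ⧸ N)⁻¹ * x.2)) with hKN
  have hKNN : (KN : Set G) ⊆ N := by
    intro g hg
    rw [hKN, Finset.coe_image] at hg
    obtain ⟨⟨a, q⟩, -, rfl⟩ := hg
    show (Quotient.out q)⁻¹ * a * Quotient.out ((a : G ⧸ N)⁻¹ * q) ∈ N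
    rw [← QuotientGroup.eq_one_iff]
    have e1 : ((Quotient.out q : G) : G ⧸ N) = q := QuotientGroup.out_eq' q
    have e2 : ((Quotient.out ((a : G ⧸ N)⁻¹ * q) : G) : G ⧸ N) = (a : G ⧸ N)⁻¹ * q :=
      QuotientGroup.out_eq' _
    rw [QuotientGroup.mk_mul, QuotientGroup.mk_mul, QuotientGroup.mk_inv, e1, e2]
    group
  obtain ⟨I, V, hIn, hIV, hdis⟩ := seq_blocks (fun I V => Good D 1 c I V ∧ AI β D KN (ε₁ ^ 2) I V)
    (fun n₀ => by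
      obtain ⟨I, V, h1, h2, h3⟩ := hN KN (ε₁ ^ 2) n₀ hKNN (by positivity)
      exact ⟨I, V, h1, h2, h3⟩) n₀
  have hdis' : ∀ i j, i < n → j < n → i ≠ j → Disjoint (I i) (I j) :=
    fun i j _ _ h => hdis i j h
  let X : ℕ → (G ⧸ N) → B := fun k q => β (Quotient.out q) (V k)
  have hX : ∀ i < n, ∀ q, Good D 1 c (I i) (X i q) :=
    fun i _ q => good_act hβ hinv _ (hIV i).1
  have hsabs : ∑ q ∈ P, |κ q| = s := Finset.sum_congr rfl fun q _ => abs_of_nonneg (hκ q)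
  obtain ⟨b1, b2, b3, b4⟩ := tt_basic hD n I hdis' X hX P κ
  rw [hsabs] at b2
  -- lower bound
  have hlow : ∀ τ, Tr τ → ∀ w ∈ Zc D ((Finset.range n).biUnion I),
      r * N2 τ w ≤ N2 τ (TT n P X κ * w) := by
    intro τ hτ w hw
    obtain ⟨M, hM1, hM2, hM3⟩ := quad_form hD hτ n I hdis' hc.le X hX P w hw
    rw [hM1 κ]
    exact wq_lower P M κ (n2_nonneg hτ w) hn0.le hκ (fun q q' => (hM2 q q').1) hc'p.le hM3 ho ho1
      hcn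
  refine ⟨(Finset.range n).biUnion I, TT n P X κ, ?_, ⟨b1, b2, b3, b4, hlow⟩, ?_⟩
  · intro i hi
    obtain ⟨k, -, hk⟩ := Finset.mem_biUnion.1 hi
    exact hIn k i hk
  · intro τ hτ w hw g hg
    let κ' : (G ⧸ N) → ℝ := fun q => κ ((g : G ⧸ N)⁻¹ * q)
    let Y : ℕ → (G ⧸ N) → B := fun k q => β g (X k ((g : G ⧸ N)⁻¹ * q))
    have hgm : (g : G ⧸ N) ∈ K.image (fun g : G => (g : G ⧸ N)) := Finset.mem_image_of_mem _ hg
    have hact : β g (TT n P X κ) = TT n P Y κ' :=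
      tt_act (β g) n P X κ (g : G ⧸ N) hP1 (hP2 _ hgm)
    have hY : ∀ i < n, ∀ q, Good D 1 c (I i) (Y i q) :=
      fun i hi q => good_act hβ hinv _ (hX i hi _)
    have hXY : ∀ i < n, ∀ q ∈ P, ∀ w ∈ Zc D (I i),
        N2 τ ((Y i q - X i q) * w) ≤ ε₁ ^ 2 * N2 τ w := by
      intro i hi q hq w hw
      have hk : (Quotient.out q)⁻¹ * g * Quotient.out ((g : G ⧸ N)⁻¹ * q) ∈ KN :=
        Finset.mem_image.2 ⟨(g, q), Finset.mem_product.2 ⟨hg, hq⟩, rfl⟩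
      have h1 := ai_act hβ hinv (Quotient.out q) (hIV i).2 hk hτ hw
      have e1 : Quotient.out q * ((Quotient.out q)⁻¹ * g * Quotient.out ((g : G ⧸ N)⁻¹ * q)) =
          g * Quotient.out ((g : G ⧸ N)⁻¹ * q) := by group
      rw [e1, hβ.mul] at h1
      exact h1
    have hclose := tt_close hD hτ n I hdis' X Y hX hY P κ' hε₁p.le hXY w hw
    obtain ⟨M, hM1, hM2, hM3⟩ := quad_form hD hτ n I hdis' hc.le X hX P w hw
    have hΔ : ∀ q ∈ P, |κ' q - κ q| ≤ ε₀ * κ q + ρ q := fun q hq => hd _ hgm q hq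
    have hup := wq_upper P M κ ρ (fun q => κ' q - κ q) (n2_nonneg hτ w) hn0.le hκ hρ hM2 hΔ
      hε₀p.le hs hcn
    rw [← hM1 κ, ← hM1 (fun q => κ' q - κ q), ← tt_sub] at hup
    have htri := n2_sqrt_add hτ ((TT n P Y κ' - TT n P X κ') * w) ((TT n P X κ' - TT n P X κ) * w)
    have e2 : (TT n P Y κ' - TT n P X κ') * w + (TT n P X κ' - TT n P X κ) * w =
        (β g (TT n P X κ) - TT n P X κ) * w := by
      rw [hact]
      noncomm_ring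
    rw [e2] at htri
    have h1 := n2_nonneg hτ ((TT n P Y κ' - TT n P X κ') * w)
    have h2 := n2_nonneg hτ ((TT n P X κ' - TT n P X κ) * w)
    have h3 := n2_nonneg hτ ((β g (TT n P X κ) - TT n P X κ) * w)
    have h4 : N2 τ ((β g (TT n P X κ) - TT n P X κ) * w) ≤
        2 * N2 τ ((TT n P Y κ' - TT n P X κ') * w) + 2 * N2 τ ((TT n P X κ' - TT n P X κ) * w) := by
      have h5 : N2 τ ((β g (TT n P X κ) - TT n P X κ) * w) ≤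
          (√(N2 τ ((TT n P Y κ' - TT n P X κ') * w)) +
            √(N2 τ ((TT n P X κ' - TT n P X κ) * w))) ^ 2 := by
        calc _ = √(N2 τ ((β g (TT n P X κ) - TT n P X κ) * w)) ^ 2 := (Real.sq_sqrt h3).symm
          _ ≤ _ := pow_le_pow_left₀ (Real.sqrt_nonneg _) htri 2
      nlinarith [Real.sq_sqrt h1, Real.sq_sqrt h2, sq_nonneg
        (√(N2 τ ((TT n P Y κ' - TT n P X κ') * w)) - √(N2 τ ((TT n P X κ' - TT n P X κ) * w)))]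
    refine h4.trans ?_
    exact bl_real hc hη hε₀p hε₀2 (n2_nonneg hτ w) hn2 (r := r) rfl (hlow τ hτ w hw)
      (zero_le_one.trans hs1) (bl_sum P κ hκ hP1 (g : G ⧸ N))
      (Finset.sum_nonneg fun q _ => abs_nonneg _) hε₁p.le hclose h1 hε₁2 hup

end Vale.Agent.P095G
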