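import Vale.Agent.P095G.Defs

open scoped Pointwise

namespace Vale.Agent.P095G

universe v

open Classical in
/-- weights: sum of `y ^ (2 n)` over the balls that contain `q` -/
noncomputable def WT_k {G : Type v} [Group G] (K : Set G) (y : ℝ) (R : ℕ) (q : G) : ℝ :=
  ∑ n ∈ Finset.range (R + 1), if q ∈ K ^ n then (y ^ 2) ^ n else 0

theorem WT_shift {G : Type v} [Group G] (K : Set G) {y t : ℝ} (hy : 0 ≤ y)
    (ht : t * y ^ 2 = 1) (ht0 : 0 ≤ t) (R : ℕ) {q q' : G}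
    (h : ∀ n, q ∈ K ^ n → q' ∈ K ^ (n + 1)) :
    WT_k K y R q ≤ t * WT_k K y R q' + (y ^ 2) ^ R := by
  classical
  have h2 : 0 ≤ y ^ 2 := sq_nonneg y
  have e1 : WT_k K y R q ≤ ∑ n ∈ Finset.range (R + 1),
      t * (if q' ∈ K ^ (n + 1) then (y ^ 2) ^ (n + 1) else 0) := by
    unfold WT_k
    refine Finset.sum_le_sum fun n _ => ?_
    have e2 : t * (y ^ 2) ^ (n + 1) = (y ^ 2) ^ n := by
      rw [pow_succ]
      calc t * ((y ^ 2) ^ n * y ^ 2) = (t * y ^ 2) * (y ^ 2) ^ n := by ring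
        _ = (y ^ 2) ^ n := by rw [ht, one_mul]
    by_cases hq : q ∈ K ^ n
    · rw [if_pos hq, if_pos (h n hq), e2]
    · rw [if_neg hq]
      refine mul_nonneg ht0 ?_
      split_ifs
      · exact pow_nonneg h2 _
      · exact le_rfl
  rw [← Finset.mul_sum] at e1
  have e3 : ∑ n ∈ Finset.range (R + 1 + 1), (if q' ∈ K ^ n then (y ^ 2) ^ n else 0) =
      WT_k K y R q' + (if q' ∈ K ^ (R + 1) then (y ^ 2) ^ (R + 1) else 0) :=
    Finset.sum_range_succ _ _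
  have e4 : ∑ n ∈ Finset.range (R + 1 + 1), (if q' ∈ K ^ n then (y ^ 2) ^ n else 0) =
      (∑ n ∈ Finset.range (R + 1), (if q' ∈ K ^ (n + 1) then (y ^ 2) ^ (n + 1) else 0)) +
        (if q' ∈ K ^ 0 then (y ^ 2) ^ 0 else 0) := Finset.sum_range_succ' _ _
  have e5 : 0 ≤ (if q' ∈ K ^ 0 then (y ^ 2) ^ 0 else (0 : ℝ)) := by
    split_ifs
    · exact pow_nonneg h2 _
    · exact le_rfl
  have e6 : (if q' ∈ K ^ (R + 1) then (y ^ 2) ^ (R + 1) else (0 : ℝ)) ≤ (y ^ 2) ^ (R + 1) := by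
    split_ifs
    · exact le_rfl
    · exact pow_nonneg h2 _
  have e7 : ∑ n ∈ Finset.range (R + 1), (if q' ∈ K ^ (n + 1) then (y ^ 2) ^ (n + 1) else 0) ≤
      WT_k K y R q' + (y ^ 2) ^ (R + 1) := by linarith
  have e8 := mul_le_mul_of_nonneg_left e7 ht0
  have e9 : t * (WT_k K y R q' + (y ^ 2) ^ (R + 1)) = t * WT_k K y R q' + (y ^ 2) ^ R := by
    rw [pow_succ]
    calc t * (WT_k K y R q' + (y ^ 2) ^ R * y ^ 2) =
        t * WT_k K y R q' + (t * y ^ 2) * (y ^ 2) ^ R := by ring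
      _ = _ := by rw [ht, one_mul]
  linarith

/-- WT.  `K₁ = K ∪ K⁻¹ ∪ {1}`, balls `K₁ ^ n`, word length `|q|`, `κ q = exp(-ε' |q|)` for
`|q| ≤ R`, `0` otherwise, `P = K₁ ^ (R+1)`, `ρ q = exp(-ε'(R-1))` on `P`, `exp ε' - 1 ≤ ε`;
`∑_P κ ≤ ∑_n |K₁^n| exp(-ε' n)` is bounded independently of `R` (growth with rate `ε'/2`) and
`∑_P ρ = |K₁^(R+1)| exp(-ε'(R-1)) → 0`. -/
theorem wts_of_subexp {G : Type v} [Group G] (h : LocSubexp G) : Wts G := by
  classical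
  intro K ε hε
  obtain ⟨K₁, hK₁⟩ : ∃ K₁ : Set G, K₁ = (K : Set G) ∪ (K : Set G)⁻¹ ∪ {1} := ⟨_, rfl⟩
  have hfin : K₁.Finite := by
    rw [hK₁]
    exact ((K.finite_toSet).union (K.finite_toSet.inv)).union (Set.finite_singleton 1)
  have h1K : (1 : G) ∈ K₁ := by
    rw [hK₁]
    exact Or.inr rfl
  have hsK : ∀ s ∈ K, s ∈ K₁ := fun s hs => by
    rw [hK₁]
    exact Or.inl (Or.inl hs)
  have hsK' : ∀ s ∈ K, s⁻¹ ∈ K₁ := fun s hs => by
    rw [hK₁]
    refine Or.inl (Or.inr ?_)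
    rw [Set.mem_inv, inv_inv]
    exact hs
  have hmono : ∀ {m n : ℕ}, m ≤ n → K₁ ^ m ⊆ K₁ ^ n := fun hmn => Set.pow_subset_pow_right h1K hmn
  -- the rate
  obtain ⟨δ, hδ⟩ : ∃ δ, δ = Real.log (1 + ε) / 2 := ⟨_, rfl⟩
  have hδ0 : 0 < δ := by
    rw [hδ]
    exact half_pos (Real.log_pos (by linarith))
  obtain ⟨y, hy⟩ : ∃ y, y = Real.exp (-δ) := ⟨_, rfl⟩
  have hy0 : 0 < y := by
    rw [hy]
    exact Real.exp_pos _
  have hy1 : y < 1 := by
    rw [hy, Real.exp_lt_one_iff]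
    linarith
  have ht : (1 + ε) * y ^ 2 = 1 := by
    have e1 : y ^ 2 = Real.exp (-Real.log (1 + ε)) := by
      rw [hy, ← Real.exp_nat_mul]
      congr 1
      rw [hδ]
      push_cast
      ring
    rw [e1, Real.exp_neg, Real.exp_log (by linarith), mul_inv_cancel₀ (by linarith)]
  obtain ⟨C, hC⟩ := h K₁ hfin δ hδ0
  have hC' : ∀ n, ((K₁ ^ n).ncard : ℝ) * y ^ n ≤ C := by
    intro n
    have e1 : Real.exp (δ * n) * y ^ n = 1 := by
      rw [hy, ← Real.exp_nat_mul, ← Real.exp_add]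
      rw [show δ * n + n * -δ = 0 by ring, Real.exp_zero]
    have e2 := mul_le_mul_of_nonneg_right (hC n) (pow_nonneg hy0.le n)
    rw [mul_assoc, e1, mul_one] at e2
    exact e2
  have hC0 : 0 ≤ C := by
    have := hC' 0
    have h2 : (0 : ℝ) ≤ ((K₁ ^ 0).ncard : ℝ) * y ^ 0 := by positivity
    linarith
  obtain ⟨R, hR⟩ := exists_pow_lt_of_lt_one
    (show 0 < ε / ((C / y + 1) * (1 + C * (1 - y)⁻¹)) by
      have : 0 < 1 - y := by linarith
      positivity) hy1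
  have h1y : 0 < 1 - y := by linarith
  obtain ⟨Z, hZ⟩ : ∃ Z, Z = WT_k K₁ y R 1 := ⟨_, rfl⟩
  have h1n : ∀ n, (1 : G) ∈ K₁ ^ n := fun n => Set.one_mem_pow h1K
  have hZ1 : 1 ≤ Z := by
    rw [hZ]
    unfold WT_k
    refine le_trans ?_ (Finset.single_le_sum (f := fun n => if (1 : G) ∈ K₁ ^ n then (y ^ 2) ^ n
      else 0) (fun n _ => ?_) (Finset.mem_range.2 (Nat.succ_pos R)))
    · rw [if_pos (h1n 0), pow_zero]
    · split_ifs
      · positivity
      · exact le_rfl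
  have hZ0 : 0 < Z := by linarith
  have hk0 : ∀ q, 0 ≤ WT_k K₁ y R q := fun q => by
    unfold WT_k
    refine Finset.sum_nonneg fun n _ => ?_
    split_ifs
    · positivity
    · exact le_rfl
  have hk1 : ∀ q, q ∉ K₁ ^ R → WT_k K₁ y R q = 0 := fun q hq => by
    unfold WT_k
    refine Finset.sum_eq_zero fun n hn => ?_
    rw [if_neg fun h2 => hq (hmono (Nat.lt_succ_iff.1 (Finset.mem_range.1 hn)) h2)]
  have hfn : ∀ n, (K₁ ^ n).Finite := fun n => by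
    induction n with
    | zero =>
      rw [pow_zero]
      exact Set.finite_one
    | succ n ih =>
      rw [pow_succ]
      exact ih.mul hfin
  obtain ⟨P, hP⟩ : ∃ P : Finset G, P = (hfn (R + 1)).toFinset := ⟨_, rfl⟩
  have hmP : ∀ q, q ∈ P ↔ q ∈ K₁ ^ (R + 1) := fun q => by
    rw [hP, Set.Finite.mem_toFinset]
  have hmul : ∀ {s q : G} {n : ℕ}, s ∈ K₁ → q ∈ K₁ ^ n → s * q ∈ K₁ ^ (n + 1) := by
    intro s q n hs hq
    rw [pow_succ']
    exact Set.mul_mem_mul hs hq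
  have hρ0 : 0 ≤ (y ^ 2) ^ R / Z := by positivity
  refine ⟨P, fun q => WT_k K₁ y R q / Z, fun _ => (y ^ 2) ^ R / Z, ?_, ?_, ?_, ?_, ?_, ?_, ?_, ?_⟩
  · exact (hmP 1).2 (h1n _)
  · show WT_k K₁ y R 1 / Z = 1
    rw [← hZ, div_self hZ0.ne']
  · exact fun q => div_nonneg (hk0 q) hZ0.le
  · exact fun _ => hρ0
  · intro q hq
    show WT_k K₁ y R q / Z = 0
    rw [hk1 q fun h2 => hq ((hmP q).2 (hmono (Nat.le_succ R) h2)), zero_div]
  · intro s hs q hq
    show WT_k K₁ y R (s⁻¹ * q) / Z = 0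
    rw [hk1 _ fun h2 => hq ((hmP q).2 ?_), zero_div]
    have := hmul (hsK s hs) h2
    rwa [mul_inv_cancel_left] at this
  · intro s hs q _
    show |WT_k K₁ y R (s⁻¹ * q) / Z - WT_k K₁ y R q / Z| ≤
      ε * (WT_k K₁ y R q / Z) + (y ^ 2) ^ R / Z
    have a1 := WT_shift K₁ hy0.le ht (by linarith) R (q := s⁻¹ * q) (q' := q) (fun n h2 => by
      have := hmul (hsK s hs) h2
      rwa [mul_inv_cancel_left] at this)
    have a2 := WT_shift K₁ hy0.le ht (by linarith) R (q := q) (q' := s⁻¹ * q)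
      (fun n h2 => hmul (hsK' s hs) h2)
    rw [← sub_div, abs_div, abs_of_pos hZ0, ← mul_div_assoc, ← add_div]
    refine div_le_div_of_nonneg_right ?_ hZ0.le
    have b1 := hk0 q
    have b2 := hk0 (s⁻¹ * q)
    have b3 : (0:ℝ) ≤ (y ^ 2) ^ R := by positivity
    rw [abs_le]
    constructor
    · nlinarith
    · linarith
  · have hcard : ((P.card : ℕ) : ℝ) * y ^ (R + 1) ≤ C := by
      have := hC' (R + 1)
      rwa [Set.ncard_eq_toFinset_card _ (hfn (R + 1)), ← hP] at this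
    have s1 : ∑ _q ∈ P, (y ^ 2) ^ R / Z ≤ C / y * y ^ R := by
      rw [Finset.sum_const, nsmul_eq_mul]
      have e1 : (y ^ 2) ^ R / Z ≤ (y ^ 2) ^ R := div_le_self (by positivity) hZ1
      have e2 : ((P.card : ℕ) : ℝ) * (y ^ 2) ^ R = ((P.card : ℕ) : ℝ) * y ^ (R + 1) / y * y ^ R := by
        field_simp
        ring
      calc ((P.card : ℕ) : ℝ) * ((y ^ 2) ^ R / Z) ≤ ((P.card : ℕ) : ℝ) * (y ^ 2) ^ R :=
            mul_le_mul_of_nonneg_left e1 (Nat.cast_nonneg _)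
        _ = ((P.card : ℕ) : ℝ) * y ^ (R + 1) / y * y ^ R := e2
        _ ≤ C / y * y ^ R := by
            refine mul_le_mul_of_nonneg_right ?_ (by positivity)
            exact div_le_div_of_nonneg_right hcard hy0.le
    have s2 : ∑ q ∈ P, WT_k K₁ y R q / Z ≤ C * (1 - y)⁻¹ := by
      have e1 : ∑ q ∈ P, WT_k K₁ y R q / Z ≤ ∑ q ∈ P, WT_k K₁ y R q :=
        Finset.sum_le_sum fun q _ => div_le_self (hk0 q) hZ1
      refine e1.trans ?_
      unfold WT_k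
      rw [Finset.sum_comm]
      have e2 : ∀ n ∈ Finset.range (R + 1),
          ∑ q ∈ P, (if q ∈ K₁ ^ n then (y ^ 2) ^ n else 0) ≤ C * y ^ n := by
        intro n _
        rw [← Finset.sum_filter, Finset.sum_const, nsmul_eq_mul]
        have e3 : (((P.filter (fun q => q ∈ K₁ ^ n)).card : ℕ) : ℝ) ≤ ((K₁ ^ n).ncard : ℝ) := by
          rw [Set.ncard_eq_toFinset_card _ (hfn n)]
          refine Nat.cast_le.2 (Finset.card_le_card fun q hq => ?_)
          rw [Set.Finite.mem_toFinset]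
          exact (Finset.mem_filter.1 hq).2
        calc (((P.filter (fun q => q ∈ K₁ ^ n)).card : ℕ) : ℝ) * (y ^ 2) ^ n ≤
            ((K₁ ^ n).ncard : ℝ) * (y ^ 2) ^ n :=
              mul_le_mul_of_nonneg_right e3 (by positivity)
          _ = (((K₁ ^ n).ncard : ℝ) * y ^ n) * y ^ n := by ring
          _ ≤ C * y ^ n := mul_le_mul_of_nonneg_right (hC' n) (by positivity)
      refine (Finset.sum_le_sum e2).trans ?_
      rw [← Finset.mul_sum]
      refine mul_le_mul_of_nonneg_left ?_ hC0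
      rw [← tsum_geometric_of_lt_one hy0.le hy1]
      exact (summable_geometric_of_lt_one hy0.le hy1).sum_le_tsum _
        (fun n _ => pow_nonneg hy0.le n)
    have s3 : 0 ≤ ∑ q ∈ P, WT_k K₁ y R q / Z :=
      Finset.sum_nonneg fun q _ => div_nonneg (hk0 q) hZ0.le
    show (∑ _q ∈ P, (y ^ 2) ^ R / Z) * (1 + ∑ q ∈ P, WT_k K₁ y R q / Z) ≤ ε
    have s4 : (0:ℝ) ≤ C * (1 - y)⁻¹ := by positivity
    have s5 : (0:ℝ) ≤ y ^ R := by positivity
    calc (∑ _q ∈ P, (y ^ 2) ^ R / Z) * (1 + ∑ q ∈ P, WT_k K₁ y R q / Z) ≤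
        (C / y * y ^ R) * (1 + C * (1 - y)⁻¹) :=
          mul_le_mul s1 (by linarith) (by linarith) (by positivity)
      _ ≤ ((C / y + 1) * (1 + C * (1 - y)⁻¹)) * y ^ R := by nlinarith
      _ ≤ ((C / y + 1) * (1 + C * (1 - y)⁻¹)) * (ε / ((C / y + 1) * (1 + C * (1 - y)⁻¹))) :=
          mul_le_mul_of_nonneg_left hR.le (by positivity)
      _ = ε := by
          have : (C / y + 1) * (1 + C * (1 - y)⁻¹) ≠ 0 := by positivity
          field_simp

end Vale.Agent.P095G
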