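import Vale.Agent.P095G.Block
import Vale.Agent.P095G.StepD
import Vale.Agent.P095G.WtsT

namespace Vale.Agent.P095G

open Vale.Agent.P095

universe u v

theorem CLS_n2_nonneg {B : Type u} [CStarAlgebra B] {τ : B →ₗ[ℝ] ℝ} (hτ : Tr τ) (w : B) :
    0 ≤ N2 τ w := hτ.pos w

/-- the property for a subgroup, in terms of the action of the group -/
theorem CLS_sub {G : Type v} [Group G] (N : Subgroup G) (h1 : PropP.{u, v} N)
    {B : Type u} [CStarAlgebra B] {D : ℕ → Set B} (hD : ComFam D)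
    {β : G → (B →⋆ₐ[ℂ] B)} (hβ : IsAct β) (hinv : ∀ g i, ∀ a ∈ D i, β g a ∈ D i)
    {c : ℝ} (hc : 0 < c) (hc1 : c ≤ 1 / 10) (hx : ∀ i, ∃ x, Good D 1 c {i} x)
    (K : Finset G) (ε : ℝ) (n₀ : ℕ) (hK : (K : Set G) ⊆ N) (hε : 0 < ε) :
    ∃ (I : Finset ℕ) (V : B), (∀ i ∈ I, n₀ ≤ i) ∧ Good D 1 c I V ∧ AI β D K ε I V := by
  classical
  have hβ' : IsAct (fun g : N => β (g : G)) :=
    ⟨fun x => hβ.one x, fun g h x => hβ.mul (g : G) (h : G) x⟩
  obtain ⟨I, V, h2, h3, h4⟩ := h1 B D hD (fun g : N => β (g : G)) hβ'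
    (fun g i a ha => hinv (g : G) i a ha) c hc hc1 hx (K.subtype (fun g => g ∈ N)) ε n₀ hε
  refine ⟨I, V, h2, h3, fun τ hτ w hw s hs => ?_⟩
  exact h4 τ hτ w hw ⟨s, hK hs⟩ (Finset.mem_subtype.2 hs)

/-- CT. -/
theorem propP_triv (G : Type v) [Group G] [Subsingleton G] : PropP.{u, v} G := by
  intro B _ D hD β hβ hinv c hc hc1 hx K ε n₀ hε
  obtain ⟨x, hx⟩ := hx n₀
  refine ⟨{n₀}, x, fun i hi => (Finset.mem_singleton.1 hi).ge, hx, fun τ hτ w hw s hs => ?_⟩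
  have h1 : β s x = x := by rw [Subsingleton.elim s 1, hβ.one]
  rw [h1, sub_self, zero_mul]
  have h2 : N2 τ (0 : B) = 0 := by
    unfold N2
    rw [mul_zero, map_zero]
  rw [h2]
  exact mul_nonneg hε.le (CLS_n2_nonneg hτ w)

/-- CE.  `PropP N` for the restricted action, `wts_of_subexp`, `block`, `dyn`. -/
theorem propP_ext (G : Type v) [Group G] (N : Subgroup G) [N.Normal] (h1 : PropP.{u, v} N)
    (h2 : LocSubexp (G ⧸ N)) : PropP.{u, v} G := by
  intro B _ D hD β hβ hinv c hc hc1 hx K ε n₀ hε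
  have hη : 0 < min (1 / 4) (ε / 400) := by positivity
  have h3 := block hD hβ hinv N (wts_of_subexp h2) hc
    (fun K ε n₀ hK hε => CLS_sub N h1 hD hβ hinv hc hc1 hx K ε n₀ hK hε) K
    (min (1 / 4) (ε / 400)) hη
  obtain ⟨I, V, h4, h5, h6⟩ := dyn hD hβ hinv hη (min_le_left _ _) h3 n₀
  refine ⟨I, V, h4, ⟨h5.sa, h5.norm, h5.cent, h5.mean, fun τ hτ w hw => ?_⟩,
    fun τ hτ w hw s hs => ?_⟩
  · exact (mul_le_mul_of_nonneg_right hc1 (CLS_n2_nonneg hτ w)).trans (h5.var τ hτ w hw)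
  · refine (h6 τ hτ w hw s hs).trans (mul_le_mul_of_nonneg_right ?_ (CLS_n2_nonneg hτ w))
    have := min_le_right (1 / 4 : ℝ) (ε / 400)
    linarith

/-- CU. -/
theorem propP_union (G : Type v) [Group G] (H : Finset G → Subgroup G)
    (h1 : ∀ K : Finset G, (K : Set G) ⊆ H K) (h2 : ∀ K : Finset G, PropP.{u, v} (H K)) :
    PropP.{u, v} G := by
  intro B _ D hD β hβ hinv c hc hc1 hx K ε n₀ hε
  exact CLS_sub (H K) (h2 K) hD hβ hinv hc hc1 hx K ε n₀ (h1 K) hε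

theorem propP_of_cls (G : Type v) [Group G] (h : SubexpAmenable G) : PropP.{u, v} G := by
  induction h with
  | triv G => exact propP_triv G
  | ext G N h1 h2 ih => exact propP_ext G N ih h2
  | union G H h1 h2 ih => exact propP_union G H h1 ih

end Vale.Agent.P095G
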