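import Vale.Agent.P095G.Tb

namespace Vale.Agent.P095G

open Vale.Agent.P095

universe u v

theorem DD_real {δ R η θ a b Np Nw N' N T : ℝ} (hδ : 0 < δ) (hθ0 : 0 ≤ θ) (hθ : θ ≤ 1 / 100)
    (hη : 0 < η) (ha : 0 ≤ a) (hb : 0 ≤ b) (hN' : 0 ≤ N')
    (h1 : a ^ 2 ≤ 400 * η * N') (h2 : b ^ 2 ≤ η * N) (h3 : N ≤ 4 * N')
    (h4 : Np ≤ 400 * η * (Nw - 6 * δ ^ 2 * N' + 9 * δ ^ 2 * θ ^ 2 * N'))
    (h5 : T ≤ Np + δ ^ 2 * ((4 + 12 * θ) * a ^ 2 + (16 + 30 * θ + 36 * θ ^ 2) * (a * b) +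
      (12 + (1 + 6 * θ) ^ 2) * b ^ 2)) : T ≤ 400 * η * Nw := by
  have hδ2 : 0 < δ ^ 2 := by positivity
  have hθ2 : θ ^ 2 ≤ 1 / 10000 := by nlinarith
  have hab : 0 ≤ a * b := mul_nonneg ha hb
  have e1 : (4 + 12 * θ) * a ^ 2 ≤ 4.12 * a ^ 2 :=
    mul_le_mul_of_nonneg_right (by linarith) (sq_nonneg a)
  have e2 : (16 + 30 * θ + 36 * θ ^ 2) * (a * b) ≤ 16.31 * (a * b) :=
    mul_le_mul_of_nonneg_right (by linarith) hab
  have e3 : (12 + (1 + 6 * θ) ^ 2) * b ^ 2 ≤ 13.13 * b ^ 2 :=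
    mul_le_mul_of_nonneg_right (by nlinarith) (sq_nonneg b)
  have e4 : 16.31 * (a * b) ≤ 0.88 * a ^ 2 + 76 * b ^ 2 := by
    nlinarith [sq_nonneg (0.88 * a - 8.155 * b), sq_nonneg b]
  have e5 : (4 + 12 * θ) * a ^ 2 + (16 + 30 * θ + 36 * θ ^ 2) * (a * b) +
      (12 + (1 + 6 * θ) ^ 2) * b ^ 2 ≤ 2360 * (η * N') := by
    have e6 : η * N ≤ η * (4 * N') := mul_le_mul_of_nonneg_left h3 hη.le
    have e7 : 0 ≤ η * N' := mul_nonneg hη.le hN'
    nlinarith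
  have e8 := mul_le_mul_of_nonneg_left e5 hδ2.le
  have e9 : 9 * δ ^ 2 * θ ^ 2 * N' ≤ 9 * δ ^ 2 * (1 / 10000) * N' :=
    mul_le_mul_of_nonneg_right (mul_le_mul_of_nonneg_left hθ2 (by positivity)) hN'
  have e10 : 400 * η * (Nw - 6 * δ ^ 2 * N' + 9 * δ ^ 2 * θ ^ 2 * N') ≤
      400 * η * (Nw - 6 * δ ^ 2 * N' + 9 * δ ^ 2 * (1 / 10000) * N') :=
    mul_le_mul_of_nonneg_left (by linarith) (by positivity)
  have e11 : 0 ≤ δ ^ 2 * (η * N') := by positivity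
  nlinarith

variable {B : Type u} [CStarAlgebra B] {D : ℕ → Set B}

theorem DD_left {τ : B →ₗ[ℝ] ℝ} (hτ : Tr τ) {X : B} {r : ℝ} (hr : ‖X‖ ≤ r) (x : B) :
    √(N2 τ (X * x)) ≤ r * √(N2 τ x) := by
  have h0 : 0 ≤ r := (norm_nonneg X).trans hr
  refine Real.sqrt_le_iff.mpr ⟨mul_nonneg h0 (Real.sqrt_nonneg _), ?_⟩
  rw [mul_pow, Real.sq_sqrt (n2_nonneg hτ x)]
  exact (n2_mul_le hτ x X).trans
    (mul_le_mul_of_nonneg_right (pow_le_pow_left₀ (norm_nonneg X) hr 2) (n2_nonneg hτ x))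

theorem DD_right {τ : B →ₗ[ℝ] ℝ} (hτ : Tr τ) {X : B} {r : ℝ} (hr : ‖X‖ ≤ r) (x : B) :
    √(N2 τ (x * X)) ≤ r * √(N2 τ x) := by
  have h0 : 0 ≤ r := (norm_nonneg X).trans hr
  refine Real.sqrt_le_iff.mpr ⟨mul_nonneg h0 (Real.sqrt_nonneg _), ?_⟩
  rw [mul_pow, Real.sq_sqrt (n2_nonneg hτ x)]
  exact (n2_mul_le' hτ x X).trans
    (mul_le_mul_of_nonneg_right (pow_le_pow_left₀ (norm_nonneg X) hr 2) (n2_nonneg hτ x))

theorem DD_ip {τ : B →ₗ[ℝ] ℝ} (hτ : Tr τ) {x y : B} {r s : ℝ} (hr : √(N2 τ x) ≤ r)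
    (hs : √(N2 τ y) ≤ s) : |τ (star x * y)| ≤ r * s :=
  (tr_cs' hτ x y).trans (mul_le_mul hr hs (Real.sqrt_nonneg _) ((Real.sqrt_nonneg _).trans hr))

theorem DD_core {τ : B →ₗ[ℝ] ℝ} (hτ : Tr τ) {δ R a b : ℝ} (hδ : 0 < δ) (hR : 0 ≤ R)
    (ha : 0 ≤ a) (hb : 0 ≤ b)
    (x v1 v2 v3 v4 : B) (h1 : √(N2 τ v1) ≤ 2 * a) (h2 : √(N2 τ v2) ≤ R * a)
    (h3 : √(N2 τ v3) ≤ 2 * R * b) (h4 : √(N2 τ v4) ≤ b) (o1 : τ (star x * v1) = 0)
    (o4 : τ (star x * v4) = 0) (o3 : |τ (star x * v3)| ≤ 2 * (a * b) + 2 * b ^ 2) :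
    N2 τ (x - (3 * δ ^ 2) • v2 + (-(δ • v1) + (-((3 * δ ^ 2) • v3) + δ • v4))) ≤
      N2 τ (x - (3 * δ ^ 2) • v2) + δ ^ 2 * ((4 + 12 * (δ * R)) * a ^ 2 +
        (16 + 30 * (δ * R) + 36 * (δ * R) ^ 2) * (a * b) + (12 + (1 + 6 * (δ * R)) ^ 2) * b ^ 2) := by
  set F : B := -((3 * δ ^ 2) • v3) + δ • v4 with hF
  set q : B := -(δ • v1) with hq
  set p : B := x - (3 * δ ^ 2) • v2 with hp
  have i1 := DD_ip hτ h2 h1
  have i2 := DD_ip hτ h2 h3
  have i3 := DD_ip hτ h2 h4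
  -- N2 q
  have q1 : √(N2 τ q) ≤ 2 * δ * a := by
    have : q = (-δ) • v1 := by rw [hq, neg_smul]
    rw [this, n2_smul, Real.sqrt_mul (sq_nonneg _), Real.sqrt_sq_eq_abs, abs_neg, abs_of_pos hδ]
    nlinarith
  have f1 : √(N2 τ F) ≤ δ * (1 + 6 * (δ * R)) * b := by
    refine (n2_sqrt_add hτ _ _).trans ?_
    have e1 : -((3 * δ ^ 2) • v3) = (-(3 * δ ^ 2)) • v3 := by rw [neg_smul]
    rw [e1, n2_smul, n2_smul, Real.sqrt_mul (sq_nonneg _), Real.sqrt_mul (sq_nonneg _),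
      Real.sqrt_sq_eq_abs, Real.sqrt_sq_eq_abs, abs_neg, abs_of_pos hδ,
      abs_of_pos (by positivity : 0 < 3 * δ ^ 2)]
    have e2 := mul_le_mul_of_nonneg_left h3 (by positivity : 0 ≤ 3 * δ ^ 2)
    have e3 := mul_le_mul_of_nonneg_left h4 hδ.le
    nlinarith
  have q2 : N2 τ q ≤ (2 * δ * a) ^ 2 := by
    rw [← Real.sq_sqrt (n2_nonneg hτ q)]
    exact pow_le_pow_left₀ (Real.sqrt_nonneg _) q1 2
  have f2 : N2 τ F ≤ (δ * (1 + 6 * (δ * R)) * b) ^ 2 := by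
    rw [← Real.sq_sqrt (n2_nonneg hτ F)]
    exact pow_le_pow_left₀ (Real.sqrt_nonneg _) f1 2
  have qf := DD_ip hτ q1 f1
  have pq : τ (star p * q) = 3 * δ ^ 3 * τ (star v2 * v1) := by
    rw [hp, hq, star_sub, star_smul, sub_mul, mul_neg, mul_neg, mul_smul_comm, mul_smul_comm,
      smul_mul_assoc, map_sub, map_neg, map_neg, map_smul, map_smul, map_smul, o1]
    simp only [smul_eq_mul, star_trivial]
    ring
  have pf : τ (star p * F) = -(3 * δ ^ 2) * τ (star x * v3) + 9 * δ ^ 4 * τ (star v2 * v3) -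
      3 * δ ^ 3 * τ (star v2 * v4) := by
    rw [hp, hF, star_sub, star_smul, sub_mul, mul_add, mul_add, mul_neg, mul_neg, mul_smul_comm,
      mul_smul_comm, mul_smul_comm, mul_smul_comm, smul_mul_assoc, smul_mul_assoc, map_sub,
      map_add, map_add, map_neg, map_neg, map_smul, map_smul, map_smul, map_smul, map_smul,
      map_smul, o4]
    simp only [smul_eq_mul, star_trivial]
    ring
  have hpqF : τ (star p * (q + F)) = τ (star p * q) + τ (star p * F) := by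
    rw [mul_add, map_add]
  rw [n2_add hτ p (q + F), n2_add hτ q F, hpqF, pq, pf]
  have j1 := (abs_le.mp i1).2
  have j2 := (abs_le.mp i2).2
  have j3 := (abs_le.mp i3).1
  have j4 := (abs_le.mp o3).1
  have j5 := (abs_le.mp qf).2
  have k1 := mul_le_mul_of_nonneg_left j1 (by positivity : 0 ≤ 6 * δ ^ 3)
  have k2 := mul_le_mul_of_nonneg_left j2 (by positivity : 0 ≤ 18 * δ ^ 4)
  have k3 := mul_le_mul_of_nonneg_left j3 (by positivity : 0 ≤ 6 * δ ^ 3)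
  have k4 := mul_le_mul_of_nonneg_left j4 (by positivity : 0 ≤ 6 * δ ^ 2)
  linarith

/-- DF.  Difference.  `e = W' - W`, `d = S' - S`, `a² = N(eS'w)`, `b² = η N(Sw)` (so `N(dw) ≤ b²`),
`e₊ = P + Q + E`, `P = e(1-3δ²S'²)`, `Q = -δ(W'²-W²)S'`, `E = -3δ²W(S'²-S²) + δ(1-W²)d`,
`W'²-W² = eW'+We`, `S'²-S² = S'd+dS`, `θ = δR ≤ 1/100`:
`N(Qw) ≤ 4δ²a²`; `|2⟨P,Q⟩| ≤ 12θδ²a²` (by `hm1`); `2|⟨e,3δ²W(S'²-S²)⟩| ≤ 6δ²(2ab+2b²)`,
`⟨e,(1-W²)d⟩ = 0` (`hm2`, `hm3`), `2·9δ⁴|⟨eS'²,W(S'²-S²)⟩| ≤ 36θ²δ²ab`,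
`2·3δ³|⟨eS'²,(1-W²)d⟩| ≤ 6θδ²ab`; `N(Ew) ≤ δ²(1+6θ)²b²`; `2|⟨Q,E⟩| ≤ 4(1+6θ)δ²ab`.  Total
`N(e₊w) ≤ N(Pw) + δ²(5a² + 90b²)`, `N(Pw) ≤ Γ(N(w) - 5.99δ²N(S'w))` (`h1`), `a² ≤ Γ N(S'w)` (`h2`),
`N(S'w) ≥ N(Sw)/4` (as `η ≤ 1/4`), `Γ = 400 η`. -/
theorem stp_diff {τ : B →ₗ[ℝ] ℝ} (hτ : Tr τ) {δ R η : ℝ} {W W' S S' w : B} (hW : star W = W)
    (hW1 : ‖W‖ ≤ 1) (hS : star S = S) (hSR : ‖S‖ ≤ R) (hW' : star W' = W')
    (hW1' : ‖W'‖ ≤ 1) (hS' : star S' = S') (hSR' : ‖S'‖ ≤ R)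
    (c1 : W * S = S * W) (c2 : W * S' = S' * W) (c3 : W' * S = S * W') (c4 : W' * S' = S' * W')
    (c5 : w * W = W * w) (c6 : w * S = S * w) (c7 : w * W' = W' * w) (c8 : w * S' = S' * w)
    (d5 : star w * W = W * star w) (d6 : star w * S = S * star w)
    (d7 : star w * W' = W' * star w) (d8 : star w * S' = S' * star w)
    (hδ : 0 < δ) (hδR : δ * R ≤ 1 / 100) (hη : 0 < η) (hη1 : η ≤ 1 / 4)
    (h1 : N2 τ ((W' - W) * ((1 - (3 * δ ^ 2) • (S' * S')) * w)) ≤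
      400 * η * N2 τ ((1 - (3 * δ ^ 2) • (S' * S')) * w))
    (h2 : N2 τ ((W' - W) * (S' * w)) ≤ 400 * η * N2 τ (S' * w))
    (h3 : N2 τ ((S' - S) * w) ≤ η * N2 τ (S * w))
    (hm1 : τ (star w * (W' - W) * (W' * W' - W * W) * w * S') = 0)
    (hm2 : τ (star w * (W' - W) * (1 - W * W) * w * S') = 0)
    (hm3 : τ (star w * (W' - W) * (1 - W * W) * w * S) = 0) :
    N2 τ ((stp δ W' S' - stp δ W S) * w) ≤ 400 * η * N2 τ w := by
  have hR : 0 ≤ R := (norm_nonneg S).trans hSR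
  -- associated commutation rules
  have c1a : ∀ x, W * (S * x) = S * (W * x) := fun x => by rw [← mul_assoc, c1, mul_assoc]
  have c2a : ∀ x, W * (S' * x) = S' * (W * x) := fun x => by rw [← mul_assoc, c2, mul_assoc]
  have c3a : ∀ x, W' * (S * x) = S * (W' * x) := fun x => by rw [← mul_assoc, c3, mul_assoc]
  have c4a : ∀ x, W' * (S' * x) = S' * (W' * x) := fun x => by rw [← mul_assoc, c4, mul_assoc]
  have c5a : ∀ x, w * (W * x) = W * (w * x) := fun x => by rw [← mul_assoc, c5, mul_assoc]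
  have c6a : ∀ x, w * (S * x) = S * (w * x) := fun x => by rw [← mul_assoc, c6, mul_assoc]
  have c7a : ∀ x, w * (W' * x) = W' * (w * x) := fun x => by rw [← mul_assoc, c7, mul_assoc]
  have c8a : ∀ x, w * (S' * x) = S' * (w * x) := fun x => by rw [← mul_assoc, c8, mul_assoc]
  set A : B := (W' - W) * (S' * w) with hA
  set E : B := (S' - S) * w with hE
  set a : ℝ := √(N2 τ A) with ha
  set b : ℝ := √(N2 τ E) with hb
  have ha0 : 0 ≤ a := Real.sqrt_nonneg _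
  have hb0 : 0 ≤ b := Real.sqrt_nonneg _
  have ha2 : a ^ 2 = N2 τ A := Real.sq_sqrt (n2_nonneg hτ _)
  have hb2 : b ^ 2 = N2 τ E := Real.sq_sqrt (n2_nonneg hτ _)
  -- the vectors
  have v1 : √(N2 τ ((W' * W' - W * W) * (S' * w))) ≤ 2 * a := by
    have e : (W' * W' - W * W) * (S' * w) = A * W' + W * A := by
      rw [hA]
      simp only [sub_mul, mul_sub, mul_assoc, c2, c4, c2a, c4a, c5, c7, c5a, c7a]
      abel
    rw [e]
    refine (n2_sqrt_add hτ _ _).trans ?_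
    have e1 := DD_right hτ hW1' A
    have e2 := DD_left hτ hW1 A
    linarith
  have v2 : √(N2 τ ((W' - W) * (S' * (S' * w)))) ≤ R * a := by
    have e : (W' - W) * (S' * (S' * w)) = S' * A := by
      rw [hA]
      simp only [sub_mul, mul_sub, mul_assoc, c2a, c4a]
    rw [e]
    exact DD_left hτ hSR' A
  have v3 : √(N2 τ (W * ((S' * S' - S * S) * w))) ≤ 2 * R * b := by
    have e : (S' * S' - S * S) * w = S' * E + E * S := by
      rw [hE]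
      simp only [sub_mul, mul_sub, mul_assoc, c6, c8, c6a, c8a]
      abel
    rw [e]
    have e0 := DD_left hτ hW1 (S' * E + E * S)
    have e1 := DD_right hτ hSR E
    have e2 := DD_left hτ hSR' E
    have e3 := n2_sqrt_add hτ (S' * E) (E * S)
    linarith
  have v4 : √(N2 τ ((1 - W * W) * E)) ≤ b := by
    refine Real.sqrt_le_sqrt ?_
    have e : N2 τ ((1 - W * W) * E) = N2 τ E - 2 * N2 τ (W * E) + N2 τ (W * (W * E)) := by
      unfold N2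
      simp only [star_mul, star_sub, star_one, hW, sub_mul, mul_sub, one_mul, mul_one, map_sub,
        mul_assoc]
      ring
    have e1 : N2 τ (W * (W * E)) ≤ N2 τ (W * E) := by
      refine (n2_mul_le hτ (W * E) W).trans ?_
      have : ‖W‖ ^ 2 ≤ 1 := by
        have := norm_nonneg W
        nlinarith
      have h9 := n2_nonneg hτ (W * E)
      nlinarith
    have e2 := n2_nonneg hτ (W * E)
    rw [e]
    linarith
  have o1 : τ (star ((W' - W) * w) * ((W' * W' - W * W) * (S' * w))) = 0 := by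
    rw [← hm1]
    congr 1
    simp only [star_mul, star_sub, hW, hW', mul_assoc, c8]
  have o4 : τ (star ((W' - W) * w) * ((1 - W * W) * E)) = 0 := by
    have e : star ((W' - W) * w) * ((1 - W * W) * E) =
        star w * (W' - W) * (1 - W * W) * w * S' - star w * (W' - W) * (1 - W * W) * w * S := by
      rw [hE]
      simp only [star_mul, star_sub, hW, hW', mul_assoc, c8, c6, sub_mul, mul_sub, one_mul]
    rw [e, map_sub, hm2, hm3, sub_zero]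
  have o3 : |τ (star ((W' - W) * w) * (W * ((S' * S' - S * S) * w)))| ≤
      2 * (a * b) + 2 * b ^ 2 := by
    have e : star ((W' - W) * w) * (W * ((S' * S' - S * S) * w)) =
        star (W * A) * E + star E * (A * W) - star E * ((W' - W) * (W * E)) := by
      rw [hA, hE]
      simp only [star_mul, star_sub, hW, hW', hS, hS', mul_assoc, sub_mul, mul_sub, c1, c2, c3, c4,
        c1a, c2a, c3a, c4a, c5, c6, c7, c8, c5a, c6a, c7a, c8a]
      abel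
    rw [e, map_sub, map_add]
    have e1 : |τ (star (W * A) * E)| ≤ (1 * a) * b := DD_ip hτ (DD_left hτ hW1 A) le_rfl
    have e2 : |τ (star E * (A * W))| ≤ b * (1 * a) := DD_ip hτ le_rfl (DD_right hτ hW1 A)
    have n1 : ‖W' - W‖ ≤ 2 := (norm_sub_le _ _).trans (by linarith)
    have e3 : |τ (star E * ((W' - W) * (W * E)))| ≤ b * (2 * (1 * b)) := by
      refine DD_ip hτ le_rfl ((DD_left hτ n1 _).trans ?_)
      exact mul_le_mul_of_nonneg_left (DD_left hτ hW1 E) (by norm_num)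
    have f1 := abs_le.mp e1
    have f2 := abs_le.mp e2
    have f3 := abs_le.mp e3
    rw [abs_le]
    obtain ⟨g1, g2⟩ := f1
    obtain ⟨g3, g4⟩ := f2
    obtain ⟨g5, g6⟩ := f3
    constructor <;> linarith
  have core := DD_core hτ hδ hR ha0 hb0 ((W' - W) * w) _ _ _ _ v1 v2 v3 v4 o1 o4 o3
  have hvec : (stp δ W' S' - stp δ W S) * w = (W' - W) * w -
      (3 * δ ^ 2) • ((W' - W) * (S' * (S' * w))) + (-(δ • ((W' * W' - W * W) * (S' * w))) +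
        (-((3 * δ ^ 2) • (W * ((S' * S' - S * S) * w))) + δ • ((1 - W * W) * E))) := by
    rw [hE]
    unfold stp
    simp only [sub_mul, add_mul, mul_sub, mul_add, smul_mul_assoc, mul_smul_comm, smul_sub,
      smul_add, one_mul, mul_one, mul_assoc]
    abel
  have hpvec : (W' - W) * w - (3 * δ ^ 2) • ((W' - W) * (S' * (S' * w))) =
      (W' - W) * ((1 - (3 * δ ^ 2) • (S' * S')) * w) := by
    simp only [sub_mul, mul_sub, smul_mul_assoc, mul_smul_comm, smul_sub, one_mul, mul_assoc]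
  rw [← hvec, hpvec] at core
  -- N(Sw) ≤ 4 N(S'w)
  have hNS : N2 τ (S * w) ≤ 4 * N2 τ (S' * w) := by
    have e : S * w = S' * w - E := by
      rw [hE, sub_mul]
      abel
    have e1 := n2_sqrt_sub hτ (S' * w) E
    rw [← e] at e1
    have e2 : b ≤ 1 / 2 * √(N2 τ (S * w)) := by
      refine Real.sqrt_le_iff.mpr ⟨by positivity, ?_⟩
      rw [mul_pow, Real.sq_sqrt (n2_nonneg hτ _)]
      refine h3.trans ?_
      exact mul_le_mul_of_nonneg_right (hη1.trans (by norm_num)) (n2_nonneg hτ _)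
    have e3 : √(N2 τ (S * w)) ≤ 2 * √(N2 τ (S' * w)) := by linarith
    have e4 := pow_le_pow_left₀ (Real.sqrt_nonneg _) e3 2
    rw [mul_pow, Real.sq_sqrt (n2_nonneg hτ _), Real.sq_sqrt (n2_nonneg hτ _)] at e4
    linarith
  have hNp : N2 τ ((1 - (3 * δ ^ 2) • (S' * S')) * w) ≤
      N2 τ w - 6 * δ ^ 2 * N2 τ (S' * w) + 9 * δ ^ 2 * (δ * R) ^ 2 * N2 τ (S' * w) := by
    have e : N2 τ ((1 - (3 * δ ^ 2) • (S' * S')) * w) =
        N2 τ w - 6 * δ ^ 2 * N2 τ (S' * w) + 9 * δ ^ 4 * N2 τ (S' * (S' * w)) := by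
      unfold N2
      simp only [star_mul, star_sub, star_one, star_smul, star_trivial, hS', sub_mul, mul_sub,
        one_mul, mul_one, map_sub, mul_assoc, smul_mul_assoc, mul_smul_comm, map_smul, smul_eq_mul]
      ring
    have e1 : N2 τ (S' * (S' * w)) ≤ R ^ 2 * N2 τ (S' * w) := by
      refine (n2_mul_le hτ _ _).trans ?_
      exact mul_le_mul_of_nonneg_right (pow_le_pow_left₀ (norm_nonneg _) hSR' 2) (n2_nonneg hτ _)
    rw [e]
    have e2 := mul_le_mul_of_nonneg_left e1 (by positivity : 0 ≤ 9 * δ ^ 4)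
    nlinarith
  refine DD_real (R := R) (θ := δ * R) hδ (mul_nonneg hδ.le hR) hδR hη ha0 hb0
    (n2_nonneg hτ (S' * w)) (by rw [ha2]; exact h2) (by rw [hb2]; exact h3) hNS
    (h1.trans (mul_le_mul_of_nonneg_left hNp (by positivity))) core

end Vale.Agent.P095G
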