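import Vale.Agent.P095G.Tb

namespace Vale.Agent.P095G

open Vale.Agent.P095

universe u v

variable {B : Type u} [CStarAlgebra B] {D : ℕ → Set B}

/-- PP. product of commuting positive elements: `a b = √a b √a` -/
theorem mul_nonneg_of_comm [PartialOrder B] [StarOrderedRing B] {a b : B} (ha : 0 ≤ a)
    (hb : 0 ≤ b) (hab : Commute a b) : 0 ≤ a * b := by
  have hc : Commute (CFC.sqrt a) b := by
    rw [CFC.sqrt_eq_cfc]
    exact hab.cfc_nnreal _
  have h1 : a * b = CFC.sqrt a * b * CFC.sqrt a := by
    rw [mul_assoc, ← hc.eq, ← mul_assoc, CFC.sqrt_mul_sqrt_self a ha]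
  rw [h1]
  have h2 : star (CFC.sqrt a) = CFC.sqrt a := (CFC.sqrt_nonneg a).isSelfAdjoint.star_eq
  have h3 := star_left_conjugate_nonneg hb (CFC.sqrt a)
  rw [h2] at h3
  exact h3

/-- NB.  With `u = δ S`: `1 - W₊ = (1-W)(1 - (1+W)u - (3/2)u²) + (3/2)(1+W)u²` and symmetrically for
`1 + W₊` (replace `W, u` by `-W, -u`); products of commuting positive elements. -/
theorem stp_norm {δ R : ℝ} {W S : B} (hW : star W = W) (hW1 : ‖W‖ ≤ 1) (hS : star S = S)
    (hSR : ‖S‖ ≤ R) (hWS : W * S = S * W) (hδ : 0 ≤ δ) (hδR : δ * R ≤ 1 / 100) :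
    ‖stp δ W S‖ ≤ 1 := by
  letI := CStarAlgebra.spectralOrder B
  haveI := CStarAlgebra.spectralOrderedRing B
  rcases subsingleton_or_nontrivial B with hB | hB
  · rw [Subsingleton.elim (stp δ W S) 0, norm_zero]
    exact zero_le_one
  set u : B := δ • S with hu
  have hus : star u = u := by rw [hu, star_smul, hS, star_trivial]
  have hun : ‖u‖ ≤ 1 / 100 := by
    rw [hu, norm_smul, Real.norm_of_nonneg hδ]
    exact (mul_le_mul_of_nonneg_left hSR hδ).trans hδR
  have hcu : Commute W u := by
    show W * (δ • S) = (δ • S) * W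
    rw [mul_smul_comm, smul_mul_assoc, hWS]
  have hcu' : W * u = u * W := hcu.eq
  have hstp : stp δ W S = W - (3 : ℝ) • (W * (u * u)) + (1 - W * W) * u := by
    unfold stp
    rw [hu, mul_smul_comm, smul_mul_assoc, mul_smul_comm, mul_smul_comm, mul_smul_comm, smul_smul,
      smul_smul]
    congr 3
    ring
  -- the general one-sided estimate
  have key : ∀ W u : B, star W = W → ‖W‖ ≤ 1 → star u = u → ‖u‖ ≤ 1 / 100 → W * u = u * W →
      0 ≤ 1 - (W - (3 : ℝ) • (W * (u * u)) + (1 - W * W) * u) := by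
    intro W u hW hW1 hu hun hc
    have hle : ∀ x : B, star x = x → ∀ r : ℝ, ‖x‖ ≤ r → 0 ≤ algebraMap ℝ B r - x := by
      intro x hx r hr
      have h1 : x ≤ algebraMap ℝ B ‖x‖ := IsSelfAdjoint.le_algebraMap_norm_self (by exact hx)
      have h2 : algebraMap ℝ B ‖x‖ ≤ algebraMap ℝ B r := algebraMap_mono _ hr
      exact sub_nonneg.mpr (h1.trans h2)
    have hA : 0 ≤ 1 - W := by
      have := hle W hW 1 hW1
      rwa [map_one] at this
    have hA' : 0 ≤ 1 + W := by
      have := hle (-W) (by rw [star_neg, hW]) 1 (by rwa [norm_neg])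
      rw [map_one, sub_neg_eq_add] at this
      exact this
    have huu : 0 ≤ u * u := by
      have := star_mul_self_nonneg u
      rwa [hu] at this
    set X : B := (1 + W) * u + (3 / 2 : ℝ) • (u * u) with hX
    have hXs : star X = X := by
      rw [hX, star_add, star_mul, star_add, star_one, hW, hu, star_smul, star_mul, hu, star_trivial,
        mul_add, add_mul, mul_one, one_mul, hc]
    have hXn : ‖X‖ ≤ 1 := by
      have h1 : ‖(1 + W) * u‖ ≤ 2 * (1 / 100) := by
        refine (norm_mul_le _ _).trans ?_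
        have h2 : ‖1 + W‖ ≤ 2 := by
          refine (norm_add_le _ _).trans ?_
          rw [norm_one]
          linarith
        exact mul_le_mul h2 hun (norm_nonneg _) (by norm_num)
      have h2 : ‖(3 / 2 : ℝ) • (u * u)‖ ≤ 3 / 2 * (1 / 100 * (1 / 100)) := by
        rw [norm_smul, Real.norm_of_nonneg (by norm_num)]
        refine mul_le_mul_of_nonneg_left ?_ (by norm_num)
        exact (norm_mul_le _ _).trans (mul_le_mul hun hun (norm_nonneg _) (by norm_num))
      refine (norm_add_le _ _).trans ?_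
      linarith
    have hP : 0 ≤ 1 - X := by
      have := hle X hXs 1 hXn
      rwa [map_one] at this
    have hcX : Commute (1 - W) (1 - X) := by
      have h1 : Commute W u := hc
      have h2 : Commute W X := by
        rw [hX]
        exact (((Commute.one_right W).add_right (Commute.refl W)).mul_right h1).add_right
          ((h1.mul_right h1).smul_right _)
      exact ((Commute.one_left _).sub_left ((Commute.one_right W).sub_right h2))
    have hc2 : Commute (1 + W) (u * u) := by
      have h1 : Commute W u := hc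
      exact (Commute.one_left _).add_left (h1.mul_right h1)
    have h1 := mul_nonneg_of_comm hA hP hcX
    have h2 := mul_nonneg_of_comm hA' huu hc2
    have h3 : 0 ≤ (3 / 2 : ℝ) • ((1 + W) * (u * u)) := smul_nonneg (by norm_num) h2
    have h4 : 1 - (W - (3 : ℝ) • (W * (u * u)) + (1 - W * W) * u) =
        (1 - W) * (1 - X) + (3 / 2 : ℝ) • ((1 + W) * (u * u)) := by
      rw [hX]
      have e1 : (3 : ℝ) • (W * (u * u)) = (3 / 2 : ℝ) • (W * (u * u)) + (3 / 2 : ℝ) • (W * (u * u)) := by
        rw [← add_smul]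
        norm_num
      rw [e1]
      simp only [mul_add, add_mul, mul_sub, sub_mul, mul_one, one_mul, smul_add, smul_sub, mul_smul_comm,
        smul_mul_assoc, mul_assoc]
      abel
    rw [h4]
    exact add_nonneg h1 h3
  have h1 := key W u hW hW1 hus hun hcu'
  have h2 := key (-W) (-u) (by rw [star_neg, hW]) (by rwa [norm_neg]) (by rw [star_neg, hus])
    (by rwa [norm_neg]) (by rw [neg_mul_neg, neg_mul_neg, hcu'])
  rw [← hstp] at h1
  have h2' : 1 - (-W - (3 : ℝ) • (-W * (-u * -u)) + (1 - -W * -W) * -u) = 1 + stp δ W S := by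
    rw [hstp, neg_mul_neg, neg_mul_neg, neg_mul, smul_neg, mul_neg]
    abel
  rw [h2'] at h2
  set Z := stp δ W S with hZ
  have hZs : star Z = Z := by
    rw [hstp]
    rw [star_add, star_sub, star_smul, star_mul, star_mul, star_mul, star_sub, star_one, star_mul,
      hW, hus, star_trivial]
    have h3 : u * u * W = W * (u * u) := by
      rw [mul_assoc, ← hcu', ← mul_assoc, ← hcu', mul_assoc]
    have h4 : u * (1 - W * W) = (1 - W * W) * u := by
      rw [mul_sub, sub_mul, mul_one, one_mul, ← mul_assoc, ← hcu', mul_assoc, ← hcu', mul_assoc]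
    rw [h3, h4]
  have hcZ : Commute (1 - Z) (1 + Z) := by
    have h3 : Commute Z Z := Commute.refl Z
    exact ((Commute.one_left _).sub_left ((Commute.one_right Z).add_right h3))
  have h3 := mul_nonneg_of_comm h1 h2 hcZ
  have h4 : (1 - Z) * (1 + Z) = 1 - star Z * Z := by
    rw [hZs]
    noncomm_ring
  rw [h4] at h3
  have h5 : star Z * Z ≤ 1 := sub_nonneg.mp h3
  have h6 : ‖star Z * Z‖ ≤ 1 :=
    (CStarAlgebra.norm_le_one_iff_of_nonneg (star Z * Z) (star_mul_self_nonneg Z)).mpr h5
  rw [CStarRing.norm_star_mul_self] at h6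
  nlinarith [norm_nonneg Z]

end Vale.Agent.P095G
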