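import Vale.Agent.P095G.Tb

namespace Vale.Agent.P095G

open Vale.Agent.P095

universe u v

variable {B : Type u} [CStarAlgebra B] {D : ℕ → Set B}

theorem DV_id {τ : B →ₗ[ℝ] ℝ} {δ : ℝ} {W S w : B} (hW : star W = W)
    (hS : star S = S) (hWS : W * S = S * W) (hwS : w * S = S * w) :
    N2 τ (stp δ W S * w) = N2 τ (W * ((1 - (4 * δ ^ 2) • (S * S)) * w))
      - 7 * δ ^ 4 * N2 τ (W * (S * (S * w))) + 2 * δ ^ 2 * N2 τ (W * (S * w))
      + δ ^ 2 * N2 τ ((1 - W * W) * (S * w))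
      - 3 * δ ^ 3 * τ (star (W * (S * (S * w))) * ((1 - W * W) * (S * w)))
      - 3 * δ ^ 3 * τ (star (W * (S * (S * w))) * ((1 - W * W) * (S * w)))
      + 2 * δ * τ (star w * W * (1 - W * W) * w * S) := by
  have e1 : S * W = W * S := hWS.symm
  have e2 : ∀ x : B, S * (W * x) = W * (S * x) := fun x => by
    rw [← mul_assoc, e1, mul_assoc]
  simp only [N2, stp, star_add, star_sub, star_mul, star_smul, star_one, hW, hS, star_trivial,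
    mul_add, add_mul, mul_sub, sub_mul, one_mul, mul_one, smul_mul_assoc, mul_smul_comm,
    smul_smul, smul_add, smul_sub, mul_assoc, e1, e2, hwS, map_add, map_sub, map_smul, smul_eq_mul]
  ring

theorem DV_id2 {τ : B →ₗ[ℝ] ℝ} {W S w : B} (hW : star W = W)
    (hS : star S = S) :
    N2 τ ((1 - W * W) * (S * w)) = N2 τ (S * w) - 2 * N2 τ (W * (S * w))
      + N2 τ (W * (W * (S * w))) := by
  simp only [N2, star_sub, star_mul, star_one, hW, hS,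
    mul_sub, sub_mul, one_mul, mul_one, mul_assoc, map_sub]
  ring

theorem DV_id3 {τ : B →ₗ[ℝ] ℝ} {δ : ℝ} {S w : B}
    (hS : star S = S) :
    N2 τ ((1 - (4 * δ ^ 2) • (S * S)) * w) = N2 τ w - 8 * δ ^ 2 * N2 τ (S * w)
      + 16 * δ ^ 4 * N2 τ (S * (S * w)) := by
  simp only [N2, star_sub, star_mul, star_smul, star_one, hS, star_trivial,
    mul_sub, sub_mul, one_mul, mul_one, smul_mul_assoc, mul_smul_comm,
    smul_smul, smul_sub, mul_assoc, map_sub, map_smul, smul_eq_mul]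
  ring

/-- VB.  Second moment.  `X = W(1-3δ²S²)`, `Y = δ(1-W²)S`, `θ = δR ≤ 1/100`:
`2⟨X,Y⟩ = -6δ³ τ(w* W(1-W²)S³ w)` (by `hm`) `≥ -6θδ² N(Sw)`;
`N(Yw) ≥ δ²(N(Sw) - 2N(WSw))`; `N(Xw) - 2δ²N(WSw) = N(W(1-4δ²S²)w) - 7δ⁴N(WS²w)
≥ μ N((1-4δ²S²)w) - 7θ²δ²N(Sw) ≥ μ N(w) - 8μδ²N(Sw) - 7θ²δ²N(Sw)`.
Total `≥ μ N(w) + δ² N(Sw) (1 - 6θ - 7θ² - 8μ) ≥ (μ + δ² r / 10) N(w)`. -/
theorem stp_var {τ : B →ₗ[ℝ] ℝ} (hτ : Tr τ) {δ R r μ : ℝ} {W S w : B} (hW : star W = W)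
    (hW1 : ‖W‖ ≤ 1) (hS : star S = S) (hSR : ‖S‖ ≤ R) (hWS : W * S = S * W)
    (hwW : w * W = W * w) (hwS : w * S = S * w)
    (hwW' : star w * W = W * star w) (hwS' : star w * S = S * star w)
    (hδ : 0 < δ) (hδR : δ * R ≤ 1 / 100) (hμ : 0 ≤ μ) (hμ1 : μ ≤ 1 / 10) (hr : 0 < r)
    (h1 : μ * N2 τ ((1 - (4 * δ ^ 2) • (S * S)) * w) ≤ N2 τ (W * ((1 - (4 * δ ^ 2) • (S * S)) * w)))
    (hv : r * N2 τ w ≤ N2 τ (S * w))
    (hm : τ (star w * W * (1 - W * W) * w * S) = 0) :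
    (μ + δ ^ 2 * r / 10) * N2 τ w ≤ N2 τ (stp δ W S * w) := by
  have hR : 0 ≤ R := (norm_nonneg S).trans hSR
  have hθ : 0 ≤ δ * R := by positivity
  have hNW : ∀ x : B, N2 τ (W * x) ≤ N2 τ x := fun x => by
    have h2 := n2_mul_le hτ x W
    have h3 : ‖W‖ ^ 2 ≤ 1 := by
      have := norm_nonneg W
      nlinarith
    have h4 := n2_nonneg hτ x
    nlinarith
  have hNS : ∀ x : B, N2 τ (S * x) ≤ R ^ 2 * N2 τ x := fun x => by
    have h2 := n2_mul_le hτ x S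
    have h3 : ‖S‖ ^ 2 ≤ R ^ 2 := by
      have := norm_nonneg S
      nlinarith
    have h4 := n2_nonneg hτ x
    nlinarith
  set NS := N2 τ (S * w) with hNSd
  have hNS0 : 0 ≤ NS := n2_nonneg hτ _
  have hNw0 : 0 ≤ N2 τ w := n2_nonneg hτ _
  have hWSS : N2 τ (W * (S * (S * w))) ≤ R ^ 2 * NS := (hNW _).trans (hNS _)
  have hA := DV_id2 (τ := τ) (w := w) hW hS
  have hA1 : N2 τ ((1 - W * W) * (S * w)) ≤ NS := by
    have := hNW (W * (S * w))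
    have h0 := n2_nonneg hτ (W * (S * w))
    rw [hA]
    linarith
  have hA2 : NS - 2 * N2 τ (W * (S * w)) ≤ N2 τ ((1 - W * W) * (S * w)) := by
    have h0 := n2_nonneg hτ (W * (W * (S * w)))
    rw [hA]
    linarith
  have hB := DV_id3 (τ := τ) (δ := δ) (w := w) hS
  have hB1 : N2 τ w - 8 * δ ^ 2 * NS ≤ N2 τ ((1 - (4 * δ ^ 2) • (S * S)) * w) := by
    have h0 := n2_nonneg hτ (S * (S * w))
    rw [hB]
    have : 0 ≤ 16 * δ ^ 4 * N2 τ (S * (S * w)) := by positivity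
    linarith
  have hC : τ (star (W * (S * (S * w))) * ((1 - W * W) * (S * w))) ≤ R * NS := by
    have h2 := tr_cs hτ (W * (S * (S * w))) ((1 - W * W) * (S * w))
    have h3 : N2 τ (W * (S * (S * w))) * N2 τ ((1 - W * W) * (S * w)) ≤ (R * NS) ^ 2 := by
      calc N2 τ (W * (S * (S * w))) * N2 τ ((1 - W * W) * (S * w))
          ≤ (R ^ 2 * NS) * NS := by
            refine mul_le_mul hWSS hA1 (n2_nonneg hτ _) (by positivity)
        _ = (R * NS) ^ 2 := by ring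
    exact (le_abs_self _).trans (abs_le_of_sq_le_sq (h2.trans h3) (by positivity))
  have hI := DV_id (τ := τ) (δ := δ) hW hS hWS hwS
  rw [hm] at hI
  have hμB : μ * (N2 τ w - 8 * δ ^ 2 * NS) ≤
      N2 τ (W * ((1 - (4 * δ ^ 2) • (S * S)) * w)) :=
    (mul_le_mul_of_nonneg_left hB1 hμ).trans h1
  have h7 : 7 * δ ^ 4 * N2 τ (W * (S * (S * w))) ≤ 7 * (δ * R) ^ 2 * (δ ^ 2 * NS) := by
    calc 7 * δ ^ 4 * N2 τ (W * (S * (S * w))) ≤ 7 * δ ^ 4 * (R ^ 2 * NS) := by gcongr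
      _ = 7 * (δ * R) ^ 2 * (δ ^ 2 * NS) := by ring
  have h8 : 3 * δ ^ 3 * τ (star (W * (S * (S * w))) * ((1 - W * W) * (S * w))) ≤
      3 * (δ * R) * (δ ^ 2 * NS) := by
    calc 3 * δ ^ 3 * τ (star (W * (S * (S * w))) * ((1 - W * W) * (S * w)))
        ≤ 3 * δ ^ 3 * (R * NS) := by gcongr
      _ = 3 * (δ * R) * (δ ^ 2 * NS) := by ring
  have h9 : δ ^ 2 * (NS - 2 * N2 τ (W * (S * w))) ≤ δ ^ 2 * N2 τ ((1 - W * W) * (S * w)) := by
    gcongr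
  have hE : 0 ≤ δ ^ 2 * NS := by positivity
  have h10 : 1 / 10 ≤ 1 - 8 * μ - 7 * (δ * R) ^ 2 - 6 * (δ * R) := by nlinarith
  have h11 : 1 / 10 * (δ ^ 2 * NS) ≤ (1 - 8 * μ - 7 * (δ * R) ^ 2 - 6 * (δ * R)) * (δ ^ 2 * NS) :=
    mul_le_mul_of_nonneg_right h10 hE
  have h12 : δ ^ 2 * (r * N2 τ w) ≤ δ ^ 2 * NS := by gcongr
  rw [hI]
  nlinarith

end Vale.Agent.P095G
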