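import Vale.Agent.P095G.HDefs

namespace Vale.Agent.P095G

universe u v

variable {B : Type u} [CStarAlgebra B] {Q : Type v} [DecidableEq Q] {D : ℕ → Set B}
  {J : ℕ → Finset ℕ} {κ : ℝ} {c : ℕ → Q → B}

/-- outside `Φ` nothing happens -/
theorem bb_off (δ : ℝ) (Φ : Finset Q) (c : ℕ → Q → B) (m : ℕ) {g : Q} (hg : g ∉ Φ) :
    bb δ Φ c m g = 0 := by
  induction m with
  | zero => rfl
  | succ m ih => rw [bb_succ, if_neg hg, ih, add_zero]

theorem HA_II_succ (J : ℕ → Finset ℕ) (m : ℕ) : II J m ⊆ II J (m + 1) :=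
  Finset.biUnion_subset_biUnion_of_subset_left _ (Finset.range_subset_range.2 (Nat.le_succ m))

theorem HA_J_sub (J : ℕ → Finset ℕ) (m : ℕ) : J m ⊆ II J (m + 1) :=
  Finset.subset_biUnion_of_mem J (Finset.mem_range.2 (Nat.lt_succ_self m))

theorem HA_dis (hS : Setup D J κ c) {m k : ℕ} (hk : m ≤ k) : Disjoint (II J m) (J k) := by
  unfold II
  rw [Finset.disjoint_biUnion_left]
  intro i hi
  exact hS.dis i k (by have := Finset.mem_range.1 hi; omega)

theorem HA_SS_comm (hS : Setup D J κ c) (δ : ℝ) (Φ : Finset Q) (m : ℕ)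
    (ih : ∀ g, ∀ z ∈ Zc D (II J m), z * bb δ Φ c m g = bb δ Φ c m g * z) {z : B}
    (hz : z ∈ Zc D (II J (m + 1))) : Commute z (SS δ Φ c m) := by
  unfold SS
  refine Commute.sum_right _ _ _ fun h _ => ?_
  refine Commute.mul_right ?_ ?_
  · exact (hS.good m h).cent z (Zc_anti (HA_J_sub J m) hz)
  · exact ih h z (Zc_anti (HA_II_succ J m) hz)

/-- all `bb m g` are in the bicommutant of the blocks `< m` (induction; `cent_mono`) -/
theorem bb_cent (hS : Setup D J κ c) (δ : ℝ) (Φ : Finset Q) (m : ℕ) (g : Q) :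
    ∀ z ∈ Zc D (II J m), z * bb δ Φ c m g = bb δ Φ c m g * z := by
  induction m generalizing g with
  | zero =>
    intro z _
    rw [bb_zero, mul_zero, zero_mul]
  | succ m ih =>
    intro z hz
    have h1 : Commute z (bb δ Φ c m g) := ih g z (Zc_anti (HA_II_succ J m) hz)
    have h2 : Commute z (c m g) := (hS.good m g).cent z (Zc_anti (HA_J_sub J m) hz)
    have h3 : Commute z (SS δ Φ c m) := HA_SS_comm hS δ Φ m ih hz
    have h4 : Commute z (bb δ Φ c (m + 1) g) := by
      rw [bb_succ]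
      refine h1.add_right ?_
      split_ifs
      · exact (h2.smul_right δ).sub_right (((h2.mul_right h3).add_right (h3.mul_right h2)).smul_right _)
      · exact Commute.zero_right z
    exact h4

/-- `mem_Zc_of_disj` -/
theorem bb_mem (hS : Setup D J κ c) (δ : ℝ) (Φ : Finset Q) {m k : ℕ} (hk : m ≤ k) (g : Q) :
    bb δ Φ c m g ∈ Zc D (J k) :=
  mem_Zc_of_disj hS.com (HA_dis hS hk) (bb_cent hS δ Φ m g)

theorem c_mem (hS : Setup D J κ c) (m : ℕ) (g : Q) : c m g ∈ Zc D (II J m) :=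
  good_mem hS.com (HA_dis hS le_rfl).symm (hS.good m g)

theorem c_bb_comm (hS : Setup D J κ c) (δ : ℝ) (Φ : Finset Q) (m : ℕ) (g h : Q) :
    c m g * bb δ Φ c m h = bb δ Φ c m h * c m g :=
  bb_cent hS δ Φ m h (c m g) (c_mem hS m g)

theorem HA_SS_sa (hS : Setup D J κ c) (δ : ℝ) (Φ : Finset Q) (m : ℕ)
    (hb : ∀ g, star (bb δ Φ c m g) = bb δ Φ c m g) : star (SS δ Φ c m) = SS δ Φ c m := by
  unfold SS
  rw [star_sum]
  refine Finset.sum_congr rfl fun h _ => ?_
  rw [star_mul, hb, (hS.good m h).sa, c_bb_comm hS]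

theorem bb_sa (hS : Setup D J κ c) (δ : ℝ) (Φ : Finset Q) (m : ℕ) (g : Q) :
    star (bb δ Φ c m g) = bb δ Φ c m g := by
  induction m generalizing g with
  | zero => rw [bb_zero, star_zero]
  | succ m ih =>
    have hs := HA_SS_sa hS δ Φ m ih
    rw [bb_succ, star_add, ih]
    split_ifs
    · rw [star_sub, star_smul, star_smul, star_add, star_mul, star_mul, hs, (hS.good m g).sa,
        star_trivial, star_trivial, add_comm (SS δ Φ c m * c m g)]
    · rw [star_zero]

theorem SS_sa (hS : Setup D J κ c) (δ : ℝ) (Φ : Finset Q) (m : ℕ) :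
    star (SS δ Φ c m) = SS δ Φ c m :=
  HA_SS_sa hS δ Φ m fun g => bb_sa hS δ Φ m g

/-- induction: `τ (z * b_g^(m+1))`: the terms `c_g c_h b_h` are (by commutation and the trace
property) `(.. ) * b_h` with coefficient in `Zc D (II J m)`, and `τ (z * c_g) = 0`. -/
theorem bb_mean (hS : Setup D J κ c) (δ : ℝ) (Φ : Finset Q) (m : ℕ) (g : Q) {τ : B →ₗ[ℝ] ℝ}
    (hτ : Tr τ) {z : B} (hz : z ∈ Zc D (II J m)) : τ (z * bb δ Φ c m g) = 0 := by
  induction m generalizing g z with
  | zero => rw [bb_zero, mul_zero, map_zero]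
  | succ m ih =>
    have hz1 : z ∈ Zc D (II J m) := Zc_anti (HA_II_succ J m) hz
    have hz2 : z ∈ Zc D (J m) := Zc_anti (HA_J_sub J m) hz
    rw [bb_succ, mul_add, map_add, ih g hz1, zero_add]
    split_ifs
    · have h1 : τ (z * c m g) = 0 := (hS.good m g).mean τ hτ z hz2
      have h2 : τ (z * (c m g * SS δ Φ c m)) = 0 := by
        unfold SS
        rw [Finset.mul_sum, Finset.mul_sum, map_sum]
        refine Finset.sum_eq_zero fun h _ => ?_
        have e : z * (c m g * (c m h * bb δ Φ c m h)) = z * c m g * c m h * bb δ Φ c m h := by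
          simp only [mul_assoc]
        rw [e]
        exact ih h (mul_mem (mul_mem hz1 (c_mem hS m g)) (c_mem hS m h))
      have h3 : τ (z * (SS δ Φ c m * c m g)) = 0 := by
        unfold SS
        rw [Finset.sum_mul, Finset.mul_sum, map_sum]
        refine Finset.sum_eq_zero fun h _ => ?_
        have e : z * (c m h * bb δ Φ c m h * c m g) = z * c m h * c m g * bb δ Φ c m h := by
          rw [mul_assoc (c m h), ← c_bb_comm hS δ Φ m g h]
          simp only [mul_assoc]
        rw [e]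
        exact ih h (mul_mem (mul_mem hz1 (c_mem hS m h)) (c_mem hS m g))
      rw [mul_sub, mul_smul_comm, mul_smul_comm, mul_add, map_sub, map_smul, map_smul, map_add,
        h1, h2, h3]
      simp
    · rw [mul_zero, map_zero]

theorem SS_cent (hS : Setup D J κ c) (δ : ℝ) (Φ : Finset Q) (m : ℕ) :
    ∀ z ∈ Zc D (II J (m + 1)), z * SS δ Φ c m = SS δ Φ c m * z := fun _ hz =>
  HA_SS_comm hS δ Φ m (bb_cent hS δ Φ m) hz

/-- `τ (z c_h b_h) = τ ((z b_h) c_h) = 0`, `z b_h ∈ Zc D (J m)` -/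
theorem SS_mean (hS : Setup D J κ c) (δ : ℝ) (Φ : Finset Q) (m : ℕ) {τ : B →ₗ[ℝ] ℝ}
    (hτ : Tr τ) {z : B} (hz : z ∈ Zc D (J m)) : τ (z * SS δ Φ c m) = 0 := by
  unfold SS
  rw [Finset.mul_sum, map_sum]
  refine Finset.sum_eq_zero fun h _ => ?_
  have e : z * (c m h * bb δ Φ c m h) = z * bb δ Φ c m h * c m h := by
    rw [c_bb_comm hS δ Φ m h h, mul_assoc]
  rw [e]
  exact (hS.good m h).mean τ hτ _ (mul_mem hz (bb_mem hS δ Φ le_rfl h))

end Vale.Agent.P095G
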