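import Vale.Agent.P095G.HDefs

namespace Vale.Agent.P095G

universe u v

/-- the bounds -/
noncomputable def HB_R (δ : ℝ) (n : ℕ) : ℕ → ℝ
  | 0 => 0
  | m + 1 => HB_R δ n m + |δ| + δ ^ 2 * (n * HB_R δ n m)

theorem HB_nonneg (δ : ℝ) (n : ℕ) : ∀ m, 0 ≤ HB_R δ n m
  | 0 => le_rfl
  | m + 1 => by
    have h := HB_nonneg δ n m
    rw [HB_R]
    positivity

theorem HB_SS {B : Type u} [CStarAlgebra B] {Q : Type v} [DecidableEq Q] (δ : ℝ) (n : ℕ)
    (c : ℕ → Q → B) (Φ : Finset Q) (hn : Φ.card ≤ n) (hc : ∀ m q, ‖c m q‖ ≤ 1) (m : ℕ) (r : ℝ)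
    (hr : 0 ≤ r) (h : ∀ g, ‖bb δ Φ c m g‖ ≤ r) : ‖SS δ Φ c m‖ ≤ n * r := by
  rw [SS]
  calc ‖∑ h ∈ Φ, c m h * bb δ Φ c m h‖ ≤ ∑ h ∈ Φ, ‖c m h * bb δ Φ c m h‖ := norm_sum_le _ _
    _ ≤ ∑ _h ∈ Φ, r := by
        refine Finset.sum_le_sum fun g _ => (norm_mul_le _ _).trans ?_
        calc ‖c m g‖ * ‖bb δ Φ c m g‖ ≤ 1 * r :=
              mul_le_mul (hc m g) (h g) (norm_nonneg _) zero_le_one
          _ = r := one_mul r
    _ = Φ.card * r := by rw [Finset.sum_const, nsmul_eq_mul]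
    _ ≤ n * r := by
        refine mul_le_mul_of_nonneg_right ?_ hr
        exact_mod_cast hn

/-- HB.  `R (m+1) = R m + |δ| + δ² n (R m)` etc. (then `‖SS‖ ≤ n * R m`). -/
theorem bb_norm (δ : ℝ) (n : ℕ) : ∃ R : ℕ → ℝ, (∀ m, 0 ≤ R m) ∧
    ∀ (B : Type u) [CStarAlgebra B] (Q : Type v) [DecidableEq Q] (c : ℕ → Q → B) (Φ : Finset Q),
      Φ.card ≤ n → (∀ m q, ‖c m q‖ ≤ 1) →
      ∀ m, (∀ g, ‖bb δ Φ c m g‖ ≤ R m) ∧ ‖SS δ Φ c m‖ ≤ n * R m := by
  refine ⟨HB_R δ n, HB_nonneg δ n, ?_⟩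
  intro B _ Q _ c Φ hn hc
  have key : ∀ m, ∀ g, ‖bb δ Φ c m g‖ ≤ HB_R δ n m := by
    intro m
    induction m with
    | zero =>
      intro g
      rw [bb_zero, norm_zero, HB_R]
    | succ m ih =>
      intro g
      have h0 := HB_nonneg δ n m
      have hS := HB_SS δ n c Φ hn hc m _ h0 ih
      rw [bb_succ, HB_R]
      have h1 : ‖(if g ∈ Φ then
          δ • c m g - (δ ^ 2 / 2) • (c m g * SS δ Φ c m + SS δ Φ c m * c m g) else 0)‖ ≤
          |δ| + δ ^ 2 * (n * HB_R δ n m) := by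
        split_ifs with hg
        · have h2 : ‖δ • c m g‖ ≤ |δ| := by
            rw [norm_smul, Real.norm_eq_abs]
            calc |δ| * ‖c m g‖ ≤ |δ| * 1 := mul_le_mul_of_nonneg_left (hc m g) (abs_nonneg _)
              _ = |δ| := mul_one _
          have h3 : ‖(δ ^ 2 / 2) • (c m g * SS δ Φ c m + SS δ Φ c m * c m g)‖ ≤
              δ ^ 2 * (n * HB_R δ n m) := by
            rw [norm_smul, Real.norm_of_nonneg (by positivity)]
            have h4 : ‖c m g * SS δ Φ c m‖ ≤ n * HB_R δ n m := (norm_mul_le _ _).trans (by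
              calc ‖c m g‖ * ‖SS δ Φ c m‖ ≤ 1 * (n * HB_R δ n m) :=
                    mul_le_mul (hc m g) hS (norm_nonneg _) zero_le_one
                _ = n * HB_R δ n m := one_mul _)
            have h5 : ‖SS δ Φ c m * c m g‖ ≤ n * HB_R δ n m := (norm_mul_le _ _).trans (by
              calc ‖SS δ Φ c m‖ * ‖c m g‖ ≤ (n * HB_R δ n m) * 1 :=
                    mul_le_mul hS (hc m g) (norm_nonneg _) (by positivity)
                _ = n * HB_R δ n m := mul_one _)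
            calc δ ^ 2 / 2 * ‖c m g * SS δ Φ c m + SS δ Φ c m * c m g‖
                ≤ δ ^ 2 / 2 * (n * HB_R δ n m + n * HB_R δ n m) := by
                  refine mul_le_mul_of_nonneg_left ((norm_add_le _ _).trans ?_) (by positivity)
                  linarith
              _ = δ ^ 2 * (n * HB_R δ n m) := by ring
          exact (norm_sub_le _ _).trans (by linarith)
        · rw [norm_zero]; positivity
      calc _ ≤ ‖bb δ Φ c m g‖ + ‖(if g ∈ Φ then
          δ • c m g - (δ ^ 2 / 2) • (c m g * SS δ Φ c m + SS δ Φ c m * c m g) else 0)‖ :=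
            norm_add_le _ _
        _ ≤ HB_R δ n m + (|δ| + δ ^ 2 * (n * HB_R δ n m)) := add_le_add (ih g) h1
        _ = HB_R δ n m + |δ| + δ ^ 2 * (n * HB_R δ n m) := by ring
  exact fun m => ⟨key m, HB_SS δ n c Φ hn hc m _ (HB_nonneg δ n m) (key m)⟩

end Vale.Agent.P095G
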