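import Vale.Agent.P095G.HA

namespace Vale.Agent.P095G

universe u v

variable {B : Type u} [CStarAlgebra B] {Q : Type v} [DecidableEq Q] {D : ℕ → Set B}
  {J : ℕ → Finset ℕ} {κ : ℝ} {c : ℕ → Q → B}

theorem HC_two {τ : B →ₗ[ℝ] ℝ} (hτ : Tr τ) (a b : B) :
    N2 τ (a + b) ≤ 2 * N2 τ a + 2 * N2 τ b := by
  have h1 := n2_add hτ a b
  have h2 := n2_add hτ a ((-1 : ℝ) • b)
  have h3 := n2_nonneg hτ (a + (-1 : ℝ) • b)
  rw [n2_smul, mul_smul_comm, map_smul, smul_eq_mul] at h2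
  linarith

omit [DecidableEq Q] in
theorem HC_alg (δ : ℝ) (Φ : Finset Q) {b cc z : Q → B} (hcb : ∀ g h, cc g * b h = b h * cc g)
    (hzc : ∀ g h, z g * cc h = cc h * z g) :
    ∑ g ∈ Φ, (b g + (δ • cc g - (δ ^ 2 / 2) • (cc g * (∑ h ∈ Φ, cc h * b h) +
      (∑ h ∈ Φ, cc h * b h) * cc g))) * z g =
    ∑ h ∈ Φ, b h * (z h + (-(δ ^ 2 / 2)) • ((∑ g ∈ Φ, cc g * z g) * cc h +
      cc h * (∑ g ∈ Φ, cc g * z g))) + δ • ∑ g ∈ Φ, cc g * z g := by
  have e1 : ∀ g, cc g * (∑ h ∈ Φ, cc h * b h) * z g = ∑ h ∈ Φ, b h * (cc g * z g * cc h) := by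
    intro g
    rw [Finset.mul_sum, Finset.sum_mul]
    refine Finset.sum_congr rfl fun h _ => ?_
    calc cc g * (cc h * b h) * z g = cc g * (b h * cc h) * z g := by rw [hcb h h]
      _ = (cc g * b h) * (cc h * z g) := by noncomm_ring
      _ = (b h * cc g) * (z g * cc h) := by rw [hcb g h, ← hzc g h]
      _ = b h * (cc g * z g * cc h) := by noncomm_ring
  have e2 : ∀ g, (∑ h ∈ Φ, cc h * b h) * cc g * z g = ∑ h ∈ Φ, b h * (cc h * (cc g * z g)) := by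
    intro g
    rw [Finset.sum_mul, Finset.sum_mul]
    refine Finset.sum_congr rfl fun h _ => ?_
    rw [hcb h h]
    noncomm_ring
  have e3 : ∑ g ∈ Φ, (cc g * (∑ h ∈ Φ, cc h * b h) + (∑ h ∈ Φ, cc h * b h) * cc g) * z g =
      ∑ h ∈ Φ, b h * ((∑ g ∈ Φ, cc g * z g) * cc h + cc h * (∑ g ∈ Φ, cc g * z g)) := by
    have e4 : ∀ g ∈ Φ, (cc g * (∑ h ∈ Φ, cc h * b h) + (∑ h ∈ Φ, cc h * b h) * cc g) * z g =
        ∑ h ∈ Φ, (b h * (cc g * z g * cc h) + b h * (cc h * (cc g * z g))) := by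
      intro g _
      rw [add_mul, e1, e2, Finset.sum_add_distrib]
    rw [Finset.sum_congr rfl e4, Finset.sum_comm]
    refine Finset.sum_congr rfl fun h _ => ?_
    rw [Finset.sum_add_distrib, ← Finset.mul_sum, ← Finset.mul_sum, ← Finset.mul_sum,
      ← Finset.sum_mul, mul_add]
  have e5 : ∀ g ∈ Φ, (b g + (δ • cc g - (δ ^ 2 / 2) • (cc g * (∑ h ∈ Φ, cc h * b h) +
      (∑ h ∈ Φ, cc h * b h) * cc g))) * z g = b g * z g + δ • (cc g * z g) +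
      (-(δ ^ 2 / 2)) • ((cc g * (∑ h ∈ Φ, cc h * b h) +
        (∑ h ∈ Φ, cc h * b h) * cc g) * z g) := by
    intro g _
    rw [add_mul, sub_mul, smul_mul_assoc, smul_mul_assoc, neg_smul]
    abel
  rw [Finset.sum_congr rfl e5, Finset.sum_add_distrib, Finset.sum_add_distrib, ← Finset.smul_sum,
    ← Finset.smul_sum, e3]
  have e6 : ∀ h ∈ Φ, b h * (z h + (-(δ ^ 2 / 2)) • ((∑ g ∈ Φ, cc g * z g) * cc h +
      cc h * (∑ g ∈ Φ, cc g * z g))) = b h * z h + (-(δ ^ 2 / 2)) •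
      (b h * ((∑ g ∈ Φ, cc g * z g) * cc h + cc h * (∑ g ∈ Φ, cc g * z g))) := by
    intro h _
    rw [mul_add, mul_smul_comm]
  rw [Finset.sum_congr rfl e6, Finset.sum_add_distrib, ← Finset.smul_sum]
  abel

omit [DecidableEq Q] in
theorem HC_n2 {τ : B →ₗ[ℝ] ℝ} (hτ : Tr τ) {δ : ℝ} {Φ : Finset Q} (hδ : δ ^ 2 * Φ.card ≤ 1)
    {cc z : Q → B} (hcs : ∀ g, star (cc g) = cc g) (hcn : ∀ g, ‖cc g‖ ≤ 1)
    (hzc : ∀ g h, z g * cc h = cc h * z g) :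
    ∑ h ∈ Φ, N2 τ (z h + (-(δ ^ 2 / 2)) • ((∑ g ∈ Φ, cc g * z g) * cc h +
      cc h * (∑ g ∈ Φ, cc g * z g))) + δ ^ 2 * N2 τ (∑ g ∈ Φ, cc g * z g) ≤
    ∑ h ∈ Φ, N2 τ (z h) := by
  obtain ⟨Y, hY⟩ : ∃ Y, Y = ∑ g ∈ Φ, cc g * z g := ⟨_, rfl⟩
  rw [← hY]
  have hYn := n2_nonneg hτ Y
  have hzc' : ∀ g h, star (z g) * cc h = cc h * star (z g) := by
    intro g h
    have h1 := congrArg star (hzc g h)
    rw [star_mul, star_mul, hcs] at h1
    exact h1.symm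
  have hX : ∀ h, N2 τ (Y * cc h + cc h * Y) ≤ 4 * N2 τ Y := by
    intro h
    have h1 := HC_two hτ (Y * cc h) (cc h * Y)
    have h2 := n2_mul_le' hτ Y (cc h)
    have h3 := n2_mul_le hτ Y (cc h)
    have h4 : ‖cc h‖ ^ 2 * N2 τ Y ≤ 1 * N2 τ Y :=
      mul_le_mul_of_nonneg_right (pow_le_one₀ (norm_nonneg _) (hcn h)) hYn
    linarith
  have hsum : ∑ h ∈ Φ, τ (star (z h) * (Y * cc h + cc h * Y)) = 2 * N2 τ Y := by
    have h1 : ∑ h ∈ Φ, star (z h) * cc h = star Y := by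
      rw [hY, star_sum]
      refine Finset.sum_congr rfl fun h _ => ?_
      rw [star_mul, hcs]
    have h2 : ∀ h ∈ Φ, τ (star (z h) * (Y * cc h + cc h * Y)) =
        2 * τ ((star (z h) * cc h) * Y) := by
      intro h _
      rw [mul_add, map_add]
      have h3 : τ (star (z h) * (Y * cc h)) = τ ((star (z h) * cc h) * Y) := by
        rw [← mul_assoc, hτ.comm, ← mul_assoc, ← hzc']
      rw [h3, ← mul_assoc]
      ring
    rw [Finset.sum_congr rfl h2, ← Finset.mul_sum, ← map_sum, ← Finset.sum_mul, h1]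
    rfl
  have hexp : ∀ h ∈ Φ, N2 τ (z h + (-(δ ^ 2 / 2)) • (Y * cc h + cc h * Y)) ≤
      N2 τ (z h) + δ ^ 2 * δ ^ 2 * N2 τ Y - δ ^ 2 * τ (star (z h) * (Y * cc h + cc h * Y)) := by
    intro h _
    rw [n2_add hτ, n2_smul, mul_smul_comm, map_smul, smul_eq_mul]
    have h1 : (-(δ ^ 2 / 2)) ^ 2 * N2 τ (Y * cc h + cc h * Y) ≤
        (-(δ ^ 2 / 2)) ^ 2 * (4 * N2 τ Y) :=
      mul_le_mul_of_nonneg_left (hX h) (sq_nonneg _)
    nlinarith
  have h5 := Finset.sum_le_sum hexp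
  rw [Finset.sum_sub_distrib, Finset.sum_add_distrib, Finset.sum_const, nsmul_eq_mul,
    ← Finset.mul_sum, hsum] at h5
  have h6 : (Φ.card : ℝ) * (δ ^ 2 * δ ^ 2 * N2 τ Y) ≤ δ ^ 2 * N2 τ Y := by
    have h7 : (δ ^ 2 * Φ.card) * (δ ^ 2 * N2 τ Y) ≤ 1 * (δ ^ 2 * N2 τ Y) :=
      mul_le_mul_of_nonneg_right hδ (mul_nonneg (sq_nonneg _) hYn)
    linarith
  linarith

theorem HC_sub1 (m : ℕ) : II J m ⊆ II J (m + 1) := by
  unfold II
  exact Finset.biUnion_subset_biUnion_of_subset_left J (Finset.range_mono (Nat.le_succ m))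

theorem HC_sub2 (m : ℕ) : J m ⊆ II J (m + 1) := by
  unfold II
  exact Finset.subset_biUnion_of_mem J (Finset.mem_range.2 (Nat.lt_succ_self m))

/-- HC (covariance at most 1).  Induction on `m`.  `∑ b_g⁺ z_g = ∑_h b_h z'_h + δ ∑ c_g z_g` with
`z'_h = z_h - (δ²/2) ∑_g (c_g c_h + c_h c_g) z_g ∈ Zc D (II J m)` (note `S = ∑ c_h b_h`, and `b`
commutes with `c` and with `z ∈ Zc D (II J (m+1))`).  The cross term is `0` (`bb_mean`).
With `Θ = N2 (∑ c_g z_g)`: `∑_h N2 z'_h = ∑ N2 z_h - 2 δ² Θ + (δ⁴/4) ∑_h N2 (∑_g {c_g,c_h} z_g)`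
(`z` commutes with `c`, trace property) and `N2 (∑_g {c_g,c_h} z_g) ≤ 4 Θ` (`c_h` on the left resp.
on the right).  So `≤ ∑ N2 z_h - δ² Θ` as `δ² |Φ| ≤ 1`. -/
theorem bb_cov (hS : Setup D J κ c) (δ : ℝ) (Φ : Finset Q) (hδ : δ ^ 2 * Φ.card ≤ 1) (m : ℕ)
    {τ : B →ₗ[ℝ] ℝ} (hτ : Tr τ) (z : Q → B) (hz : ∀ g, z g ∈ Zc D (II J m)) :
    N2 τ (∑ g ∈ Φ, bb δ Φ c m g * z g) ≤ ∑ g ∈ Φ, N2 τ (z g) := by
  induction m generalizing z with
  | zero =>
    have h1 : ∑ g ∈ Φ, bb δ Φ c 0 g * z g = 0 := by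
      refine Finset.sum_eq_zero fun g _ => ?_
      rw [bb_zero, zero_mul]
    rw [h1, n2_zero]
    exact Finset.sum_nonneg fun g _ => n2_nonneg hτ _
  | succ m ih =>
    have hz1 : ∀ g, z g ∈ Zc D (II J m) := fun g => Zc_anti (HC_sub1 m) (hz g)
    have hz2 : ∀ g, z g ∈ Zc D (J m) := fun g => Zc_anti (HC_sub2 m) (hz g)
    have hzc : ∀ g h, z g * c m h = c m h * z g := fun g h => (hS.good m h).cent (z g) (hz2 g)
    have hcb : ∀ g h, c m g * bb δ Φ c m h = bb δ Φ c m h * c m g :=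
      fun g h => c_bb_comm hS δ Φ m g h
    obtain ⟨Y, hY⟩ : ∃ Y, Y = ∑ g ∈ Φ, c m g * z g := ⟨_, rfl⟩
    obtain ⟨z', hz'⟩ : ∃ z' : Q → B, z' = fun h => z h + (-(δ ^ 2 / 2)) •
      (Y * c m h + c m h * Y) := ⟨_, rfl⟩
    have hYm : Y ∈ Zc D (II J m) := by
      rw [hY]
      exact sum_mem fun g _ => mul_mem (c_mem hS m g) (hz1 g)
    have hzm : ∀ h, z' h ∈ Zc D (II J m) := by
      intro h
      rw [hz']
      have h1 : Y * c m h + c m h * Y ∈ Zc D (II J m) :=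
        add_mem (mul_mem hYm (c_mem hS m h)) (mul_mem (c_mem hS m h) hYm)
      refine add_mem (hz1 h) ?_
      have h2 : (-(δ ^ 2 / 2)) • (Y * c m h + c m h * Y) =
          ((-(δ ^ 2 / 2) : ℝ) : ℂ) • (Y * c m h + c m h * Y) := (Complex.coe_smul _ _).symm
      rw [h2]
      exact SMulMemClass.smul_mem _ h1
    have e1 : ∑ g ∈ Φ, bb δ Φ c (m + 1) g * z g =
        ∑ h ∈ Φ, bb δ Φ c m h * z' h + δ • Y := by
      have e2 := HC_alg δ Φ hcb hzc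
      rw [hz', hY]
      refine Eq.trans (Finset.sum_congr rfl fun g hg => ?_) e2
      rw [bb_succ, if_pos hg]
      rfl
    have hcross : τ (star (∑ h ∈ Φ, bb δ Φ c m h * z' h) * (δ • Y)) = 0 := by
      rw [mul_smul_comm, map_smul, star_sum, Finset.sum_mul, map_sum]
      have h1 : ∀ h ∈ Φ, τ (star (bb δ Φ c m h * z' h) * Y) = 0 := by
        intro h _
        have h2 : Y * star (z' h) ∈ Zc D (II J m) := mul_mem hYm (star_mem (hzm h))
        rw [star_mul, bb_sa hS, hτ.comm, ← mul_assoc]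
        exact bb_mean hS δ Φ m h hτ h2
      rw [Finset.sum_eq_zero h1, smul_zero]
    rw [e1, n2_add hτ, hcross, n2_smul]
    have h4 := ih z' hzm
    have h5 := HC_n2 hτ hδ (cc := c m) (z := z) (fun g => (hS.good m g).sa)
      (fun g => (hS.good m g).norm) hzc
    rw [← hY] at h5
    have h6 : ∑ h ∈ Φ, N2 τ (z' h) = ∑ h ∈ Φ, N2 τ (z h + (-(δ ^ 2 / 2)) •
      (Y * c m h + c m h * Y)) := by rw [hz']
    linarith

/-- HC2.  `z g = w` for `g = g₀`, `0` otherwise. -/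
theorem bb_cov_one (hS : Setup D J κ c) (δ : ℝ) (Φ : Finset Q) (hδ : δ ^ 2 * Φ.card ≤ 1) (m : ℕ)
    {τ : B →ₗ[ℝ] ℝ} (hτ : Tr τ) (g : Q) {w : B} (hw : w ∈ Zc D (II J m)) :
    N2 τ (bb δ Φ c m g * w) ≤ N2 τ w := by
  by_cases hg : g ∈ Φ
  · have h1 := bb_cov hS δ Φ hδ m hτ (fun h => if h = g then w else 0) (fun h => by
      show (if h = g then w else 0) ∈ _
      split_ifs
      · exact hw
      · exact zero_mem _)
    have h2 : ∑ h ∈ Φ, bb δ Φ c m h * (if h = g then w else 0) = bb δ Φ c m g * w := by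
      rw [Finset.sum_eq_single g]
      · rw [if_pos rfl]
      · intro h _ hh
        rw [if_neg hh, mul_zero]
      · intro h
        exact absurd hg h
    have h3 : ∑ h ∈ Φ, N2 τ (if h = g then w else 0) = N2 τ w := by
      rw [Finset.sum_eq_single g]
      · rw [if_pos rfl]
      · intro h _ hh
        rw [if_neg hh, n2_zero]
      · intro h
        exact absurd hg h
    rw [← h2, ← h3]
    exact h1
  · rw [bb_off δ Φ c m hg, zero_mul, n2_zero]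
    exact n2_nonneg hτ w

/-- HC3.  `z g = c m g * w` for `g ∈ Ψ`, `0` otherwise; `N2 (c w) ≤ N2 w`. -/
theorem bb_cov_sub (hS : Setup D J κ c) (δ : ℝ) (Φ : Finset Q) (hδ : δ ^ 2 * Φ.card ≤ 1) (m : ℕ)
    {τ : B →ₗ[ℝ] ℝ} (hτ : Tr τ) {Ψ : Finset Q} (hΨ : Ψ ⊆ Φ) {w : B}
    (hw : w ∈ Zc D (II J (m + 1))) :
    N2 τ ((∑ g ∈ Ψ, c m g * bb δ Φ c m g) * w) ≤ Ψ.card * N2 τ w := by
  have hw1 : w ∈ Zc D (II J m) := Zc_anti (HC_sub1 m) hw
  have h1 := bb_cov hS δ Φ hδ m hτ (fun h => if h ∈ Ψ then c m h * w else 0) (fun h => by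
      show (if h ∈ Ψ then c m h * w else 0) ∈ _
      split_ifs
      · exact mul_mem (c_mem hS m h) hw1
      · exact zero_mem _)
  have h2 : ∑ h ∈ Φ, bb δ Φ c m h * (if h ∈ Ψ then c m h * w else 0) =
      (∑ g ∈ Ψ, c m g * bb δ Φ c m g) * w := by
    rw [Finset.sum_mul]
    rw [← Finset.sum_subset hΨ]
    · refine Finset.sum_congr rfl fun h hh => ?_
      rw [if_pos hh, ← mul_assoc, c_bb_comm hS]
    · intro h _ hh
      rw [if_neg hh, mul_zero]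
  have h3 : ∑ h ∈ Φ, N2 τ (if h ∈ Ψ then c m h * w else 0) ≤ Ψ.card * N2 τ w := by
    rw [← Finset.sum_subset hΨ (f := fun h => N2 τ (if h ∈ Ψ then c m h * w else 0))]
    · rw [← nsmul_eq_mul]
      refine Finset.sum_le_card_nsmul _ _ _ fun h hh => ?_
      rw [if_pos hh]
      have h4 := n2_mul_le hτ w (c m h)
      have h5 : ‖c m h‖ ^ 2 * N2 τ w ≤ 1 * N2 τ w :=
        mul_le_mul_of_nonneg_right (pow_le_one₀ (norm_nonneg _) (hS.good m h).norm)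
          (n2_nonneg hτ w)
      linarith
    · intro h _ hh
      rw [if_neg hh, n2_zero]
  rw [h2] at h1
  exact h1.trans h3

end Vale.Agent.P095G
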