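import Vale.Agent.P095G.HA

namespace Vale.Agent.P095G

universe u v

variable {B : Type u} [CStarAlgebra B] {Q : Type v} [DecidableEq Q] {D : ℕ → Set B}
  {J : ℕ → Finset ℕ} {κ : ℝ} {c : ℕ → Q → B}

theorem HD_exp {τ : B →ₗ[ℝ] ℝ} (h : Tr τ) (x y z : B) :
    N2 τ (x + y - z) = N2 τ x + N2 τ y + N2 τ z + 2 * τ (star x * y) - 2 * τ (star x * z)
      - 2 * τ (star y * z) := by
  have e : x + y - z = (x + y) + (-1 : ℝ) • z := by rw [neg_one_smul, sub_eq_add_neg]
  rw [e, n2_add h, n2_add h, n2_smul, mul_smul_comm, map_smul, star_add, add_mul, map_add,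
    smul_eq_mul]
  ring

theorem HD_exp2 {τ : B →ₗ[ℝ] ℝ} (h : Tr τ) (δ : ℝ) (x y z : B) :
    N2 τ (x + δ • y - (δ ^ 2 / 2) • z) = N2 τ x + δ ^ 2 * N2 τ y + (δ ^ 2 / 2) ^ 2 * N2 τ z
      + 2 * δ * τ (star x * y) - δ ^ 2 * τ (star x * z) - δ ^ 3 * τ (star y * z) := by
  rw [HD_exp h, n2_smul, n2_smul, mul_smul_comm, mul_smul_comm, star_smul, smul_mul_smul_comm,
    map_smul, map_smul, map_smul, smul_eq_mul, smul_eq_mul, smul_eq_mul, star_trivial δ]
  ring

/-- HD (energy).  `N(b⁺w) = N(bw) + (δ⁴/4) N({c,S}w) + δ² N(c w) - δ² τ(w* b {c_g,S} w)`; the other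
cross terms vanish (`mean` of `c`, `bb_mean`), and `∑_g τ(w* b_g {c_g,S} w) = 2 N(S w)`
(`τ(w* b_g S c_g w) = τ(w* c_g b_g S w)` by the trace property). -/
theorem bb_energy (hS : Setup D J κ c) (δ : ℝ) (Φ : Finset Q) (m : ℕ)
    {τ : B →ₗ[ℝ] ℝ} (hτ : Tr τ) {w : B} (hw : w ∈ Zc D (II J (m + 1))) :
    ∑ g ∈ Φ, N2 τ (bb δ Φ c m g * w) + δ ^ 2 * ∑ g ∈ Φ, N2 τ (c m g * w) ≤
      ∑ g ∈ Φ, N2 τ (bb δ Φ c (m + 1) g * w) + 2 * δ ^ 2 * N2 τ (SS δ Φ c m * w) := by
  have hwJ : w ∈ Zc D (J m) :=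
    Zc_anti (Finset.subset_biUnion_of_mem J (Finset.mem_range.mpr (Nat.lt_succ_self m))) hw
  have hwI : w ∈ Zc D (II J m) :=
    Zc_anti (Finset.biUnion_subset_biUnion_of_subset_left J
      (Finset.range_subset_range.mpr (Nat.le_succ m))) hw
  set S : B := SS δ Φ c m with hSdef
  have hSsa : star S = S := SS_sa hS δ Φ m
  have hS0 : ∀ z ∈ Zc D (II J m), τ (z * S) = 0 := by
    intro z hz
    have : z * S = ∑ h ∈ Φ, (z * c m h) * bb δ Φ c m h := by
      rw [hSdef]
      unfold SS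
      rw [Finset.mul_sum]
      exact Finset.sum_congr rfl (fun h _ => (mul_assoc _ _ _).symm)
    rw [this, map_sum]
    exact Finset.sum_eq_zero (fun h _ => bb_mean hS δ Φ m h hτ (mul_mem hz (c_mem hS m h)))
  -- F1
  have F1 : ∀ g, τ (star (bb δ Φ c m g * w) * (c m g * w)) = 0 := by
    intro g
    have e1 : star (bb δ Φ c m g * w) * (c m g * w) = (star w * bb δ Φ c m g * c m g) * w := by
      rw [star_mul, bb_sa hS]
      simp only [mul_assoc]
    have e2 : w * (star w * bb δ Φ c m g * c m g) = (w * star w * bb δ Φ c m g) * c m g := by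
      simp only [mul_assoc]
    rw [e1, hτ.comm, e2]
    exact (hS.good m g).mean τ hτ _ (mul_mem (mul_mem hwJ (star_mem hwJ)) (bb_mem hS δ Φ le_rfl g))
  have F2 : ∀ g, τ (star (c m g * w) * ((c m g * S + S * c m g) * w)) = 0 := by
    intro g
    have e1 : star (c m g * w) * ((c m g * S + S * c m g) * w)
        = (star w * c m g * c m g * S) * w + (star w * c m g * S) * (c m g * w) := by
      rw [star_mul, (hS.good m g).sa]
      noncomm_ring
    have e2 : w * (star w * c m g * c m g * S) = (w * star w * c m g * c m g) * S := by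
      simp only [mul_assoc]
    have e3 : c m g * w * (star w * c m g * S) = (c m g * w * star w * c m g) * S := by
      simp only [mul_assoc]
    rw [e1, map_add, hτ.comm _ w, hτ.comm _ (c m g * w), e2, e3,
      hS0 _ (mul_mem (mul_mem (mul_mem hwI (star_mem hwI)) (c_mem hS m g)) (c_mem hS m g)),
      hS0 _ (mul_mem (mul_mem (mul_mem (c_mem hS m g) hwI) (star_mem hwI)) (c_mem hS m g)),
      add_zero]
  have F3 : ∑ g ∈ Φ, τ (star (bb δ Φ c m g * w) * ((c m g * S + S * c m g) * w))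
      = 2 * N2 τ (S * w) := by
    have hN : N2 τ (S * w) = ∑ g ∈ Φ, τ (star w * (c m g * bb δ Φ c m g) * S * w) := by
      rw [← map_sum, ← Finset.sum_mul, ← Finset.sum_mul, ← Finset.mul_sum]
      unfold N2
      rw [star_mul, hSsa]
      change τ (star w * S * (S * w)) = τ (star w * S * S * w)
      rw [← mul_assoc]
    have hterm : ∀ g ∈ Φ, τ (star (bb δ Φ c m g * w) * ((c m g * S + S * c m g) * w))
        = 2 * τ (star w * (c m g * bb δ Φ c m g) * S * w) := by
      intro g _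
      have e1 : star (bb δ Φ c m g * w) * ((c m g * S + S * c m g) * w)
          = star w * (bb δ Φ c m g * c m g) * S * w
            + (star w * bb δ Φ c m g * S) * (c m g * w) := by
        rw [star_mul, bb_sa hS]
        noncomm_ring
      have e2 : (star w * bb δ Φ c m g * S) * (c m g * w)
          = (star w * bb δ Φ c m g * S * w) * c m g := by
        rw [← (hS.good m g).cent w hwJ]
        simp only [mul_assoc]
      have e3 : c m g * (star w * bb δ Φ c m g * S * w)
          = star w * (c m g * bb δ Φ c m g) * S * w := by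
        have := (hS.good m g).cent (star w) (star_mem hwJ)
        calc c m g * (star w * bb δ Φ c m g * S * w)
            = (c m g * star w) * bb δ Φ c m g * S * w := by simp only [mul_assoc]
          _ = (star w * c m g) * bb δ Φ c m g * S * w := by rw [this]
          _ = star w * (c m g * bb δ Φ c m g) * S * w := by simp only [mul_assoc]
      rw [e1, map_add, e2, hτ.comm _ (c m g), e3, ← c_bb_comm hS δ Φ m g g]
      ring
    rw [Finset.sum_congr rfl hterm, ← Finset.mul_sum, hN]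
  have hexp : ∀ g ∈ Φ, N2 τ (bb δ Φ c (m + 1) g * w) = N2 τ (bb δ Φ c m g * w)
      + δ ^ 2 * N2 τ (c m g * w) + (δ ^ 2 / 2) ^ 2 * N2 τ ((c m g * S + S * c m g) * w)
      - δ ^ 2 * τ (star (bb δ Φ c m g * w) * ((c m g * S + S * c m g) * w)) := by
    intro g hg
    have e : bb δ Φ c (m + 1) g * w = bb δ Φ c m g * w + δ • (c m g * w)
        - (δ ^ 2 / 2) • ((c m g * S + S * c m g) * w) := by
      rw [bb_succ, if_pos hg, add_mul, sub_mul, smul_mul_assoc, smul_mul_assoc, add_sub_assoc]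
    rw [e, HD_exp2 hτ, F1 g, F2 g]
    ring
  have hpos : 0 ≤ ∑ g ∈ Φ, (δ ^ 2 / 2) ^ 2 * N2 τ ((c m g * S + S * c m g) * w) :=
    Finset.sum_nonneg (fun g _ => mul_nonneg (by positivity) (n2_nonneg hτ _))
  rw [Finset.sum_congr rfl hexp, Finset.sum_sub_distrib, Finset.sum_add_distrib,
    Finset.sum_add_distrib, ← Finset.mul_sum, ← Finset.mul_sum Φ _ (δ ^ 2), F3]
  linarith

end Vale.Agent.P095G
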