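import Vale.Agent.P095G.Tb
import Vale.Agent.P095G.Zb

namespace Vale.Agent.P095G

open Vale.Agent.P095

universe u v

/-- Folner's condition (amenability) -/
def Folner (G : Type v) [Group G] : Prop :=
  ∀ (K : Set G), K.Finite → ∀ ε : ℝ, 0 < ε → ∃ Φ : Finset G, Φ.Nonempty ∧
    ∀ s ∈ K, (((fun g => s * g) '' (Φ : Set G) \ (Φ : Set G)).ncard : ℝ) ≤ ε * Φ.card

variable {B : Type u} [CStarAlgebra B] {Q : Type v} [DecidableEq Q]

/-- the vector Ornstein-Uhlenbeck recursion driven by the copies `c m`, restricted to `Φ` -/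
noncomputable def bb (δ : ℝ) (Φ : Finset Q) (c : ℕ → Q → B) : ℕ → Q → B
  | 0 => fun _ => 0
  | m + 1 => fun g => bb δ Φ c m g + if g ∈ Φ then
      δ • c m g - (δ ^ 2 / 2) • (c m g * (∑ h ∈ Φ, c m h * bb δ Φ c m h) +
        (∑ h ∈ Φ, c m h * bb δ Φ c m h) * c m g) else 0

/-- `S_m = ∑_(h ∈ Φ) c_h^m b_h^m` -/
noncomputable def SS (δ : ℝ) (Φ : Finset Q) (c : ℕ → Q → B) (m : ℕ) : B :=
  ∑ h ∈ Φ, c m h * bb δ Φ c m h

/-- the blocks used before step `m` -/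
def II (J : ℕ → Finset ℕ) (m : ℕ) : Finset ℕ := (Finset.range m).biUnion J

/-- the standing hypotheses -/
structure Setup (D : ℕ → Set B) (J : ℕ → Finset ℕ) (κ : ℝ) (c : ℕ → Q → B) : Prop where
  com : ComFam D
  dis : ∀ i j, i ≠ j → Disjoint (J i) (J j)
  good : ∀ m q, Good D 1 κ (J m) (c m q)

theorem bb_zero (δ : ℝ) (Φ : Finset Q) (c : ℕ → Q → B) (g : Q) : bb δ Φ c 0 g = 0 := rfl

theorem bb_succ (δ : ℝ) (Φ : Finset Q) (c : ℕ → Q → B) (m : ℕ) (g : Q) :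
    bb δ Φ c (m + 1) g = bb δ Φ c m g + if g ∈ Φ then
      δ • c m g - (δ ^ 2 / 2) • (c m g * SS δ Φ c m + SS δ Φ c m * c m g) else 0 := rfl

end Vale.Agent.P095G
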