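import Vale.Agent.P095G.Tb

namespace Vale.Agent.P095G

universe u

variable {B : Type u} [CStarAlgebra B]

theorem HE1_anti {τ : B →ₗ[ℝ] ℝ} (hτ : Tr τ) {c X w : B} (hc1 : ‖c‖ ≤ 1) (hwc : w * c = c * w) :
    N2 τ ((c * X + X * c) * w) ≤ 4 * N2 τ (X * w) := by
  have e1 : (c * X + X * c) * w = c * (X * w) + (X * w) * c := by
    rw [add_mul, mul_assoc, mul_assoc X c w, ← hwc, mul_assoc X w c]
  have h0 := n2_nonneg hτ (X * w)
  have hc2 : ‖c‖ ^ 2 ≤ 1 := pow_le_one₀ (norm_nonneg _) hc1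
  have h1 : N2 τ (c * (X * w)) ≤ N2 τ (X * w) :=
    (n2_mul_le hτ (X * w) c).trans (mul_le_of_le_one_left h0 hc2)
  have h2 : N2 τ ((X * w) * c) ≤ N2 τ (X * w) :=
    (n2_mul_le' hτ (X * w) c).trans (mul_le_of_le_one_left h0 hc2)
  have h3 := n2_sqrt_add hτ (c * (X * w)) ((X * w) * c)
  have h4 := Real.sqrt_le_sqrt h1
  have h5 := Real.sqrt_le_sqrt h2
  rw [e1]
  have h6 := Real.sq_sqrt (n2_nonneg hτ (c * (X * w) + (X * w) * c))
  have h7 := Real.sq_sqrt h0
  have h8 := Real.sqrt_nonneg (N2 τ (c * (X * w) + (X * w) * c))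
  have h9 := Real.sqrt_nonneg (N2 τ (X * w))
  nlinarith

/-- HE1 (one coordinate).  `e⁺ = e - (δ²/2)(c X + X c) + (χ δ) c` with `τ(w* e c w) = 0`,
`τ(w* c (c X + X c) w) = 0`:
`N(e⁺ w) = N(e w) + (δ⁴/4) N({c,X}w) + χ² δ² N(c w) - 2 δ² τ(w* e c X w)` and `N({c,X}w) ≤ 4 N(X w)`. -/
theorem coord_step {τ : B →ₗ[ℝ] ℝ} (hτ : Tr τ) {δ χ : ℝ} {e c X w : B} (he : star e = e)
    (hc : star c = c) (hc1 : ‖c‖ ≤ 1) (hX : star X = X) (hec : e * c = c * e)
    (hwe : w * e = e * w) (hwc : w * c = c * w) (hwX : w * X = X * w)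
    (hwe' : star w * e = e * star w) (hwc' : star w * c = c * star w)
    (hwX' : star w * X = X * star w)
    (h1 : τ (star w * e * c * w) = 0) (h2 : τ (star w * c * (c * X + X * c) * w) = 0) :
    N2 τ ((e - (δ ^ 2 / 2) • (c * X + X * c) + (χ * δ) • c) * w) ≤
      N2 τ (e * w) + δ ^ 4 * N2 τ (X * w) + χ ^ 2 * δ ^ 2 * N2 τ (c * w)
        - 2 * δ ^ 2 * τ (star w * e * c * X * w) := by
  set Y : B := c * X + X * c with hY
  have hYs : star Y = Y := by
    rw [hY, star_add, star_mul, star_mul, hc, hX]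
    abel
  have e0 : (e - (δ ^ 2 / 2) • Y + (χ * δ) • c) * w =
      e * w + ((-(δ ^ 2 / 2)) • (Y * w) + (χ * δ) • (c * w)) := by
    rw [add_mul, sub_mul, smul_mul_assoc, smul_mul_assoc, neg_smul]
    abel
  have s1 : star (e * w) = star w * e := by rw [star_mul, he]
  have s2 : star (Y * w) = star w * Y := by rw [star_mul, hYs]
  have t13 : τ (star (e * w) * (c * w)) = 0 := by
    rw [s1, ← mul_assoc]
    exact h1
  have t23 : τ (star (Y * w) * (c * w)) = 0 := by
    rw [s2, ← hτ.star, ← h2]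
    congr 1
    rw [star_mul, star_mul, star_mul, hYs, hc, star_star]
    simp only [mul_assoc]
  have t12 : τ (star (e * w) * (Y * w)) = 2 * τ (star w * e * c * X * w) := by
    rw [s1]
    have e1 : star w * e * (Y * w) = star w * e * c * X * w + star w * e * X * c * w := by
      rw [hY]
      noncomm_ring
    rw [e1, map_add]
    have e2 : τ (star w * e * X * c * w) = τ (star w * e * c * X * w) := by
      calc τ (star w * e * X * c * w) = τ ((star w * e * X * w) * c) := by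
            rw [mul_assoc (star w * e * X) c w, ← hwc, ← mul_assoc]
        _ = τ (c * (star w * e * X * w)) := hτ.comm _ _
        _ = τ (star w * e * c * X * w) := by
            congr 1
            calc c * (star w * e * X * w) = (c * star w) * e * X * w := by noncomm_ring
              _ = star w * (c * e) * X * w := by rw [← hwc']; noncomm_ring
              _ = star w * e * c * X * w := by rw [← hec]; noncomm_ring
    rw [e2]
    ring
  have hA := HE1_anti (X := X) hτ hc1 hwc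
  rw [← hY] at hA
  have hx : τ (star ((-(δ ^ 2 / 2)) • (Y * w)) * ((χ * δ) • (c * w))) = 0 := by
    rw [star_smul, smul_mul_smul_comm, map_smul, t23, smul_zero]
  have hy : τ (star (e * w) * ((-(δ ^ 2 / 2)) • (Y * w) + (χ * δ) • (c * w))) =
      -(δ ^ 2 / 2) * (2 * τ (star w * e * c * X * w)) := by
    rw [mul_add, map_add, mul_smul_comm, mul_smul_comm, map_smul, map_smul, t12, t13]
    simp only [smul_eq_mul, mul_zero, add_zero]
  rw [e0, n2_add hτ, n2_add hτ, n2_smul, n2_smul, hx, hy]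
  have h3 : (-(δ ^ 2 / 2)) ^ 2 * N2 τ (Y * w) ≤ δ ^ 4 * N2 τ (X * w) := by
    have h4 : (-(δ ^ 2 / 2)) ^ 2 = δ ^ 4 / 4 := by ring
    rw [h4]
    have h5 : 0 ≤ δ ^ 4 / 4 := by positivity
    calc δ ^ 4 / 4 * N2 τ (Y * w) ≤ δ ^ 4 / 4 * (4 * N2 τ (X * w)) :=
          mul_le_mul_of_nonneg_left hA h5
      _ = δ ^ 4 * N2 τ (X * w) := by ring
  have h4 : (χ * δ) ^ 2 = χ ^ 2 * δ ^ 2 := by ring
  rw [h4]
  linarith

end Vale.Agent.P095G
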