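import Vale.Agent.P095G.HC
import Vale.Agent.P095G.HE1

namespace Vale.Agent.P095G

universe u v

variable {B : Type u} [CStarAlgebra B] {Q : Type v} [DecidableEq Q] {D : ℕ → Set B}
  {J : ℕ → Finset ℕ} {κ : ℝ} {c : ℕ → Q → B}

private theorem HE2_w {w : B} {m : ℕ} (hw : w ∈ Zc D (II J (m + 1))) :
    w ∈ Zc D (II J m) ∧ w ∈ Zc D (J m) := by
  refine ⟨Zc_anti ?_ hw, Zc_anti ?_ hw⟩
  · intro i hi
    unfold II at hi ⊢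
    rw [Finset.mem_biUnion] at hi ⊢
    obtain ⟨a, ha, hi⟩ := hi
    exact ⟨a, Finset.mem_range.2 ((Finset.mem_range.1 ha).trans (Nat.lt_succ_self m)), hi⟩
  · intro i hi
    unfold II
    rw [Finset.mem_biUnion]
    exact ⟨m, Finset.mem_range.2 (Nat.lt_succ_self m), hi⟩

private theorem HE2_L (hS : Setup D J κ c) (δ : ℝ) (Φ : Finset Q) (m : ℕ) (g : Q)
    {τ : B →ₗ[ℝ] ℝ} (hτ : Tr τ) {w : B} (hw : w ∈ Zc D (II J (m + 1))) :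
    τ (star w * c m g * (c m g * SS δ Φ c m + SS δ Φ c m * c m g) * w) = 0 := by
  have hw1 := (HE2_w hw).1
  have hsw1 : star w ∈ Zc D (II J m) := star_mem hw1
  have key : ∀ h ∈ Φ, τ (star w * c m g * (c m g * (c m h * bb δ Φ c m h) +
      (c m h * bb δ Φ c m h) * c m g) * w) = 0 := by
    intro h _
    have hb := bb_cent hS δ Φ m h w hw1
    have hc := c_bb_comm hS δ Φ m g h
    have e1 : star w * c m g * (c m g * (c m h * bb δ Φ c m h) +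
        (c m h * bb δ Φ c m h) * c m g) * w =
        (star w * c m g * (c m g * c m h + c m h * c m g) * w) * bb δ Φ c m h := by
      have e2 : c m g * (c m h * bb δ Φ c m h) + (c m h * bb δ Φ c m h) * c m g =
          (c m g * c m h + c m h * c m g) * bb δ Φ c m h := by
        rw [add_mul, mul_assoc (c m h) (bb δ Φ c m h) (c m g), ← hc, mul_assoc, mul_assoc]
      rw [e2, mul_assoc (star w * c m g * (c m g * c m h + c m h * c m g)) w, hb]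
      simp only [mul_assoc]
    rw [e1]
    refine bb_mean hS δ Φ m h hτ ?_
    exact mul_mem (mul_mem (mul_mem hsw1 (c_mem hS m g))
      (add_mem (mul_mem (c_mem hS m g) (c_mem hS m h))
        (mul_mem (c_mem hS m h) (c_mem hS m g)))) hw1
  unfold SS
  rw [Finset.mul_sum, Finset.sum_mul, ← Finset.sum_add_distrib, Finset.mul_sum, Finset.sum_mul,
    map_sum]
  exact Finset.sum_eq_zero key

private theorem HE2_P (hS : Setup D J κ c) (δ : ℝ) (Φ : Finset Q) (m : ℕ) (g : Q)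
    {τ : B →ₗ[ℝ] ℝ} (hτ : Tr τ) {w : B} (hw : w ∈ Zc D (II J (m + 1))) :
    τ (star w * c m g * (c m g * (if g ∈ Φ then SS δ Φ c m else 0) +
      (if g ∈ Φ then SS δ Φ c m else 0) * c m g) * w) = 0 := by
  split_ifs
  · exact HE2_L hS δ Φ m g hτ hw
  · simp

private theorem HE2_SS (hS : Setup D J κ c) (δ : ℝ) (Φ : Finset Q) (hδ : δ ^ 2 * Φ.card ≤ 1)
    {n : ℝ} (hn : (Φ.card : ℝ) ≤ n) (m : ℕ)
    {τ : B →ₗ[ℝ] ℝ} (hτ : Tr τ) {w : B} (hw : w ∈ Zc D (II J (m + 1))) :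
    N2 τ (SS δ Φ c m * w) ≤ n * N2 τ w :=
  (bb_cov_sub hS δ Φ hδ m hτ (Finset.Subset.refl Φ) hw).trans
    (mul_le_mul_of_nonneg_right hn (n2_nonneg hτ w))

private theorem HE2_PS (hS : Setup D J κ c) (δ : ℝ) (Φ : Finset Q) (hδ : δ ^ 2 * Φ.card ≤ 1)
    {n : ℝ} (hn : (Φ.card : ℝ) ≤ n) (m : ℕ) (g : Q)
    {τ : B →ₗ[ℝ] ℝ} (hτ : Tr τ) {w : B} (hw : w ∈ Zc D (II J (m + 1))) :
    N2 τ ((if g ∈ Φ then SS δ Φ c m else 0) * w) ≤ n * N2 τ w := by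
  split_ifs
  · exact HE2_SS hS δ Φ hδ hn m hτ hw
  · rw [zero_mul, n2_zero]
    exact mul_nonneg ((Nat.cast_nonneg _).trans hn) (n2_nonneg hτ w)

/-- the squared seminorm of a difference -/
private theorem HE2_sub {τ : B →ₗ[ℝ] ℝ} (hτ : Tr τ) {x y : B} {s : ℝ} (hx : N2 τ x ≤ s)
    (hy : N2 τ y ≤ s) : N2 τ (x - y) ≤ 4 * s := by
  have h0 : 0 ≤ s := (n2_nonneg hτ x).trans hx
  have h1 := n2_sqrt_sub hτ x y
  have h2 : √(N2 τ x) ≤ √s := Real.sqrt_le_sqrt hx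
  have h3 : √(N2 τ y) ≤ √s := Real.sqrt_le_sqrt hy
  have h4 : √(N2 τ (x - y)) ≤ 2 * √s := by linarith
  calc N2 τ (x - y) = √(N2 τ (x - y)) ^ 2 := (Real.sq_sqrt (n2_nonneg hτ _)).symm
    _ ≤ (2 * √s) ^ 2 := pow_le_pow_left₀ (Real.sqrt_nonneg _) h4 2
    _ = 4 * s := by
      rw [mul_pow, Real.sq_sqrt h0]
      ring

/-- the recursion for the difference -/
private theorem HE2_rec (δ : ℝ) (Φ₁ Φ₂ : Finset Q) (m : ℕ) (g : Q) :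
    bb δ Φ₂ c (m + 1) g - bb δ Φ₁ c (m + 1) g =
      (bb δ Φ₂ c m g - bb δ Φ₁ c m g) -
      (δ ^ 2 / 2) • (c m g * ((if g ∈ Φ₂ then SS δ Φ₂ c m else 0) -
        (if g ∈ Φ₁ then SS δ Φ₁ c m else 0)) +
        ((if g ∈ Φ₂ then SS δ Φ₂ c m else 0) -
        (if g ∈ Φ₁ then SS δ Φ₁ c m else 0)) * c m g) +
      (((if g ∈ Φ₂ then 1 else 0) - (if g ∈ Φ₁ then 1 else 0)) * δ) • c m g := by
  rw [bb_succ, bb_succ]
  by_cases h2 : g ∈ Φ₂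
  · by_cases h1 : g ∈ Φ₁
    · simp only [h1, h2, if_true, mul_sub, sub_mul]
      module
    · simp only [h1, h2, if_true, if_false, mul_sub, sub_mul, mul_zero, zero_mul]
      module
  · by_cases h1 : g ∈ Φ₁
    · simp only [h1, h2, if_true, if_false, mul_sub, sub_mul, mul_zero, zero_mul]
      module
    · simp only [h1, h2, if_false, mul_sub, sub_mul, mul_zero, zero_mul]
      module

/-- one coordinate -/
private theorem HE2_step (hS : Setup D J κ c) (δ : ℝ) (Φ₁ Φ₂ : Finset Q) {n : ℝ}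
    (hn1 : (Φ₁.card : ℝ) ≤ n) (hn2 : (Φ₂.card : ℝ) ≤ n)
    (hδ1 : δ ^ 2 * Φ₁.card ≤ 1) (hδ2 : δ ^ 2 * Φ₂.card ≤ 1) (m : ℕ) (g : Q)
    {τ : B →ₗ[ℝ] ℝ} (hτ : Tr τ) {w : B} (hw : w ∈ Zc D (II J (m + 1))) :
    N2 τ ((bb δ Φ₂ c (m + 1) g - bb δ Φ₁ c (m + 1) g) * w) ≤
      N2 τ ((bb δ Φ₂ c m g - bb δ Φ₁ c m g) * w) + δ ^ 4 * (4 * (n * N2 τ w)) +
        ((if g ∈ Φ₂ then 1 else 0) - (if g ∈ Φ₁ then 1 else 0)) ^ 2 * δ ^ 2 * N2 τ w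
        - 2 * δ ^ 2 * τ (star w * ((bb δ Φ₂ c m g - bb δ Φ₁ c m g) * c m g *
          ((if g ∈ Φ₂ then SS δ Φ₂ c m else 0) - (if g ∈ Φ₁ then SS δ Φ₁ c m else 0))) * w) := by
  have hw1 := (HE2_w hw).1
  have hw2 := (HE2_w hw).2
  have hsw : star w ∈ Zc D (II J (m + 1)) := star_mem hw
  have hsw1 : star w ∈ Zc D (II J m) := star_mem hw1
  have hsw2 : star w ∈ Zc D (J m) := star_mem hw2
  set X : B := (if g ∈ Φ₂ then SS δ Φ₂ c m else 0) - (if g ∈ Φ₁ then SS δ Φ₁ c m else 0) with hX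
  set e : B := bb δ Φ₂ c m g - bb δ Φ₁ c m g with he
  have hXsa : star X = X := by
    rw [hX, star_sub]
    congr 1
    · split_ifs
      · exact SS_sa hS δ Φ₂ m
      · exact star_zero _
    · split_ifs
      · exact SS_sa hS δ Φ₁ m
      · exact star_zero _
  have hesa : star e = e := by
    rw [he, star_sub, bb_sa hS, bb_sa hS]
  have hec : e * c m g = c m g * e := by
    rw [he, sub_mul, mul_sub, c_bb_comm hS δ Φ₂ m g g, c_bb_comm hS δ Φ₁ m g g]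
  have hze : ∀ z ∈ Zc D (II J m), z * e = e * z := by
    intro z hz
    rw [he, sub_mul, mul_sub, bb_cent hS δ Φ₂ m g z hz, bb_cent hS δ Φ₁ m g z hz]
  have hzc : ∀ z ∈ Zc D (J m), z * c m g = c m g * z := (hS.good m g).cent
  have hzX : ∀ z ∈ Zc D (II J (m + 1)), z * X = X * z := by
    intro z hz
    rw [hX, sub_mul, mul_sub]
    congr 1
    · split_ifs
      · exact SS_cent hS δ Φ₂ m z hz
      · rw [mul_zero, zero_mul]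
    · split_ifs
      · exact SS_cent hS δ Φ₁ m z hz
      · rw [mul_zero, zero_mul]
  have h1 : τ (star w * e * c m g * w) = 0 := by
    have e1 : star w * e * c m g * w = (star w * e * w) * c m g := by
      rw [mul_assoc (star w * e) (c m g) w, ← hzc w hw2, ← mul_assoc]
    rw [e1]
    refine (hS.good m g).mean τ hτ _ (mul_mem (mul_mem hsw2 ?_) hw2)
    rw [he]
    exact sub_mem (bb_mem hS δ Φ₂ le_rfl g) (bb_mem hS δ Φ₁ le_rfl g)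
  have h2 : τ (star w * c m g * (c m g * X + X * c m g) * w) = 0 := by
    have a1 := HE2_P hS δ Φ₂ m g hτ hw
    have a2 := HE2_P hS δ Φ₁ m g hτ hw
    have e1 : star w * c m g * (c m g * X + X * c m g) * w =
        star w * c m g * (c m g * (if g ∈ Φ₂ then SS δ Φ₂ c m else 0) +
          (if g ∈ Φ₂ then SS δ Φ₂ c m else 0) * c m g) * w -
        star w * c m g * (c m g * (if g ∈ Φ₁ then SS δ Φ₁ c m else 0) +
          (if g ∈ Φ₁ then SS δ Φ₁ c m else 0) * c m g) * w := by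
      rw [hX]
      noncomm_ring
    rw [e1, map_sub, a1, a2, sub_zero]
  have hstep := coord_step hτ (δ := δ)
    (χ := (if g ∈ Φ₂ then 1 else 0) - (if g ∈ Φ₁ then 1 else 0)) hesa (hS.good m g).sa
    (hS.good m g).norm hXsa hec (hze w hw1) (hzc w hw2) (hzX w hw) (hze _ hsw1) (hzc _ hsw2)
    (hzX _ hsw) h1 h2
  rw [← HE2_rec] at hstep
  have hXb : N2 τ (X * w) ≤ 4 * (n * N2 τ w) := by
    rw [hX, sub_mul]
    exact HE2_sub hτ (HE2_PS hS δ Φ₂ hδ2 hn2 m g hτ hw) (HE2_PS hS δ Φ₁ hδ1 hn1 m g hτ hw)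
  have hcb : N2 τ (c m g * w) ≤ N2 τ w := by
    refine (n2_mul_le hτ w (c m g)).trans ?_
    have hn := (hS.good m g).norm
    have hn2 : ‖c m g‖ ^ 2 ≤ 1 := pow_le_one₀ (norm_nonneg _) hn
    calc ‖c m g‖ ^ 2 * N2 τ w ≤ 1 * N2 τ w := mul_le_mul_of_nonneg_right hn2 (n2_nonneg hτ w)
      _ = N2 τ w := one_mul _
  have hd4 : δ ^ 4 * N2 τ (X * w) ≤ δ ^ 4 * (4 * (n * N2 τ w)) :=
    mul_le_mul_of_nonneg_left hXb (by positivity)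
  have hd2 := mul_le_mul_of_nonneg_left hcb
    (show 0 ≤ (((if g ∈ Φ₂ then 1 else 0) - (if g ∈ Φ₁ then 1 else 0) : ℝ)) ^ 2 * δ ^ 2 by
      positivity)
  have e3 : star w * e * c m g * X * w = star w * (e * c m g * X) * w := by
    simp only [mul_assoc]
  rw [e3] at hstep
  linarith

/-- splitting of `S` -/
private theorem HE2_split (hS : Setup D J κ c) (δ : ℝ) (Φ Ψ : Finset Q) (m : ℕ) :
    ∑ g ∈ Ψ, bb δ Φ c m g * c m g =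
      SS δ Φ c m - ∑ g ∈ Φ \ Ψ, c m g * bb δ Φ c m g := by
  have h0 : ∀ g ∈ Ψ \ Φ, c m g * bb δ Φ c m g = 0 := by
    intro g hg
    rw [bb_off δ Φ c m (Finset.mem_sdiff.1 hg).2, mul_zero]
  have h1 := Finset.sum_inter_add_sum_sdiff Ψ Φ (fun g => c m g * bb δ Φ c m g)
  have h2 := Finset.sum_inter_add_sum_sdiff Φ Ψ (fun g => c m g * bb δ Φ c m g)
  rw [Finset.sum_eq_zero h0, add_zero, Finset.inter_comm] at h1
  have h3 : ∑ g ∈ Ψ, bb δ Φ c m g * c m g = ∑ g ∈ Ψ, c m g * bb δ Φ c m g :=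
    Finset.sum_congr rfl fun g _ => (c_bb_comm hS δ Φ m g g).symm
  unfold SS
  rw [h3, ← h1, ← h2, add_sub_cancel_right]

/-- the quadratic identity -/
private theorem HE2_alg (hS : Setup D J κ c) (δ : ℝ) (Φ₁ Φ₂ : Finset Q) (m : ℕ) :
    ∑ g ∈ Φ₁ ∪ Φ₂, (bb δ Φ₂ c m g - bb δ Φ₁ c m g) * c m g *
      ((if g ∈ Φ₂ then SS δ Φ₂ c m else 0) - (if g ∈ Φ₁ then SS δ Φ₁ c m else 0)) =
      (SS δ Φ₂ c m - SS δ Φ₁ c m) * (SS δ Φ₂ c m - SS δ Φ₁ c m) +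
        (∑ g ∈ Φ₁ \ Φ₂, c m g * bb δ Φ₁ c m g) * SS δ Φ₂ c m +
        (∑ g ∈ Φ₂ \ Φ₁, c m g * bb δ Φ₂ c m g) * SS δ Φ₁ c m := by
  have h1 : ∀ (Φ Ψ : Finset Q) (S : B) (_ : Ψ ⊆ Φ),
      ∑ g ∈ Φ, (bb δ Φ₂ c m g - bb δ Φ₁ c m g) * c m g * (if g ∈ Ψ then S else 0) =
      (∑ g ∈ Ψ, bb δ Φ₂ c m g * c m g - ∑ g ∈ Ψ, bb δ Φ₁ c m g * c m g) * S := by
    intro Φ Ψ S hΨ
    have h2 : ∀ g ∈ Φ, (bb δ Φ₂ c m g - bb δ Φ₁ c m g) * c m g * (if g ∈ Ψ then S else 0) =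
        if g ∈ Ψ then (bb δ Φ₂ c m g - bb δ Φ₁ c m g) * c m g * S else 0 := by
      intro g _
      split_ifs
      · rfl
      · rw [mul_zero]
    rw [Finset.sum_congr rfl h2, Finset.sum_ite_mem, Finset.inter_eq_right.2 hΨ,
      ← Finset.sum_mul, ← Finset.sum_sub_distrib]
    congr 1
    exact Finset.sum_congr rfl fun g _ => sub_mul _ _ _
  have h3 : ∑ g ∈ Φ₁ ∪ Φ₂, (bb δ Φ₂ c m g - bb δ Φ₁ c m g) * c m g *
      ((if g ∈ Φ₂ then SS δ Φ₂ c m else 0) - (if g ∈ Φ₁ then SS δ Φ₁ c m else 0)) =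
      ∑ g ∈ Φ₁ ∪ Φ₂, (bb δ Φ₂ c m g - bb δ Φ₁ c m g) * c m g *
        (if g ∈ Φ₂ then SS δ Φ₂ c m else 0) -
      ∑ g ∈ Φ₁ ∪ Φ₂, (bb δ Φ₂ c m g - bb δ Φ₁ c m g) * c m g *
        (if g ∈ Φ₁ then SS δ Φ₁ c m else 0) := by
    rw [← Finset.sum_sub_distrib]
    exact Finset.sum_congr rfl fun g _ => mul_sub _ _ _
  rw [h3, h1 _ _ _ Finset.subset_union_right, h1 _ _ _ Finset.subset_union_left,
    HE2_split hS, HE2_split hS, HE2_split hS, HE2_split hS, Finset.sdiff_self, Finset.sdiff_self,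
    Finset.sum_empty, Finset.sum_empty]
  noncomm_ring

/-- a Cauchy-Schwarz bound -/
private theorem HE2_cs {τ : B →ₗ[ℝ] ℝ} (hτ : Tr τ) {U S w : B} {k n : ℝ} (hU : star U = U)
    (hk : 0 ≤ k) (h1 : N2 τ (U * w) ≤ k * N2 τ w) (h2 : N2 τ (S * w) ≤ n * N2 τ w) :
    |τ (star w * (U * S) * w)| ≤ √(k * n) * N2 τ w := by
  have h0 := n2_nonneg hτ w
  have e1 : star w * (U * S) * w = star (U * w) * (S * w) := by
    rw [star_mul, hU]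
    simp only [mul_assoc]
  rw [e1]
  refine (tr_cs' hτ (U * w) (S * w)).trans ?_
  calc √(N2 τ (U * w)) * √(N2 τ (S * w)) ≤ √(k * N2 τ w) * √(n * N2 τ w) :=
        mul_le_mul (Real.sqrt_le_sqrt h1) (Real.sqrt_le_sqrt h2) (Real.sqrt_nonneg _)
          (Real.sqrt_nonneg _)
    _ = √((k * N2 τ w) * (n * N2 τ w)) := (Real.sqrt_mul (mul_nonneg hk h0) _).symm
    _ = √((k * n) * (N2 τ w) ^ 2) := by
      congr 1
      ring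
    _ = √(k * n) * N2 τ w := by
      rw [Real.sqrt_mul' _ (sq_nonneg _), Real.sqrt_sq h0]

private theorem HE2_Usa (hS : Setup D J κ c) (δ : ℝ) (Φ Ψ : Finset Q) (m : ℕ) :
    star (∑ g ∈ Ψ, c m g * bb δ Φ c m g) = ∑ g ∈ Ψ, c m g * bb δ Φ c m g := by
  rw [star_sum]
  refine Finset.sum_congr rfl fun g _ => ?_
  rw [star_mul, bb_sa hS, (hS.good m g).sa, c_bb_comm hS]

/-- the size of the symmetric difference -/
private theorem HE2_chi (Φ₁ Φ₂ : Finset Q) {k : ℝ} (hk1 : ((Φ₁ \ Φ₂).card : ℝ) ≤ k)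
    (hk2 : ((Φ₂ \ Φ₁).card : ℝ) ≤ k) :
    ∑ g ∈ Φ₁ ∪ Φ₂, ((if g ∈ Φ₂ then 1 else 0) - (if g ∈ Φ₁ then 1 else 0) : ℝ) ^ 2 ≤ 2 * k := by
  have h1 : ∀ g ∈ Φ₁ ∪ Φ₂, ((if g ∈ Φ₂ then 1 else 0) - (if g ∈ Φ₁ then 1 else 0) : ℝ) ^ 2 =
      (if g ∈ Φ₁ \ Φ₂ then 1 else 0) + (if g ∈ Φ₂ \ Φ₁ then 1 else 0) := by
    intro g _
    by_cases a1 : g ∈ Φ₁ <;> by_cases a2 : g ∈ Φ₂ <;> simp [a1, a2]
  rw [Finset.sum_congr rfl h1, Finset.sum_add_distrib, Finset.sum_ite_mem, Finset.sum_ite_mem,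
    Finset.sum_const, Finset.sum_const, nsmul_eq_mul, nsmul_eq_mul, mul_one, mul_one]
  have h2 : (((Φ₁ ∪ Φ₂) ∩ (Φ₁ \ Φ₂)).card : ℝ) ≤ k :=
    le_trans (by exact_mod_cast Finset.card_le_card Finset.inter_subset_right) hk1
  have h3 : (((Φ₁ ∪ Φ₂) ∩ (Φ₂ \ Φ₁)).card : ℝ) ≤ k :=
    le_trans (by exact_mod_cast Finset.card_le_card Finset.inter_subset_right) hk2
  linarith

/-- HE2.  `e_g = b₂ g - b₁ g`, `X_g = 1_(Φ₂)(g) S₂ - 1_(Φ₁)(g) S₁`, `χ = 1_(Φ₂) - 1_(Φ₁)`,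
`S₂ - S₁ = ∑_g c_g e_g`.  `∑_g τ(w* e_g c_g X_g w) = N((S₂-S₁)w) + τ(w* U₂ S₁ w) + τ(w* U₁ S₂ w)`,
`U₂ = ∑_(g ∈ Φ₂ \ Φ₁) c_g b₂ g`, `U₁ = ∑_(g ∈ Φ₁ \ Φ₂) c_g b₁ g`, `N(U w) ≤ k N(w)`, `N(S w) ≤ n N(w)`
(`bb_cov_sub`), `N(X_g w) ≤ 4 n N(w)`; `coord_step` for each `g ∈ Φ₁ ∪ Φ₂` (at most `2n` of them). -/
theorem bb_diff (hS : Setup D J κ c) (δ : ℝ) (Φ₁ Φ₂ : Finset Q) {n k : ℝ}
    (hn1 : (Φ₁.card : ℝ) ≤ n) (hn2 : (Φ₂.card : ℝ) ≤ n) (hk1 : ((Φ₁ \ Φ₂).card : ℝ) ≤ k)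
    (hk2 : ((Φ₂ \ Φ₁).card : ℝ) ≤ k) (hδ : δ ^ 2 * n ≤ 1) (m : ℕ)
    {τ : B →ₗ[ℝ] ℝ} (hτ : Tr τ) {w : B} (hw : w ∈ Zc D (II J (m + 1))) :
    2 * δ ^ 2 * N2 τ ((SS δ Φ₂ c m - SS δ Φ₁ c m) * w) +
        ∑ g ∈ Φ₁ ∪ Φ₂, N2 τ ((bb δ Φ₂ c (m + 1) g - bb δ Φ₁ c (m + 1) g) * w) ≤
      ∑ g ∈ Φ₁ ∪ Φ₂, N2 τ ((bb δ Φ₂ c m g - bb δ Φ₁ c m g) * w) +
        δ ^ 2 * (4 * √(k * n) + 2 * k + 8 * δ ^ 2 * n ^ 2) * N2 τ w := by
  have hN := n2_nonneg hτ w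
  have hk0 : 0 ≤ k := (Nat.cast_nonneg _).trans hk1
  have hn0 : 0 ≤ n := (Nat.cast_nonneg _).trans hn1
  have hδ1 : δ ^ 2 * Φ₁.card ≤ 1 := (mul_le_mul_of_nonneg_left hn1 (sq_nonneg δ)).trans hδ
  have hδ2 : δ ^ 2 * Φ₂.card ≤ 1 := (mul_le_mul_of_nonneg_left hn2 (sq_nonneg δ)).trans hδ
  have hsum := Finset.sum_le_sum fun g (_ : g ∈ Φ₁ ∪ Φ₂) =>
    HE2_step hS δ Φ₁ Φ₂ hn1 hn2 hδ1 hδ2 m g hτ hw
  have hτs : ∑ g ∈ Φ₁ ∪ Φ₂, τ (star w * ((bb δ Φ₂ c m g - bb δ Φ₁ c m g) * c m g *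
      ((if g ∈ Φ₂ then SS δ Φ₂ c m else 0) - (if g ∈ Φ₁ then SS δ Φ₁ c m else 0))) * w) =
      τ (star w * (∑ g ∈ Φ₁ ∪ Φ₂, (bb δ Φ₂ c m g - bb δ Φ₁ c m g) * c m g *
      ((if g ∈ Φ₂ then SS δ Φ₂ c m else 0) - (if g ∈ Φ₁ then SS δ Φ₁ c m else 0))) * w) := by
    rw [← map_sum, ← Finset.sum_mul, ← Finset.mul_sum]
  have hχs : ∑ g ∈ Φ₁ ∪ Φ₂, ((if g ∈ Φ₂ then 1 else 0) - (if g ∈ Φ₁ then 1 else 0) : ℝ) ^ 2 *
      δ ^ 2 * N2 τ w =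
      (∑ g ∈ Φ₁ ∪ Φ₂, ((if g ∈ Φ₂ then 1 else 0) - (if g ∈ Φ₁ then 1 else 0) : ℝ) ^ 2) *
      δ ^ 2 * N2 τ w := by
    rw [← Finset.sum_mul, ← Finset.sum_mul]
  rw [Finset.sum_sub_distrib, Finset.sum_add_distrib, Finset.sum_add_distrib, Finset.sum_const,
    nsmul_eq_mul, ← Finset.mul_sum, hτs, hχs, HE2_alg hS] at hsum
  have hcard : ((Φ₁ ∪ Φ₂).card : ℝ) ≤ 2 * n := by
    have h1 : ((Φ₁ ∪ Φ₂).card : ℝ) ≤ (Φ₁.card : ℝ) + Φ₂.card := by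
      exact_mod_cast Finset.card_union_le Φ₁ Φ₂
    linarith
  have hA : ((Φ₁ ∪ Φ₂).card : ℝ) * (δ ^ 4 * (4 * (n * N2 τ w))) ≤
      (2 * n) * (δ ^ 4 * (4 * (n * N2 τ w))) :=
    mul_le_mul_of_nonneg_right hcard (by positivity)
  have hB := mul_le_mul_of_nonneg_right (mul_le_mul_of_nonneg_right
    (HE2_chi Φ₁ Φ₂ hk1 hk2) (sq_nonneg δ)) hN
  have hSd : star (SS δ Φ₂ c m - SS δ Φ₁ c m) = SS δ Φ₂ c m - SS δ Φ₁ c m := by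
    rw [star_sub, SS_sa hS, SS_sa hS]
  have hT1 := HE2_cs hτ (n := n) (HE2_Usa hS δ Φ₁ (Φ₁ \ Φ₂) m) hk0
    ((bb_cov_sub hS δ Φ₁ hδ1 m hτ Finset.sdiff_subset hw).trans
      (mul_le_mul_of_nonneg_right hk1 hN)) (HE2_SS hS δ Φ₂ hδ2 hn2 m hτ hw)
  have hT2 := HE2_cs hτ (n := n) (HE2_Usa hS δ Φ₂ (Φ₂ \ Φ₁) m) hk0
    ((bb_cov_sub hS δ Φ₂ hδ2 m hτ Finset.sdiff_subset hw).trans
      (mul_le_mul_of_nonneg_right hk2 hN)) (HE2_SS hS δ Φ₁ hδ1 hn1 m hτ hw)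
  have hexp : τ (star w * ((SS δ Φ₂ c m - SS δ Φ₁ c m) * (SS δ Φ₂ c m - SS δ Φ₁ c m) +
        (∑ g ∈ Φ₁ \ Φ₂, c m g * bb δ Φ₁ c m g) * SS δ Φ₂ c m +
        (∑ g ∈ Φ₂ \ Φ₁, c m g * bb δ Φ₂ c m g) * SS δ Φ₁ c m) * w) =
      N2 τ ((SS δ Φ₂ c m - SS δ Φ₁ c m) * w) +
        τ (star w * ((∑ g ∈ Φ₁ \ Φ₂, c m g * bb δ Φ₁ c m g) * SS δ Φ₂ c m) * w) +
        τ (star w * ((∑ g ∈ Φ₂ \ Φ₁, c m g * bb δ Φ₂ c m g) * SS δ Φ₁ c m) * w) := by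
    rw [mul_add, mul_add, add_mul, add_mul, map_add, map_add]
    congr 2
    unfold N2
    rw [star_mul, hSd]
    simp only [mul_assoc]
  rw [hexp] at hsum
  have b1 := neg_le_of_abs_le hT1
  have b2 := neg_le_of_abs_le hT2
  have c1 := mul_le_mul_of_nonneg_left b1 (show 0 ≤ 2 * δ ^ 2 by positivity)
  have c2 := mul_le_mul_of_nonneg_left b2 (show 0 ≤ 2 * δ ^ 2 by positivity)
  nlinarith [hsum, hA, hB, c1, c2]

end Vale.Agent.P095G
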