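import Vale.Agent.P095G.HDefs

namespace Vale.Agent.P095G

universe u v

variable {B : Type u} [CStarAlgebra B] {D : ℕ → Set B} {J : ℕ → Finset ℕ}

theorem HF_sub (J : ℕ → Finset ℕ) {m M : ℕ} (h : m < M) : J m ⊆ II J M := by
  unfold II
  exact Finset.subset_biUnion_of_mem J (Finset.mem_range.2 h)

theorem HF_mono (J : ℕ → Finset ℕ) {m M : ℕ} (h : m ≤ M) : II J m ⊆ II J M := by
  unfold II
  exact Finset.biUnion_subset_biUnion_of_subset_left J (Finset.range_mono h)

theorem HF_disj (hJ : ∀ i j, i ≠ j → Disjoint (J i) (J j)) {m M : ℕ} (h : m ≤ M) :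
    Disjoint (II J m) (J M) := by
  unfold II
  rw [Finset.disjoint_biUnion_left]
  intro i hi
  have h1 := Finset.mem_range.1 hi
  exact hJ i M (by omega)

/-- HF (orthogonality).  For `m' < m`: `Y m' ∈ Zc D (J m)`,
`τ(w* Y_m' Y_m w) = τ((w* Y_m' w) Y_m) = 0`.  Induction on `M`. -/
theorem orth_sum (hD : ComFam D) (hJ : ∀ i j, i ≠ j → Disjoint (J i) (J j)) (Y : ℕ → B)
    (hsa : ∀ m, star (Y m) = Y m)
    (hcent : ∀ m, ∀ z ∈ Zc D (II J (m + 1)), z * Y m = Y m * z)
    {τ : B →ₗ[ℝ] ℝ} (hτ : Tr τ) (hmean : ∀ m, ∀ z ∈ Zc D (J m), τ (z * Y m) = 0) (M : ℕ)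
    {w : B} (hw : w ∈ Zc D (II J M)) :
    N2 τ ((∑ m ∈ Finset.range M, Y m) * w) = ∑ m ∈ Finset.range M, N2 τ (Y m * w) := by
  induction M with
  | zero =>
    rw [Finset.range_zero, Finset.sum_empty, Finset.sum_empty, zero_mul]
    exact n2_zero
  | succ M ih =>
    have hw1 : w ∈ Zc D (II J M) := Zc_anti (HF_mono J (Nat.le_succ M)) hw
    have hw2 : w ∈ Zc D (J M) := Zc_anti (HF_sub J (Nat.lt_succ_self M)) hw
    rw [Finset.sum_range_succ, Finset.sum_range_succ, add_mul, n2_add hτ, ih hw1]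
    have hX : (∑ m ∈ Finset.range M, Y m) ∈ Zc D (J M) := by
      refine sum_mem fun m hm => ?_
      have hm1 := Finset.mem_range.1 hm
      exact mem_Zc_of_disj hD (HF_disj hJ (Nat.succ_le_of_lt hm1)) (hcent m)
    have hXs : star (∑ m ∈ Finset.range M, Y m) = ∑ m ∈ Finset.range M, Y m := by
      rw [star_sum]
      exact Finset.sum_congr rfl fun m _ => hsa m
    have hz : star w * (∑ m ∈ Finset.range M, Y m) * w ∈ Zc D (J M) :=
      mul_mem (mul_mem (star_mem hw2) hX) hw2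
    have e : star ((∑ m ∈ Finset.range M, Y m) * w) * (Y M * w) =
        star w * (∑ m ∈ Finset.range M, Y m) * w * Y M := by
      rw [star_mul, hXs, ← hcent M w hw]
      simp only [mul_assoc]
    rw [e, hmean M _ hz, mul_zero, add_zero]

end Vale.Agent.P095G
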