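import Vale.Agent.P095G.HDefs

namespace Vale.Agent.P095G

open Vale.Agent.P095

universe u v

theorem HG_smul {B : Type u} [CStarAlgebra B] (f : B →⋆ₐ[ℂ] B) (r : ℝ) (x : B) :
    f (r • x) = r • f x := by
  rw [← Complex.coe_smul, map_smul, Complex.coe_smul]

theorem HG_mem {G : Type v} [Group G] [DecidableEq G] (Φ : Finset G) (s g : G) :
    s * g ∈ (Φ.image fun g => s * g) ↔ g ∈ Φ := by
  rw [Finset.mem_image]
  constructor
  · rintro ⟨h, hh, he⟩
    rwa [← mul_left_cancel he]
  · exact fun h => ⟨g, h, rfl⟩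

theorem HG_SS {B : Type u} [CStarAlgebra B] {G : Type v} [Group G] [DecidableEq G]
    {β : G → (B →⋆ₐ[ℂ] B)} (hβ : IsAct β) (x : ℕ → B) (δ : ℝ) (Φ : Finset G) (s : G) (m : ℕ)
    (h : ∀ g, β s (bb δ Φ (fun m g => β g (x m)) m g) =
      bb δ (Φ.image fun g => s * g) (fun m g => β g (x m)) m (s * g)) :
    β s (SS δ Φ (fun m g => β g (x m)) m) =
      SS δ (Φ.image fun g => s * g) (fun m g => β g (x m)) m := by
  unfold SS
  rw [map_sum, Finset.sum_image fun a _ b _ hab => mul_left_cancel hab]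
  refine Finset.sum_congr rfl fun g _ => ?_
  rw [map_mul, h g]
  congr 1
  exact (hβ.mul s g (x m)).symm

/-- HG (translates).  Induction on `m`. -/
theorem bb_act {B : Type u} [CStarAlgebra B] {G : Type v} [Group G] [DecidableEq G]
    {β : G → (B →⋆ₐ[ℂ] B)} (hβ : IsAct β) (x : ℕ → B) (δ : ℝ) (Φ : Finset G) (s : G) (m : ℕ) :
    (∀ g, β s (bb δ Φ (fun m g => β g (x m)) m g) =
      bb δ (Φ.image fun g => s * g) (fun m g => β g (x m)) m (s * g)) ∧
    β s (SS δ Φ (fun m g => β g (x m)) m) =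
      SS δ (Φ.image fun g => s * g) (fun m g => β g (x m)) m := by
  have key : ∀ g, β s (bb δ Φ (fun m g => β g (x m)) m g) =
      bb δ (Φ.image fun g => s * g) (fun m g => β g (x m)) m (s * g) := by
    induction m with
    | zero =>
      intro g
      rw [bb_zero, bb_zero, map_zero]
    | succ m ih =>
      intro g
      rw [bb_succ, bb_succ, map_add, ih g]
      congr 1
      by_cases hg : g ∈ Φ
      · have hc : β s ((fun m g => β g (x m)) m g) = (fun m g => β g (x m)) m (s * g) :=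
          (hβ.mul s g (x m)).symm
        rw [if_pos hg, if_pos ((HG_mem Φ s g).2 hg), map_sub, HG_smul, HG_smul, map_add, map_mul,
          map_mul, HG_SS hβ x δ Φ s m ih, hc]
      · rw [if_neg hg, if_neg (fun h => hg ((HG_mem Φ s g).1 h)), map_zero]
  exact ⟨key, HG_SS hβ x δ Φ s m key⟩

end Vale.Agent.P095G
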