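import Vale.Agent.P095G.HC
import Vale.Agent.P095G.HD
import Vale.Agent.P095G.HF

namespace Vale.Agent.P095G

open Vale.Agent.P095

universe u v

section

variable {B : Type u} [CStarAlgebra B] {Q : Type v} [DecidableEq Q] {D : ℕ → Set B}
  {J : ℕ → Finset ℕ} {κ : ℝ} {c : ℕ → Q → B}

/-- HH1 (lower bound).  `orth_sum` for `Y = SS`; sum `bb_energy` over `m < M`; `N(c w) ≥ κ N(w)`;
`∑_g N(b_g^M w) ≤ |Φ| N(w)` (`bb_cov_one`): `2 δ² ∑ N(S_m w) ≥ (δ² M κ - 1) |Φ| N(w)`. -/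
theorem sum_lower (hS : Setup D J κ c) {δ : ℝ} (hδ0 : 0 < δ) (Φ : Finset Q)
    (hδ : δ ^ 2 * Φ.card ≤ 1) {M : ℕ} (hM : 2 ≤ κ * δ ^ 2 * M)
    {τ : B →ₗ[ℝ] ℝ} (hτ : Tr τ) {w : B} (hw : w ∈ Zc D (II J M)) :
    κ / 4 * M * Φ.card * N2 τ w ≤ N2 τ ((∑ m ∈ Finset.range M, SS δ Φ c m) * w) := by
  rw [orth_sum hS.com hS.dis (fun m => SS δ Φ c m) (fun m => SS_sa hS δ Φ m)
    (fun m => SS_cent hS δ Φ m) hτ (fun m z hz => SS_mean hS δ Φ m hτ hz) M hw]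
  have hN : 0 ≤ N2 τ w := n2_nonneg hτ w
  have hstep : ∀ k, k ≤ M → δ ^ 2 * (k * (Φ.card * (κ * N2 τ w))) ≤
      ∑ g ∈ Φ, N2 τ (bb δ Φ c k g * w) +
        2 * δ ^ 2 * ∑ m ∈ Finset.range k, N2 τ (SS δ Φ c m * w) := by
    intro k
    induction k with
    | zero =>
      intro _
      rw [Finset.range_zero, Finset.sum_empty, mul_zero, add_zero, Nat.cast_zero, zero_mul,
        mul_zero]
      exact Finset.sum_nonneg fun g _ => n2_nonneg hτ _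
    | succ k ih =>
      intro hk
      have h1 := ih (by omega)
      have hwk : w ∈ Zc D (II J (k + 1)) := Zc_anti (HF_mono J hk) hw
      have hwJ : w ∈ Zc D (J k) := Zc_anti (HF_sub J (Nat.lt_of_succ_le hk)) hw
      have h2 := bb_energy hS δ Φ k hτ hwk
      have h3 : Φ.card * (κ * N2 τ w) ≤ ∑ g ∈ Φ, N2 τ (c k g * w) := by
        have h4 : ∑ _g ∈ Φ, κ * N2 τ w ≤ ∑ g ∈ Φ, N2 τ (c k g * w) :=
          Finset.sum_le_sum fun g _ => (hS.good k g).var τ hτ w hwJ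
        rw [Finset.sum_const, nsmul_eq_mul] at h4
        exact h4
      have h5 := mul_le_mul_of_nonneg_left h3 (sq_nonneg δ)
      rw [Finset.sum_range_succ, mul_add]
      push_cast
      have h6 : δ ^ 2 * (((k : ℝ) + 1) * (Φ.card * (κ * N2 τ w))) =
          δ ^ 2 * (k * (Φ.card * (κ * N2 τ w))) + δ ^ 2 * (Φ.card * (κ * N2 τ w)) := by ring
      rw [h6]
      linarith
  have h1 := hstep M le_rfl
  have h2 : ∑ g ∈ Φ, N2 τ (bb δ Φ c M g * w) ≤ Φ.card * N2 τ w := by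
    have h3 : ∑ g ∈ Φ, N2 τ (bb δ Φ c M g * w) ≤ ∑ _g ∈ Φ, N2 τ w :=
      Finset.sum_le_sum fun g _ => bb_cov_one hS δ Φ hδ M hτ g hw
    rw [Finset.sum_const, nsmul_eq_mul] at h3
    exact h3
  have hδ2 : 0 < δ ^ 2 := by positivity
  have hc : 0 ≤ (Φ.card : ℝ) * N2 τ w := mul_nonneg (Nat.cast_nonneg _) hN
  have h4 : δ ^ 2 * (M * (Φ.card * (κ * N2 τ w))) = (κ * δ ^ 2 * M) * (Φ.card * N2 τ w) := by ring
  rw [h4] at h1
  have h5 : Φ.card * N2 τ w ≤ (κ * δ ^ 2 * M) / 2 * (Φ.card * N2 τ w) := by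
    have h6 : 1 * (Φ.card * N2 τ w) ≤ (κ * δ ^ 2 * M) / 2 * (Φ.card * N2 τ w) :=
      mul_le_mul_of_nonneg_right (by linarith) hc
    linarith
  have h7 : (κ * δ ^ 2 * M) / 2 * (Φ.card * N2 τ w) ≤
      2 * δ ^ 2 * ∑ m ∈ Finset.range M, N2 τ (SS δ Φ c m * w) := by linarith
  have h8 : (κ * δ ^ 2 * M) / 2 * (Φ.card * N2 τ w) =
      2 * δ ^ 2 * (κ / 4 * M * Φ.card * N2 τ w) := by ring
  rw [h8] at h7
  exact le_of_mul_le_mul_left h7 (by positivity)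

end

end Vale.Agent.P095G
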