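import Vale.Agent.P095G.HC
import Vale.Agent.P095G.HE
import Vale.Agent.P095G.HF

namespace Vale.Agent.P095G

open Vale.Agent.P095

universe u v

variable {B : Type u} [CStarAlgebra B] {Q : Type v} [DecidableEq Q] {D : ℕ → Set B}
  {J : ℕ → Finset ℕ} {κ : ℝ} {c : ℕ → Q → B}

theorem HH2_II_mono (J : ℕ → Finset ℕ) {m M : ℕ} (h : m ≤ M) : II J m ⊆ II J M := by
  unfold II
  exact Finset.biUnion_subset_biUnion_of_subset_left _ (Finset.range_mono h)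

/-- HH2 (upper bound).  `orth_sum` for `Y = SS Φ₂ - SS Φ₁`; sum `bb_diff` over `m < M`. -/
theorem sum_upper (hS : Setup D J κ c) {δ : ℝ} (hδ0 : 0 < δ) (Φ₁ Φ₂ : Finset Q) {n k : ℝ}
    (hn1 : (Φ₁.card : ℝ) ≤ n) (hn2 : (Φ₂.card : ℝ) ≤ n) (hk1 : ((Φ₁ \ Φ₂).card : ℝ) ≤ k)
    (hk2 : ((Φ₂ \ Φ₁).card : ℝ) ≤ k) (hδ : δ ^ 2 * n ≤ 1) (M : ℕ)
    {τ : B →ₗ[ℝ] ℝ} (hτ : Tr τ) {w : B} (hw : w ∈ Zc D (II J M)) :
    N2 τ ((∑ m ∈ Finset.range M, SS δ Φ₂ c m - ∑ m ∈ Finset.range M, SS δ Φ₁ c m) * w) ≤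
      M * (2 * √(k * n) + k + 4 * δ ^ 2 * n ^ 2) * N2 τ w := by
  rw [← Finset.sum_sub_distrib]
  have horth := orth_sum hS.com hS.dis (fun m => SS δ Φ₂ c m - SS δ Φ₁ c m)
    (fun m => by
      show star (SS δ Φ₂ c m - SS δ Φ₁ c m) = SS δ Φ₂ c m - SS δ Φ₁ c m
      rw [star_sub, SS_sa hS, SS_sa hS])
    (fun m z hz => by
      show z * (SS δ Φ₂ c m - SS δ Φ₁ c m) = (SS δ Φ₂ c m - SS δ Φ₁ c m) * z
      rw [mul_sub, sub_mul, SS_cent hS δ Φ₂ m z hz, SS_cent hS δ Φ₁ m z hz])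
    hτ (fun m z hz => by
      show τ (z * (SS δ Φ₂ c m - SS δ Φ₁ c m)) = 0
      rw [mul_sub, map_sub, SS_mean hS δ Φ₂ m hτ hz, SS_mean hS δ Φ₁ m hτ hz, sub_zero]) M hw
  rw [horth]
  set E : ℕ → ℝ := fun m => ∑ g ∈ Φ₁ ∪ Φ₂, N2 τ ((bb δ Φ₂ c m g - bb δ Φ₁ c m g) * w) with hE
  set R : ℝ := δ ^ 2 * (4 * √(k * n) + 2 * k + 8 * δ ^ 2 * n ^ 2) * N2 τ w with hR
  have hstep : ∀ m, m < M → 2 * δ ^ 2 * N2 τ ((SS δ Φ₂ c m - SS δ Φ₁ c m) * w) + E (m + 1) ≤ E m + R := by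
    intro m hm
    exact bb_diff hS δ Φ₁ Φ₂ hn1 hn2 hk1 hk2 hδ m hτ (Zc_anti (HH2_II_mono J (by omega)) hw)
  have hsum : ∀ N, N ≤ M → 2 * δ ^ 2 * (∑ m ∈ Finset.range N, N2 τ ((SS δ Φ₂ c m - SS δ Φ₁ c m) * w)) + E N ≤
      E 0 + N * R := by
    intro N
    induction N with
    | zero =>
      intro _
      simp
    | succ N ih =>
      intro hN
      have h1 := ih (by omega)
      have h2 := hstep N (by omega)
      rw [Finset.sum_range_succ]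
      push_cast
      linarith
  have h0 : E 0 = 0 := by
    rw [hE]
    refine Finset.sum_eq_zero (fun g _ => ?_)
    rw [bb_zero, bb_zero, sub_zero, zero_mul, n2_zero]
  have hEM : 0 ≤ E M := Finset.sum_nonneg (fun g _ => n2_nonneg hτ _)
  have h3 := hsum M le_rfl
  rw [h0, zero_add] at h3
  have hδ2 : 0 < 2 * δ ^ 2 := by positivity
  have h4 : 2 * δ ^ 2 * (∑ m ∈ Finset.range M, N2 τ ((SS δ Φ₂ c m - SS δ Φ₁ c m) * w)) ≤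
      2 * δ ^ 2 * (M * (2 * √(k * n) + k + 4 * δ ^ 2 * n ^ 2) * N2 τ w) := by
    have e : 2 * δ ^ 2 * (M * (2 * √(k * n) + k + 4 * δ ^ 2 * n ^ 2) * N2 τ w) = M * R := by
      rw [hR]
      ring
    rw [e]
    linarith
  exact le_of_mul_le_mul_left h4 hδ2

end Vale.Agent.P095G
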