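import Vale.Agent.P095G.HH

namespace Vale.Agent.P095G

open Vale.Agent.P095

universe u v

/-- HI auxiliary: choice of `ε` -/
private theorem HI_eps {η c : ℝ} (hη : 0 < η) (hc : 0 < c) :
    ∃ ε : ℝ, 0 < ε ∧ 2 * √ε + ε ≤ c * η / 8 := by
  set a : ℝ := min 1 (c * η / 24) with ha
  have ha0 : 0 < a := lt_min one_pos (by positivity)
  have ha1 : a ≤ 1 := min_le_left _ _
  have ha2 : a ≤ c * η / 24 := min_le_right _ _
  refine ⟨a ^ 2, by positivity, ?_⟩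
  rw [Real.sqrt_sq ha0.le]
  nlinarith

/-- HI auxiliary: choice of `δ` -/
private theorem HI_del {η c n : ℝ} (hη : 0 < η) (hc : 0 < c) (hn : 0 < n) :
    ∃ δ : ℝ, 0 < δ ∧ δ ^ 2 * n ≤ 1 ∧ 4 * δ ^ 2 * n ≤ c * η / 8 := by
  set a : ℝ := min 1 (c * η / 32) / n with ha
  have h0 : 0 < min 1 (c * η / 32) := lt_min one_pos (by positivity)
  have ha0 : 0 < a := div_pos h0 hn
  have han : a * n = min 1 (c * η / 32) := by
    rw [ha]
    field_simp
  have h1 : min 1 (c * η / 32) ≤ 1 := min_le_left _ _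
  have h2 : min 1 (c * η / 32) ≤ c * η / 32 := min_le_right _ _
  refine ⟨√a, Real.sqrt_pos.2 ha0, ?_, ?_⟩
  · rw [Real.sq_sqrt ha0.le, han]
    exact h1
  · rw [Real.sq_sqrt ha0.le, mul_assoc, han]
    linarith

/-- HI (block lemma for amenable groups).  `ε > 0` with `(4/c)(2√ε + ε) ≤ η/2`; `Φ` from Folner;
`δ > 0` with `δ² |Φ| ≤ 1` and `(4/c) 4 δ² |Φ| ≤ η/2`; `M ≥ 2/(c δ²)`; `J m = {n₀ + m}`,
`c m g = β g (x (n₀ + m))` (`good_act`), `S = ∑_(m < M) SS δ Φ c m`, `I = II J M`,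
`r = c/4 * M * |Φ|`, `R = M |Φ| max R_m + 1` (`bb_norm`); `β s S = ∑ SS δ (sΦ) c m` (`bb_act`),
`|sΦ \ Φ| = |Φ \ sΦ| ≤ ε |Φ|`, `sum_upper` with `n = |Φ|`, `k = ε |Φ|`, `sum_lower`. -/
theorem block_am {B : Type u} [CStarAlgebra B] {D : ℕ → Set B} (hD : ComFam D) {G : Type v}
    [Group G] {β : G → (B →⋆ₐ[ℂ] B)} (hβ : IsAct β) (hinv : ∀ g i, ∀ a ∈ D i, β g a ∈ D i)
    (hF : Folner G) {c : ℝ} (hc : 0 < c) (hx : ∀ i, ∃ x, Good D 1 c {i} x)
    (K : Finset G) (η : ℝ) (hη : 0 < η) :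
    ∃ R r : ℝ, 0 < R ∧ 0 < r ∧ ∀ n₀ : ℕ, ∃ (I : Finset ℕ) (S : B), (∀ i ∈ I, n₀ ≤ i) ∧
      Good D R r I S ∧ RI β D K η I S := by
  classical
  obtain ⟨ε, hε, hε2⟩ := HI_eps hη hc
  obtain ⟨Φ, hΦ, hΦK⟩ := hF (K : Set G) K.finite_toSet ε hε
  have hn : (0 : ℝ) < (Φ.card : ℝ) := Nat.cast_pos.2 hΦ.card_pos
  obtain ⟨δ, hδ0, hδ1, hδ2⟩ := HI_del hη hc hn
  obtain ⟨M, hM⟩ := exists_nat_ge (2 / (c * δ ^ 2))
  have hcd : 0 < c * δ ^ 2 := by positivity
  have hM2 : 2 ≤ c * δ ^ 2 * M := by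
    rw [div_le_iff₀ hcd] at hM
    linarith
  have hM0 : (0 : ℝ) < M := by
    by_contra hcon
    push Not at hcon
    have : c * δ ^ 2 * M ≤ 0 := mul_nonpos_of_nonneg_of_nonpos hcd.le hcon
    linarith
  obtain ⟨Rm, hRm0, hRm⟩ := bb_norm.{u, v} δ Φ.card
  choose x hxg using hx
  refine ⟨∑ m ∈ Finset.range M, (Φ.card : ℝ) * Rm m + 1, c / 4 * M * Φ.card, ?_, by positivity, ?_⟩
  · have : 0 ≤ ∑ m ∈ Finset.range M, (Φ.card : ℝ) * Rm m :=
      Finset.sum_nonneg fun m _ => mul_nonneg hn.le (hRm0 m)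
    linarith
  intro n₀
  set J : ℕ → Finset ℕ := fun m => {n₀ + m} with hJ
  set cc : ℕ → G → B := fun m g => β g (x (n₀ + m)) with hcc
  have hS : Setup D J c cc := by
    refine ⟨hD, ?_, ?_⟩
    · intro i j hij
      simp only [hJ, Finset.disjoint_singleton]
      omega
    · intro m q
      exact good_act hβ hinv q (hxg (n₀ + m))
  have hJM : ∀ m, m < M → J m ⊆ II J M := fun m hm =>
    Finset.subset_biUnion_of_mem J (Finset.mem_range.2 hm)
  have hIIM : ∀ m, m < M → II J (m + 1) ⊆ II J M := fun m hm =>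
    Finset.biUnion_subset_biUnion_of_subset_left J (Finset.range_subset_range.2 (by omega))
  have hlow : ∀ τ, Tr τ → ∀ w ∈ Zc D (II J M),
      c / 4 * M * Φ.card * N2 τ w ≤ N2 τ ((∑ m ∈ Finset.range M, SS δ Φ cc m) * w) :=
    fun τ hτ w hw => sum_lower hS hδ0 Φ hδ1 hM2 hτ hw
  refine ⟨II J M, ∑ m ∈ Finset.range M, SS δ Φ cc m, ?_, ⟨?_, ?_, ?_, ?_, hlow⟩, ?_⟩
  · intro i hi
    unfold II at hi
    rw [Finset.mem_biUnion] at hi
    obtain ⟨m, -, hm⟩ := hi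
    simp only [hJ, Finset.mem_singleton] at hm
    omega
  · rw [star_sum]
    exact Finset.sum_congr rfl fun m _ => SS_sa hS δ Φ m
  · refine (norm_sum_le _ _).trans ?_
    have h1 : ∑ m ∈ Finset.range M, ‖SS δ Φ cc m‖ ≤ ∑ m ∈ Finset.range M, (Φ.card : ℝ) * Rm m :=
      Finset.sum_le_sum fun m _ =>
        (hRm B G cc Φ le_rfl (fun m q => (hS.good m q).norm) m).2
    linarith
  · intro z hz
    rw [Finset.mul_sum, Finset.sum_mul]
    refine Finset.sum_congr rfl fun m hm => ?_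
    exact SS_cent hS δ Φ m z (Zc_anti (hIIM m (Finset.mem_range.1 hm)) hz)
  · intro τ hτ z hz
    rw [Finset.mul_sum, map_sum]
    refine Finset.sum_eq_zero fun m hm => ?_
    exact SS_mean hS δ Φ m hτ (Zc_anti (hJM m (Finset.mem_range.1 hm)) hz)
  · intro τ hτ w hw s hs
    have hact : β s (∑ m ∈ Finset.range M, SS δ Φ cc m) =
        ∑ m ∈ Finset.range M, SS δ (Φ.image fun g => s * g) cc m := by
      rw [map_sum]
      refine Finset.sum_congr rfl fun m _ => ?_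
      exact (bb_act hβ (fun m => x (n₀ + m)) δ Φ s m).2
    have hcard : (Φ.image fun g => s * g).card = Φ.card :=
      Finset.card_image_of_injective _ (mul_right_injective s)
    have hk2 : (((Φ.image fun g => s * g) \ Φ).card : ℝ) ≤ ε * Φ.card := by
      have h1 := hΦK s (Finset.mem_coe.2 hs)
      rw [← Finset.coe_image, ← Finset.coe_sdiff, Set.ncard_coe_finset] at h1
      exact h1
    have hk1 : ((Φ \ (Φ.image fun g => s * g)).card : ℝ) ≤ ε * Φ.card := by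
      rw [Finset.card_sdiff_comm hcard.symm]
      exact hk2
    have hup := sum_upper hS hδ0 Φ (Φ.image fun g => s * g) (n := (Φ.card : ℝ))
      (k := ε * Φ.card) le_rfl (by rw [hcard]) hk1 hk2 hδ1 M hτ hw
    rw [hact]
    refine hup.trans ?_
    have hNw : 0 ≤ N2 τ w := hτ.pos w
    have hl := hlow τ hτ w hw
    have hsq : √(ε * Φ.card * Φ.card) = √ε * Φ.card := by
      rw [mul_assoc, Real.sqrt_mul hε.le, Real.sqrt_mul_self hn.le]
    rw [hsq]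
    have h3 : (2 * (√ε * (Φ.card : ℝ)) + ε * Φ.card + 4 * δ ^ 2 * (Φ.card : ℝ) ^ 2) ≤
        c * η / 4 * Φ.card := by
      have e1 : (2 * (√ε * (Φ.card : ℝ)) + ε * Φ.card + 4 * δ ^ 2 * (Φ.card : ℝ) ^ 2) =
          ((2 * √ε + ε) + 4 * δ ^ 2 * Φ.card) * Φ.card := by ring
      rw [e1]
      refine mul_le_mul_of_nonneg_right ?_ hn.le
      linarith
    calc M * (2 * (√ε * (Φ.card : ℝ)) + ε * Φ.card + 4 * δ ^ 2 * (Φ.card : ℝ) ^ 2) * N2 τ w
        ≤ M * (c * η / 4 * Φ.card) * N2 τ w :=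
          mul_le_mul_of_nonneg_right (mul_le_mul_of_nonneg_left h3 hM0.le) hNw
      _ = η * (c / 4 * M * Φ.card * N2 τ w) := by ring
      _ ≤ η * N2 τ ((∑ m ∈ Finset.range M, SS δ Φ cc m) * w) :=
          mul_le_mul_of_nonneg_left hl hη.le

end Vale.Agent.P095G
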