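import Vale.Agent.P095G.NDefs
import Vale.Agent.P095G.AmpG

namespace Vale.Agent.P095G

open Vale.Agent.P095

universe u v

variable {B : Type u} [CStarAlgebra B] {D : ℕ → Set B}

/-- N1.  As `amp_good`; mean: `τ(z W₊) = τ(z W) + (1/2) τ((z(1-W²)) V) = s τ(z)`. -/
theorem amp_goodS (hD : ComFam D) {I J : Finset ℕ} (hIJ : Disjoint I J) {s c μ : ℝ} {W V : B}
    (hc : 0 ≤ c) (hc1 : c ≤ 1) (hμ : 0 ≤ μ) (hμ1 : μ ≤ 1)
    (hW : GoodS D s μ I W) (hV : Good D 1 c J V) :
    GoodS D s (μ + c / 4 * (1 - μ) ^ 2) (I ∪ J) (W + (1 / 2 : ℝ) • ((1 - W * W) * V)) := by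
  have hWJ : W ∈ Zc D J := mem_Zc_of_disj hD hIJ hW.cent
  have hVI : V ∈ Zc D I := good_mem hD hIJ.symm hV
  have hWV : W * V = V * W := (hW.cent V hVI).symm
  have hcom : (1 - W * W) * V = V * (1 - W * W) := by
    have : W * W * V = V * (W * W) := by
      rw [mul_assoc, hWV, ← mul_assoc, hWV, mul_assoc]
    rw [sub_mul, mul_sub, one_mul, mul_one, this]
  refine ⟨?_, amp_norm hW.sa hW.norm hV.sa hV.norm hWV, ?_, ?_, ?_⟩
  · rw [star_add, star_smul, star_mul, star_sub, star_one, star_mul, hW.sa, hV.sa, hcom]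
    simp
  · intro z hz
    have hzI := Zc_anti Finset.subset_union_left hz
    have hzJ := Zc_anti Finset.subset_union_right hz
    have h1 := hW.cent z hzI
    have h2 := hV.cent z hzJ
    have h4 : z * (W * W) = W * W * z := by rw [← mul_assoc, h1, mul_assoc, h1, mul_assoc]
    have h3 : z * ((1 - W * W) * V) = (1 - W * W) * V * z := by
      rw [← mul_assoc, mul_sub, h4, mul_one, mul_assoc (1 - W * W) V z, ← h2, ← mul_assoc,
        sub_mul 1 (W * W) z, one_mul]
    rw [mul_add, add_mul, h1, mul_smul_comm, smul_mul_assoc, h3]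
  · intro τ hτ z hz
    have hzI := Zc_anti Finset.subset_union_left hz
    have hzJ := Zc_anti Finset.subset_union_right hz
    have h1 : z * ((1 - W * W) * V) = (z * (1 - W * W)) * V := by noncomm_ring
    have h2 : z * (1 - W * W) ∈ Zc D J :=
      mul_mem hzJ (sub_mem (one_mem _) (mul_mem hWJ hWJ))
    rw [mul_add, mul_smul_comm, map_add, map_smul, hW.mean τ hτ z hzI, h1, hV.mean τ hτ _ h2,
      smul_zero, add_zero]
  · intro τ hτ w hw
    have hwI := Zc_anti Finset.subset_union_left hw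
    have hwJ := Zc_anti Finset.subset_union_right hw
    rcases (n2_nonneg hτ w).eq_or_lt with h0 | h0
    · rw [← h0, mul_zero]
      exact n2_nonneg hτ _
    · have h2 : (1 - W * W) * w ∈ Zc D J :=
        mul_mem (sub_mem (one_mem _) (mul_mem hWJ hWJ)) hwJ
      have h3 : N2 τ (W * w) ≤ N2 τ w := by
        have h4 := n2_mul_le hτ w W
        have h5 : ‖W‖ ^ 2 ≤ 1 := by
          have := hW.norm
          have h6 := norm_nonneg W
          nlinarith
        calc N2 τ (W * w) ≤ ‖W‖ ^ 2 * N2 τ w := h4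
          _ ≤ 1 * N2 τ w := mul_le_mul_of_nonneg_right h5 h0.le
          _ = N2 τ w := one_mul _
      exact AG_real hc hc1 hμ h0 (hW.var τ hτ w hwI) h3 (AG_cs hW.sa hτ)
        (hV.var τ hτ _ h2) (AG_n2 hW.sa hWV hWJ hV hwJ hτ)

end Vale.Agent.P095G
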