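import Vale.Agent.P095G.N1
import Vale.Agent.P095G.N2

namespace Vale.Agent.P095G

open Vale.Agent.P095

universe u v

variable {B : Type u} [CStarAlgebra B] {D : ℕ → Set B}

variable {G : Type v} [Group G] {β : G → (B →⋆ₐ[ℂ] B)}

theorem N3_norm_one_le : ‖(1 : B)‖ ≤ 1 := by
  rcases subsingleton_or_nontrivial B with hs | hn
  · have : (1 : B) = 0 := Subsingleton.elim _ _
    rw [this, norm_zero]
    exact zero_le_one
  · exact le_of_eq CStarRing.norm_one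

theorem N3_start (s : ℝ) (hs : |s| ≤ 1) : GoodS D s 0 ∅ (s • (1 : B)) where
  sa := by rw [star_smul, star_trivial, star_one]
  norm := by
    rw [norm_smul, Real.norm_eq_abs]
    exact mul_le_one₀ hs (norm_nonneg _) N3_norm_one_le
  cent := fun z _ => by rw [mul_smul_comm, smul_mul_assoc, mul_one, one_mul]
  mean := fun τ _ z _ => by rw [mul_smul_comm, mul_one, map_smul, smul_eq_mul]
  var := fun τ hτ w _ => by
    rw [zero_mul]
    exact hτ.pos _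

theorem N3_map (f : B →⋆ₐ[ℂ] B) (s : ℝ) : f (s • (1 : B)) = s • (1 : B) := by
  have h : s • (1 : B) = (s : ℂ) • (1 : B) := (Complex.coe_smul s (1 : B)).symm
  rw [h, map_smul, map_one]

theorem N3_ai {Γ : ℝ} (hΓ : 0 ≤ Γ) {K : Finset G} (s : ℝ) : AI β D K Γ ∅ (s • (1 : B)) := by
  intro τ hτ w _ g _
  unfold N2
  rw [N3_map, sub_self, zero_mul, mul_zero, map_zero]
  exact mul_nonneg hΓ (hτ.pos w)

theorem GoodS.n3mono {s c c' : ℝ} {I : Finset ℕ} {x : B} (h : GoodS D s c I x)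
    (hc : c' ≤ c) : GoodS D s c' I x := by
  refine ⟨h.sa, h.norm, h.cent, h.mean, ?_⟩
  intro τ hτ w hw
  have h1 := h.var τ hτ w hw
  have h2 : 0 ≤ N2 τ w := hτ.pos w
  have h3 : c' * N2 τ w ≤ c * N2 τ w := mul_le_mul_of_nonneg_right hc h2
  exact h3.trans h1

theorem N3_iter (hD : ComFam D) (hβ : IsAct β) (hinv : ∀ g i, ∀ a ∈ D i, β g a ∈ D i)
    {K : Finset G} {c : ℝ} (hc : 0 < c) (hc1 : c ≤ 1)
    (h : ∀ (ε : ℝ) (n₀ : ℕ), 0 < ε → ∃ (I : Finset ℕ) (V : B), (∀ i ∈ I, n₀ ≤ i) ∧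
      Good D 1 c I V ∧ AI β D K ε I V) (s : ℝ) (hs : |s| ≤ 1)
    {ε : ℝ} (hε : 0 < ε) (hε1 : ε ≤ 1) (n₀ : ℕ) {Γ : ℝ}
    (hΓ : 0 < Γ) (k : ℕ) :
    ∃ (I : Finset ℕ) (V : B), (∀ i ∈ I, n₀ ≤ i) ∧
      GoodS D s (min (1 - ε) (k * (c / 4 * ε ^ 2))) I V ∧ AI β D K (7 ^ k * Γ) I V := by
  induction k with
  | zero =>
    refine ⟨∅, s • (1 : B), fun i hi => absurd hi (Finset.notMem_empty i), ?_, ?_⟩
    · refine (N3_start s hs).n3mono (le_trans (min_le_right _ _) ?_)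
      simp
    · exact N3_ai (by positivity) s
  | succ k ih =>
    obtain ⟨I, W, hI, hW, hWa⟩ := ih
    have hΓk : 0 < 7 ^ k * Γ := by positivity
    obtain ⟨J, V, hJ, hV, hVa⟩ := h (7 ^ k * Γ) (max n₀ (I.sup id + 1)) hΓk
    have hIJ : Disjoint I J := by
      rw [Finset.disjoint_left]
      intro i hi hj
      have h1 := (le_max_right _ _).trans (hJ i hj)
      have h2 : id i ≤ I.sup id := Finset.le_sup hi
      simp only [id] at h2
      omega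
    have hμ : 0 ≤ min (1 - ε) (k * (c / 4 * ε ^ 2)) := le_min (by linarith) (by positivity)
    have hμ' : min (1 - ε) (k * (c / 4 * ε ^ 2)) ≤ 1 - ε := min_le_left _ _
    have hμ1 : min (1 - ε) (k * (c / 4 * ε ^ 2)) ≤ 1 := hμ'.trans (by linarith)
    refine ⟨I ∪ J, W + (1 / 2 : ℝ) • ((1 - W * W) * V), fun i hi => ?_, ?_, ?_⟩
    · rcases Finset.mem_union.1 hi with hi | hi
      · exact hI i hi
      · exact (le_max_left _ _).trans (hJ i hi)
    · refine (amp_goodS hD hIJ hc.le hc1 hμ hμ1 hW hV).n3mono ?_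
      have h3 : ε ^ 2 ≤ (1 - min (1 - ε) (k * (c / 4 * ε ^ 2))) ^ 2 :=
        pow_le_pow_left₀ hε.le (by linarith) 2
      have h4 : c / 4 * ε ^ 2 ≤ c / 4 * (1 - min (1 - ε) (k * (c / 4 * ε ^ 2))) ^ 2 :=
        mul_le_mul_of_nonneg_left h3 (by positivity)
      have h5 : min (1 - ε) (((k + 1 : ℕ) : ℝ) * (c / 4 * ε ^ 2)) ≤
          min (1 - ε) (k * (c / 4 * ε ^ 2)) + c / 4 * ε ^ 2 := by
        rcases le_total (1 - ε) (k * (c / 4 * ε ^ 2)) with h6 | h6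
        · rw [min_eq_left h6]
          refine (min_le_left _ _).trans ?_
          have : 0 ≤ c / 4 * ε ^ 2 := by positivity
          linarith
        · rw [min_eq_right h6]
          refine (min_le_right _ _).trans (le_of_eq ?_)
          push_cast
          ring
      linarith
    · have h3 := amp_aiS hD hβ hinv hIJ hW hV hΓk.le hWa hVa
      rw [← mul_assoc, ← pow_succ'] at h3
      exact h3

/-- N3.  As `amp`, starting with `W = s • 1`, `I = ∅` (`GoodS D s 0 ∅ (s • 1)`). -/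
theorem ampS (hD : ComFam D) (hβ : IsAct β) (hinv : ∀ g i, ∀ a ∈ D i, β g a ∈ D i)
    {K : Finset G} {c : ℝ} (hc : 0 < c) (hc1 : c ≤ 1)
    (h : ∀ (ε : ℝ) (n₀ : ℕ), 0 < ε → ∃ (I : Finset ℕ) (V : B), (∀ i ∈ I, n₀ ≤ i) ∧
      Good D 1 c I V ∧ AI β D K ε I V) (s : ℝ) (hs : |s| ≤ 1) (ε : ℝ) (hε : 0 < ε) (n₀ : ℕ) :
    ∃ (I : Finset ℕ) (V : B), (∀ i ∈ I, n₀ ≤ i) ∧ GoodS D s (1 - ε) I V ∧ AI β D K ε I V := by
  have hε'0 : 0 < min ε 1 := lt_min hε one_pos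
  have hε'1 : min ε 1 ≤ 1 := min_le_right _ _
  have hε' : min ε 1 ≤ ε := min_le_left _ _
  generalize min ε 1 = e at hε'0 hε'1 hε'
  have hpos : 0 < c / 4 * e ^ 2 := by positivity
  obtain ⟨k, hk⟩ := exists_nat_ge (1 / (c / 4 * e ^ 2))
  rw [div_le_iff₀ hpos] at hk
  obtain ⟨I, V, hI, hV, hVa⟩ := N3_iter hD hβ hinv hc hc1 h s hs hε'0 hε'1 n₀
    (Γ := e / 7 ^ k) (by positivity) k
  refine ⟨I, V, hI, hV.n3mono (le_min (by linarith) ?_), ?_⟩
  · linarith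
  · intro τ hτ w hw g hg
    have h1 := hVa τ hτ w hw g hg
    have h2 : (7 : ℝ) ^ k * (e / 7 ^ k) = e := by field_simp
    rw [h2] at h1
    exact h1.trans (mul_le_mul_of_nonneg_right hε' (hτ.pos w))

end Vale.Agent.P095G
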