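import Vale.Agent.P095G.NDefs

namespace Vale.Agent.P095G

open Vale.Agent.P095

universe u v

variable {B : Type u} [CStarAlgebra B] {D : ℕ → Set B}

theorem N4_pos {V : B} (h1 : star V = V) (h2 : ‖V‖ ≤ 1) :
    ∃ q : B, (1 / 2 : ℝ) • (1 + V) = star q * q := by
  letI := CStarAlgebra.spectralOrder B
  haveI := CStarAlgebra.spectralOrderedRing B
  have hs : IsSelfAdjoint V := h1
  have h3 : 0 ≤ algebraMap ℝ B ‖V‖ + V := by
    have := hs.neg_algebraMap_norm_le_self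
    exact neg_le_iff_add_nonneg'.1 this
  obtain ⟨a, ha⟩ := CStarAlgebra.nonneg_iff_eq_star_mul_self.1 h3
  have h4 : (0 : B) ≤ star ((√(1 - ‖V‖)) • (1 : B)) * ((√(1 - ‖V‖)) • (1 : B)) :=
    star_mul_self_nonneg _
  have h5 : star ((√(1 - ‖V‖)) • (1 : B)) * ((√(1 - ‖V‖)) • (1 : B)) = (1 - ‖V‖) • (1 : B) := by
    rw [star_smul, star_one, star_trivial, smul_mul_smul_comm, mul_one,
      Real.mul_self_sqrt (by linarith)]
  rw [h5] at h4
  have h6 : (0 : B) ≤ 1 + V := by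
    have h7 : (1 : B) + V = (1 - ‖V‖) • (1 : B) + (algebraMap ℝ B ‖V‖ + V) := by
      rw [Algebra.algebraMap_eq_smul_one, sub_smul, one_smul]
      abel
    rw [h7]
    exact add_nonneg h4 h3
  obtain ⟨q, hq⟩ := CStarAlgebra.nonneg_iff_eq_star_mul_self.1 h6
  refine ⟨√(1 / 2) • q, ?_⟩
  rw [star_smul, star_trivial, smul_mul_smul_comm, Real.mul_self_sqrt (by norm_num), hq]

/-- N4.  `Q = (1 + V)/2`; `Q - Q² = (1 - V²)/4`, `τ(w*(1-V²)w) = N2 w - N2 (V w)`; `1 ± V ≥ 0` as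
`‖V‖ ≤ 1` (spectral order, `CStarAlgebra.nonneg_iff_eq_star_mul_self`). -/
theorem qq_of_goodS {s ε : ℝ} (hε : 0 ≤ ε) {I : Finset ℕ} {V : B} (hV : GoodS D s (1 - ε) I V) :
    QQ D ((1 + s) / 2) ε I ((1 / 2 : ℝ) • (1 + V)) := by
  have hn1 : ‖(1 : B)‖ ≤ 1 := by
    rcases subsingleton_or_nontrivial B with h | h
    · rw [Subsingleton.elim (1 : B) 0, norm_zero]
      exact zero_le_one
    · exact (CStarRing.norm_one).le
  refine ⟨?_, ?_, N4_pos hV.sa hV.norm, ?_, ?_, ?_, ?_⟩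
  · rw [star_smul, star_trivial, star_add, star_one, hV.sa]
  · rw [norm_smul]
    have h1 := norm_add_le (1 : B) V
    have h2 := hV.norm
    have h3 : ‖(1 / 2 : ℝ)‖ = 1 / 2 := by
      rw [Real.norm_eq_abs, abs_of_pos (by norm_num)]
    rw [h3]
    linarith
  · obtain ⟨q, hq⟩ := N4_pos (V := -V) (by rw [star_neg, hV.sa]) (by rw [norm_neg]; exact hV.norm)
    refine ⟨q, ?_⟩
    rw [← hq, smul_add, smul_add, smul_neg]
    have h1 : (1 : B) = (1 / 2 : ℝ) • (1 : B) + (1 / 2 : ℝ) • (1 : B) := by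
      rw [← add_smul]
      norm_num
    nth_rewrite 1 [h1]
    abel
  · intro z hz
    rw [mul_smul_comm, smul_mul_assoc, mul_add, add_mul, hV.cent z hz, mul_one, one_mul]
  · intro τ hτ z hz
    rw [mul_smul_comm, map_smul, smul_eq_mul, mul_add, mul_one, map_add, hV.mean τ hτ z hz]
    ring
  · intro τ hτ w hw
    have h1 : star w * ((1 / 2 : ℝ) • (1 + V) - ((1 / 2 : ℝ) • (1 + V)) * ((1 / 2 : ℝ) • (1 + V))) * w
        = (1 / 4 : ℝ) • (star w * w - star (V * w) * (V * w)) := by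
      have h2 : (1 / 2 : ℝ) • (1 + V) - ((1 / 2 : ℝ) • (1 + V)) * ((1 / 2 : ℝ) • (1 + V))
          = (1 / 4 : ℝ) • (1 - V * V) := by
        rw [smul_mul_smul_comm]
        have h3 : (1 + V) * (1 + V) = (1 : B) + (V + V) + V * V := by noncomm_ring
        have h4 : V + V = (2 : ℝ) • V := by rw [two_smul]
        rw [h3, h4]
        module
      rw [h2, mul_smul_comm, smul_mul_assoc, star_mul, hV.sa]
      congr 1
      noncomm_ring
    have h5 := hV.var τ hτ w hw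
    have h6 := n2_nonneg hτ w
    rw [h1, map_smul, smul_eq_mul, map_sub]
    unfold N2 at h5 h6 ⊢
    nlinarith

variable {G : Type v} [Group G] {β : G → (B →⋆ₐ[ℂ] B)}

theorem qq_ai {K : Finset G} {ε : ℝ} (hε : 0 ≤ ε) {I : Finset ℕ} {V : B}
    (hV : AI β D K ε I V) : AI β D K ε I ((1 / 2 : ℝ) • (1 + V)) := by
  intro τ hτ w hw s hs
  have h1 := hV τ hτ w hw s hs
  have h2 : β s ((1 / 2 : ℝ) • (1 + V)) = (1 / 2 : ℝ) • (1 + β s V) := by
    have h3 : (1 / 2 : ℝ) • (1 + V) = ((1 / 2 : ℝ) : ℂ) • (1 + V) :=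
      (Complex.coe_smul (1 / 2 : ℝ) (1 + V)).symm
    rw [h3, map_smul, map_add, map_one]
    exact Complex.coe_smul (1 / 2 : ℝ) (1 + β s V)
  have h4 : (β s ((1 / 2 : ℝ) • (1 + V)) - (1 / 2 : ℝ) • (1 + V)) * w
      = (1 / 2 : ℝ) • ((β s V - V) * w) := by
    rw [h2, ← smul_sub, smul_mul_assoc]
    congr 2
    abel
  rw [h4, n2_smul]
  have h5 := n2_nonneg hτ ((β s V - V) * w)
  nlinarith

end Vale.Agent.P095G
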