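import Vale.Agent.P095G.NDefs

namespace Vale.Agent.P095G

open Vale.Agent.P095

universe u v

variable {B : Type u} [CStarAlgebra B] {D : ℕ → Set B}

lemma N5_mul {x y : B} (hx : ∃ q : B, x = star q * q) (hy : ∃ q : B, y = star q * q)
    (hxy : x * y = y * x) : ∃ q : B, x * y = star q * q := by
  letI := CStarAlgebra.spectralOrder B
  haveI := CStarAlgebra.spectralOrderedRing B
  have h1 : 0 ≤ x := by obtain ⟨q, rfl⟩ := hx; exact star_mul_self_nonneg q
  have h2 : 0 ≤ y := by obtain ⟨q, rfl⟩ := hy; exact star_mul_self_nonneg q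
  have h3 : 0 ≤ x * y := by
    have hc : Commute (CFC.sqrt x) y := by
      rw [CFC.sqrt_eq_cfc]
      exact (show Commute x y from hxy).cfc_nnreal _
    have h4 : x * y = CFC.sqrt x * y * CFC.sqrt x := by
      rw [mul_assoc, ← hc.eq, ← mul_assoc, CFC.sqrt_mul_sqrt_self x h1]
    rw [h4]
    exact (CFC.sqrt_nonneg x).isSelfAdjoint.conjugate_nonneg h2
  exact CStarAlgebra.nonneg_iff_eq_star_mul_self.1 h3

lemma N5_add {x y : B} (hx : ∃ q : B, x = star q * q) (hy : ∃ q : B, y = star q * q) :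
    ∃ q : B, x + y = star q * q := by
  letI := CStarAlgebra.spectralOrder B
  haveI := CStarAlgebra.spectralOrderedRing B
  have h1 : 0 ≤ x := by obtain ⟨q, rfl⟩ := hx; exact star_mul_self_nonneg q
  have h2 : 0 ≤ y := by obtain ⟨q, rfl⟩ := hy; exact star_mul_self_nonneg q
  exact CStarAlgebra.nonneg_iff_eq_star_mul_self.1 (add_nonneg h1 h2)

lemma N5_norm {x : B} (hx : ∃ q : B, x = star q * q) (hy : ∃ q : B, 1 - x = star q * q) :
    ‖x‖ ≤ 1 := by
  letI := CStarAlgebra.spectralOrder B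
  haveI := CStarAlgebra.spectralOrderedRing B
  have h1 : 0 ≤ x := by obtain ⟨q, rfl⟩ := hx; exact star_mul_self_nonneg q
  have h2 : 0 ≤ 1 - x := by obtain ⟨q, hq⟩ := hy; rw [hq]; exact star_mul_self_nonneg q
  exact (CStarAlgebra.norm_le_one_iff_of_nonneg x h1).2 (sub_nonneg.1 h2)

lemma N5_tr {τ : B →ₗ[ℝ] ℝ} (hτ : Tr τ) {x : B} (hx : ∃ q : B, x = star q * q) (w : B) :
    0 ≤ τ (star w * x * w) := by
  obtain ⟨q, rfl⟩ := hx
  have h := n2_nonneg hτ (q * w)
  unfold N2 at h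
  rw [star_mul] at h
  simpa only [mul_assoc] using h

/-- N5a.  `R = (1-Q) P`: positive (product of commuting positive elements, `mul_nonneg_of_comm` in
DynP), `R - R² = (1-Q)(P - P²) + (Q - Q²)P²`, `0 ≤ 1 - Q ≤ 1`, `0 ≤ P² ≤ 1`;
mean `τ(z(1-Q)P) = t τ(z(1-Q)) = t (1-s) τ z`. -/
theorem qq_mul (hD : ComFam D) {I J : Finset ℕ} (hIJ : Disjoint I J) {s t ε δ : ℝ} {Q P : B}
    (hQ : QQ D s δ I Q) (hP : QQ D t ε J P) :
    QQ D ((1 - s) * t) (ε + δ) (I ∪ J) ((1 - Q) * P) := by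
  have hQJ : Q ∈ Zc D J := mem_Zc_of_disj hD hIJ hQ.cent
  have hPI : P ∈ Zc D I := mem_Zc_of_disj hD hIJ.symm hP.cent
  have hc : Q * P = P * Q := hP.cent Q hQJ
  have hc1 : (1 - Q) * P = P * (1 - Q) := by rw [sub_mul, mul_sub, hc, one_mul, mul_one]
  have hQ0 := hQ.pos
  have hQ1 := hQ.pos'
  have hP0 := hP.pos
  have hP1 := hP.pos'
  have one_pos' : ∃ q : B, (1 : B) = star q * q := ⟨1, by rw [star_one, mul_one]⟩
  have hPP : ∃ q : B, P * (1 - P) = star q * q := N5_mul hP0 hP1 (by rw [mul_sub, sub_mul]; simp)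
  have hQQ : ∃ q : B, Q * (1 - Q) = star q * q := N5_mul hQ0 hQ1 (by rw [mul_sub, sub_mul]; simp)
  have hR0 : ∃ q : B, (1 - Q) * P = star q * q := N5_mul hQ1 hP0 hc1
  have hR1 : ∃ q : B, 1 - (1 - Q) * P = star q * q := by
    have h1 := N5_add hP1 (N5_mul hQ0 hP0 hc)
    have e : 1 - (1 - Q) * P = (1 - P) + Q * P := by rw [sub_mul, one_mul]; abel
    rw [e]; exact h1
  refine ⟨?_, N5_norm hR0 hR1, hR0, hR1, ?_, ?_, ?_⟩
  · rw [star_mul, star_sub, star_one, hQ.sa, hP.sa, hc1]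
  · intro z hz
    have hzI := Zc_anti Finset.subset_union_left hz
    have hzJ := Zc_anti Finset.subset_union_right hz
    have h1 := hQ.cent z hzI
    have h2 := hP.cent z hzJ
    calc z * ((1 - Q) * P) = (z * (1 - Q)) * P := by rw [mul_assoc]
      _ = ((1 - Q) * z) * P := by
        have e3 : z * (1 - Q) = (1 - Q) * z := by rw [mul_sub, sub_mul, h1, mul_one, one_mul]
        rw [e3]
      _ = (1 - Q) * (z * P) := by rw [mul_assoc]
      _ = (1 - Q) * P * z := by rw [h2, mul_assoc]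
  · intro τ hτ z hz
    have hzI := Zc_anti Finset.subset_union_left hz
    have hzJ := Zc_anti Finset.subset_union_right hz
    have h1 : z * (1 - Q) ∈ Zc D J := mul_mem hzJ (sub_mem (one_mem _) hQJ)
    rw [← mul_assoc, hP.mean τ hτ _ h1, mul_sub, mul_one, map_sub, hQ.mean τ hτ z hzI]
    ring
  · intro τ hτ w hw
    have hwI := Zc_anti Finset.subset_union_left hw
    have hwJ := Zc_anti Finset.subset_union_right hw
    have hcP : Q * (P * (1 - P)) = (P * (1 - P)) * Q := by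
      rw [← mul_assoc, hc, mul_assoc, mul_sub, mul_one, hc, mul_assoc, sub_mul, one_mul]
    have h1 := N5_tr hτ (N5_mul hQ0 hPP hcP) w
    have hPsq : ∃ q : B, 1 - P * P = star q * q := by
      have h2 := N5_mul hP1 (N5_add one_pos' hP0) (by
        simp only [mul_add, add_mul, sub_mul, mul_sub, one_mul, mul_one]; abel)
      have e : (1 - P) * (1 + P) = 1 - P * P := by
        simp only [mul_add, sub_mul, mul_one, one_mul]; abel
      rw [← e]; exact h2
    have hcPP : Q * (P * P) = (P * P) * Q := by rw [← mul_assoc, hc, mul_assoc, hc, mul_assoc]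
    have hcQ : (Q * (1 - Q)) * (1 - P * P) = (1 - P * P) * (Q * (1 - Q)) := by
      have e2 : Q * (1 - P * P) = (1 - P * P) * Q := by
        rw [mul_sub, sub_mul, mul_one, one_mul, hcPP]
      have e1 : (1 - Q) * (1 - P * P) = (1 - P * P) * (1 - Q) := by
        rw [sub_mul (1 : B) Q, mul_sub (1 - P * P) 1 Q, one_mul, mul_one, e2]
      rw [mul_assoc, e1, ← mul_assoc, e2, mul_assoc]
    have h3 := N5_tr hτ (N5_mul hQQ hPsq hcQ) w
    have h4 := hP.prj τ hτ w hwJ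
    have h5 := hQ.prj τ hτ w hwI
    have e : (1 - Q) * P - (1 - Q) * P * ((1 - Q) * P) =
        (P - P * P) - Q * (P * (1 - P)) + (Q - Q * Q) - (Q * (1 - Q)) * (1 - P * P) := by
      have e1 : (1 - Q) * P * ((1 - Q) * P) = (1 - Q) * (1 - Q) * (P * P) := by
        rw [mul_assoc (1 - Q) P, ← mul_assoc P (1 - Q) P, ← hc1]
        simp only [mul_assoc]
      rw [e1]
      simp only [sub_mul, mul_sub, one_mul, mul_one, mul_assoc]
      abel
    rw [e]
    have e2 : star w * ((P - P * P) - Q * (P * (1 - P)) + (Q - Q * Q) -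
        (Q * (1 - Q)) * (1 - P * P)) * w =
        star w * (P - P * P) * w - star w * (Q * (P * (1 - P))) * w +
          star w * (Q - Q * Q) * w - star w * (Q * (1 - Q) * (1 - P * P)) * w := by
      rw [mul_sub, mul_add, mul_sub, sub_mul, add_mul, sub_mul]
    rw [e2, map_sub, map_add, map_sub]
    linarith

/-- N5b.  larger block (`Zc_anti`, `cent_mono`), larger `ε` -/
theorem qq_mono {I J : Finset ℕ} (hIJ : I ⊆ J) {s ε δ : ℝ} (hε : ε ≤ δ) {Q : B}
    (hQ : QQ D s ε I Q) : QQ D s δ J Q := by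
  refine ⟨hQ.sa, hQ.norm, hQ.pos, hQ.pos', cent_mono hIJ hQ.cent, ?_, ?_⟩
  · intro τ hτ z hz
    exact hQ.mean τ hτ z (Zc_anti hIJ hz)
  · intro τ hτ w hw
    exact (hQ.prj τ hτ w (Zc_anti hIJ hw)).trans
      (mul_le_mul_of_nonneg_right hε (n2_nonneg hτ w))

variable {G : Type v} [Group G] {β : G → (B →⋆ₐ[ℂ] B)}

/-- N5c.  `√N ≤ √N + √N`. -/
theorem qq_mul_ai (hD : ComFam D) (hβ : IsAct β) (hinv : ∀ g i, ∀ a ∈ D i, β g a ∈ D i)
    {K : Finset G} {I J : Finset ℕ} (hIJ : Disjoint I J) {s t ε δ Γ : ℝ} {Q P : B}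
    (hQ : QQ D s δ I Q) (hP : QQ D t ε J P) (hΓ : 0 ≤ Γ)
    (hQ' : AI β D K Γ I Q) (hP' : AI β D K Γ J P) : AI β D K (4 * Γ) (I ∪ J) ((1 - Q) * P) := by
  intro τ hτ w hw g hg
  have hwI := Zc_anti Finset.subset_union_left hw
  have hwJ := Zc_anti Finset.subset_union_right hw
  have hPI : P ∈ Zc D I := mem_Zc_of_disj hD hIJ.symm hP.cent
  have hw0 := n2_nonneg hτ w
  have h1Q : ‖1 - Q‖ ≤ 1 := by
    refine N5_norm hQ.pos' ?_
    obtain ⟨q, hq⟩ := hQ.pos
    exact ⟨q, by rw [← hq]; abel⟩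
  have h1Q' : ‖1 - β g Q‖ ≤ 1 := by
    have e : 1 - β g Q = β g (1 - Q) := by rw [map_sub, map_one]
    rw [e]
    exact (NonUnitalStarAlgHom.norm_apply_le (β g) _).trans h1Q
  have e : (β g ((1 - Q) * P) - (1 - Q) * P) * w =
      (1 - β g Q) * ((β g P - P) * w) - (β g Q - Q) * (P * w) := by
    rw [map_mul, map_sub, map_one]
    simp only [sub_mul, mul_sub, one_mul, mul_assoc]
    abel
  have hA : N2 τ ((1 - β g Q) * ((β g P - P) * w)) ≤ Γ * N2 τ w := by
    refine (n2_mul_le hτ _ _).trans ?_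
    have h3 := hP' τ hτ w hwJ g hg
    have h4 : ‖1 - β g Q‖ ^ 2 ≤ 1 := pow_le_one₀ (norm_nonneg _) h1Q'
    calc ‖1 - β g Q‖ ^ 2 * N2 τ ((β g P - P) * w) ≤ 1 * N2 τ ((β g P - P) * w) :=
          mul_le_mul_of_nonneg_right h4 (n2_nonneg hτ _)
      _ ≤ Γ * N2 τ w := by rw [one_mul]; exact h3
  have hB : N2 τ ((β g Q - Q) * (P * w)) ≤ Γ * N2 τ w := by
    have h3 := hQ' τ hτ (P * w) (mul_mem hPI hwI) g hg
    refine h3.trans (mul_le_mul_of_nonneg_left ?_ hΓ)
    refine (n2_mul_le hτ _ _).trans ?_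
    have h4 : ‖P‖ ^ 2 ≤ 1 := pow_le_one₀ (norm_nonneg _) hP.norm
    calc ‖P‖ ^ 2 * N2 τ w ≤ 1 * N2 τ w := mul_le_mul_of_nonneg_right h4 hw0
      _ = N2 τ w := one_mul _
  rw [e]
  have hs := n2_sqrt_sub hτ ((1 - β g Q) * ((β g P - P) * w)) ((β g Q - Q) * (P * w))
  have h5 : √(N2 τ ((1 - β g Q) * ((β g P - P) * w) - (β g Q - Q) * (P * w))) ≤
      2 * √(Γ * N2 τ w) := by
    have h6 := Real.sqrt_le_sqrt hA
    have h7 := Real.sqrt_le_sqrt hB
    linarith
  have h8 := pow_le_pow_left₀ (Real.sqrt_nonneg _) h5 2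
  rw [Real.sq_sqrt (n2_nonneg hτ _), mul_pow, Real.sq_sqrt (mul_nonneg hΓ hw0)] at h8
  linarith

end Vale.Agent.P095G
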