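import Vale.Agent.P095G.N5

namespace Vale.Agent.P095G

open Vale.Agent.P095

universe u v

variable {B : Type u} [CStarAlgebra B] {D : ℕ → Set B} {G : Type v} [Group G]
  {β : G → (B →⋆ₐ[ℂ] B)}

private theorem N6_ai_mono {K : Finset G} {I J : Finset ℕ} (hIJ : I ⊆ J) {ε δ : ℝ} (hε : ε ≤ δ)
    {x : B} (hx : AI β D K ε I x) : AI β D K δ J x := by
  intro τ hτ w hw s hs
  have h1 := hx τ hτ w (Zc_anti hIJ hw) s hs
  have h2 : ε * N2 τ w ≤ δ * N2 τ w := mul_le_mul_of_nonneg_right hε (n2_nonneg hτ w)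
  exact h1.trans h2

private theorem N6_qq_one {ε : ℝ} (hε : 0 < ε) : QQ D 1 ε ∅ (1 : B) := by
  refine ⟨star_one B, ?_, ⟨1, by rw [star_one, one_mul]⟩, ⟨0, by rw [sub_self, mul_zero]⟩, ?_, ?_,
    ?_⟩
  · rcases subsingleton_or_nontrivial B with hB | hB
    · have : (1 : B) = 0 := Subsingleton.elim _ _
      rw [this, norm_zero]
      exact zero_le_one
    · rw [CStarRing.norm_one]
  · intro z _
    rw [mul_one, one_mul]
  · intro τ _ z _
    rw [mul_one, one_mul]
  · intro τ hτ w _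
    have h1 : star w * ((1 : B) - 1 * 1) * w = 0 := by
      rw [mul_one, sub_self, mul_zero, zero_mul]
    rw [h1, map_zero]
    exact mul_nonneg hε.le (n2_nonneg hτ w)

/-- N6.  Induction on `n` (`n = 1`: `P = 1`): `Q` with mean `1/(n+1)` from a block `I`, `P` for `n`
from a disjoint block `J`, new family `Q, (1-Q) P_1, .., (1-Q) P_n` (`Fin.cons`). -/
theorem nsplit (hD : ComFam D) (hβ : IsAct β) (hinv : ∀ g i, ∀ a ∈ D i, β g a ∈ D i)
    {K : Finset G}
    (h : ∀ (t : ℝ), 0 ≤ t → t ≤ 1 → ∀ (ε : ℝ) (n₀ : ℕ), 0 < ε → ∃ (I : Finset ℕ) (Q : B),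
      (∀ i ∈ I, n₀ ≤ i) ∧ QQ D t ε I Q ∧ AI β D K ε I Q) (n : ℕ) (hn : 0 < n) (ε : ℝ)
    (hε : 0 < ε) (n₀ : ℕ) :
    ∃ (I : Finset ℕ) (P : Fin n → B), (∀ i ∈ I, n₀ ≤ i) ∧ ∑ i, P i = 1 ∧
      ∀ i, QQ D (1 / n) ε I (P i) ∧ AI β D K ε I (P i) := by
  induction n, hn using Nat.le_induction generalizing ε n₀ with
  | base =>
    refine ⟨∅, fun _ => 1, by simp, by simp, fun i => ⟨?_, ?_⟩⟩
    · have h1 : (1 / ((0 + 1 : ℕ) : ℝ)) = 1 := by norm_num
      rw [h1]
      exact N6_qq_one hε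
    · intro τ hτ w _ s _
      rw [map_one, sub_self, zero_mul, n2_zero]
      exact mul_nonneg hε.le (n2_nonneg hτ w)
  | succ n hn ih =>
    have hn0 : (0 : ℝ) < n := by
      have : 0 < n := hn
      exact_mod_cast this
    have hn1 : (0 : ℝ) < (n : ℝ) + 1 := by linarith
    obtain ⟨I, Q, hI, hQ, hQA⟩ := h (1 / ((n + 1 : ℕ) : ℝ)) (by positivity) (by
      rw [div_le_one (by positivity)]
      push_cast
      linarith) (ε / 4) n₀ (by linarith)
    obtain ⟨J, P, hJ, hsum, hP⟩ := ih (ε / 4) (by linarith) (max n₀ (I.sup id + 1))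
    have hIJ : Disjoint I J := by
      rw [Finset.disjoint_left]
      intro i hi hj
      have h1 := hJ i hj
      have h2 : id i ≤ I.sup id := Finset.le_sup hi
      have h3 : i ≤ I.sup id := h2
      omega
    refine ⟨I ∪ J, Fin.cons Q fun i => (1 - Q) * P i, ?_, ?_, ?_⟩
    · intro i hi
      rcases Finset.mem_union.mp hi with h1 | h1
      · exact hI i h1
      · exact (le_max_left _ _).trans (hJ i h1)
    · rw [Fin.sum_univ_succ, Fin.cons_zero]
      have h1 : ∀ i : Fin n, (Fin.cons Q (fun i => (1 - Q) * P i) : Fin (n + 1) → B) i.succ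
          = (1 - Q) * P i := fun i => Fin.cons_succ _ _ _
      rw [Finset.sum_congr rfl fun i _ => h1 i, ← Finset.mul_sum, hsum, mul_one]
      abel
    · intro i
      refine Fin.cases ?_ (fun j => ?_) i
      · rw [Fin.cons_zero]
        exact ⟨qq_mono Finset.subset_union_left (by linarith) hQ,
          N6_ai_mono Finset.subset_union_left (by linarith) hQA⟩
      · rw [Fin.cons_succ]
        refine ⟨?_, ?_⟩
        · have h1 := qq_mul hD hIJ hQ (hP j).1
          have h2 : (1 - 1 / ((n + 1 : ℕ) : ℝ)) * (1 / (n : ℝ)) = 1 / ((n + 1 : ℕ) : ℝ) := by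
            push_cast
            field_simp
            ring
          rw [h2] at h1
          exact qq_mono subset_rfl (by linarith) h1
        · have h1 := qq_mul_ai hD hβ hinv hIJ hQ (hP j).1 (by linarith) hQA (hP j).2
          have h2 : 4 * (ε / 4) = ε := by ring
          rw [h2] at h1
          exact h1

end Vale.Agent.P095G
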