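import Vale.Agent.P095G.UltraA

open scoped ENNReal Topology
open Filter

namespace Vale.Agent.P095G

open Vale.Agent.P095 Vale.Agent.P101K

universe u v

theorem UB_lim {A : Type u} [CStarAlgebra A] [Nontrivial A] (ω : Ultrafilter ℕ)
    (τ : ℕ → (A →ₗ[ℂ] ℂ)) (h : ∀ n, TracialState (τ n)) (x : Bdd A) :
    ∃ l : ℝ, Tendsto (fun n => (τ n (x n)).re) ω (𝓝 l) := by
  have hb : ∀ n, (τ n (x n)).re ∈ Set.Icc (-‖x‖) ‖x‖ := by
    intro n
    have h1 : |(τ n (x n)).re| ≤ ‖x‖ :=
      (Complex.abs_re_le_norm _).trans ((ts_norm_le (h n) _).trans (aom_apply_le x n))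
    exact abs_le.1 h1
  obtain ⟨l, -, hl⟩ := (isCompact_Icc (a := -‖x‖) (b := ‖x‖)).ultrafilter_le_nhds
    (ω.map fun n => (τ n (x n)).re) (by
      rw [le_principal_iff]
      exact Ultrafilter.mem_map.2 (Filter.Eventually.of_forall hb))
  exact ⟨l, hl⟩

/-- UT3.  The limit trace.  Bounded real sequences converge along `ω`; well defined modulo null
sequences (`ts_norm_le`, `omk_eq_zero_iff`), `omk_surjective`. -/
theorem limit_trace {A : Type u} [CStarAlgebra A] [Nontrivial A] (ω : Ultrafilter ℕ)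
    (τ : ℕ → (A →ₗ[ℂ] ℂ)) (h : ∀ n, TracialState (τ n)) :
    ∃ φ : Aom A ω →ₗ[ℝ] ℝ, Tr φ ∧
      ∀ x : Bdd A, Tendsto (fun n => (τ n (x n)).re) ω (𝓝 (φ (omk A ω x))) := by
  choose L hL using UB_lim ω τ h
  choose s hs using omk_surjective A ω
  have huniq : ∀ (x : Bdd A) (l : ℝ), Tendsto (fun n => (τ n (x n)).re) ω (𝓝 l) → L x = l :=
    fun x l hl => tendsto_nhds_unique (hL x) hl
  have hwd : ∀ x y : Bdd A, omk A ω x = omk A ω y → L x = L y := by
    intro x y hxy
    have h1 := (omk_eq_iff x y).1 hxy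
    have h2 : Tendsto (fun n => (τ n (x n)).re - (τ n (y n)).re) ω (𝓝 0) := by
      refine squeeze_zero_norm (fun n => ?_) h1
      rw [← Complex.sub_re, ← map_sub, Real.norm_eq_abs]
      exact (Complex.abs_re_le_norm _).trans (ts_norm_le (h n) _)
    have h3 := (hL y).add h2
    rw [add_zero] at h3
    refine huniq x _ (h3.congr fun n => ?_)
    ring
  have hadd : ∀ x y, L (x + y) = L x + L y := fun x y => by
    refine huniq _ _ (((hL x).add (hL y)).congr fun n => ?_)
    rw [aom_add_apply, map_add, Complex.add_re]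
  have hsmul : ∀ (r : ℝ) (x : Bdd A), L ((r : ℂ) • x) = r * L x := fun r x => by
    refine huniq _ _ (((hL x).const_mul r).congr fun n => ?_)
    rw [aom_smul_apply, map_smul, smul_eq_mul, Complex.re_ofReal_mul]
  have hLs : ∀ x : Bdd A, L (s (omk A ω x)) = L x := fun x => hwd _ _ (hs _)
  let φ : Aom A ω →ₗ[ℝ] ℝ :=
    { toFun := fun a => L (s a)
      map_add' := fun a b => by
        rw [← hadd]
        exact hwd _ _ (by rw [hs, map_add, hs, hs])
      map_smul' := fun r a => by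
        rw [RingHom.id_apply, smul_eq_mul, ← hsmul]
        refine hwd _ _ ?_
        rw [hs, map_smul, hs]
        exact (Complex.coe_smul r a).symm }
  have hφ : ∀ x : Bdd A, φ (omk A ω x) = L x := hLs
  refine ⟨φ, ⟨?_, ?_, ?_⟩, fun x => ?_⟩
  · intro a b
    obtain ⟨x, rfl⟩ := omk_surjective A ω a
    obtain ⟨y, rfl⟩ := omk_surjective A ω b
    rw [← map_mul, ← map_mul, hφ, hφ]
    refine huniq _ _ ((hL (y * x)).congr fun n => ?_)
    rw [aom_mul_apply, aom_mul_apply, (h n).comm]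
  · intro a
    obtain ⟨x, rfl⟩ := omk_surjective A ω a
    rw [← map_star, ← map_mul, hφ]
    refine ge_of_tendsto' (hL (star x * x)) fun n => ?_
    rw [aom_mul_apply, aom_star_apply]
    exact ((h n).pos _).1
  · intro a
    obtain ⟨x, rfl⟩ := omk_surjective A ω a
    rw [← map_star, hφ, hφ]
    refine huniq _ _ ((hL x).congr fun n => ?_)
    rw [aom_star_apply, ts_star (h n)]
    simp
  · rw [hφ]
    exact hL x

end Vale.Agent.P095G
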