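import Vale.Agent.P095G.NDefs
import Vale.Agent.P095G.UltraB
import Vale.Agent.P095G.UltraD

open scoped ENNReal Topology
open Filter

namespace Vale.Agent.P095G

open Vale.Agent.P095 Vale.Agent.P101K

universe u v

/-- `p - p²` is positive for `p = q* q`, `‖q‖ ≤ 1` -/
theorem N7_pos {A : Type u} [CStarAlgebra A] [Nontrivial A] (q : A) (hq : ‖q‖ ≤ 1) :
    ∃ c : A, star q * q - star q * q * (star q * q) = star c * c := by
  letI : PartialOrder A := CStarAlgebra.spectralOrder A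
  haveI : StarOrderedRing A := CStarAlgebra.spectralOrderedRing A
  have h1 : star (star q) * star q ≤ algebraMap ℝ A (‖star q‖ ^ 2) :=
    CStarAlgebra.star_mul_le_algebraMap_norm_sq
  have h2 : algebraMap ℝ A (‖star q‖ ^ 2) ≤ algebraMap ℝ A 1 := by
    rw [algebraMap_le_algebraMap, norm_star]
    nlinarith [norm_nonneg q]
  have h3 : q * star q ≤ 1 := by
    rw [star_star] at h1
    rw [map_one] at h2
    exact h1.trans h2
  obtain ⟨s, hs⟩ := CStarAlgebra.nonneg_iff_eq_star_mul_self.1 (sub_nonneg.2 h3)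
  refine ⟨s * q, ?_⟩
  rw [star_mul]
  have h4 : star q * star s * (s * q) = star q * (star s * s) * q := by noncomm_ring
  rw [h4, ← hs]
  noncomm_ring

/-- `τ(p - p²)` is real and nonnegative -/
theorem N7_norm {A : Type u} [CStarAlgebra A] [Nontrivial A] {τ : A →ₗ[ℂ] ℂ} (h : TracialState τ) (q : A)
    (hq : ‖q‖ ≤ 1) : ‖τ (star q * q - star q * q * (star q * q))‖ =
      (τ (star q * q - star q * q * (star q * q))).re := by
  obtain ⟨c, hc⟩ := N7_pos q hq
  rw [hc]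
  have h1 := h.pos c
  have h2 : τ (star c * c) = (((τ (star c * c)).re : ℝ) : ℂ) :=
    Complex.ext (by simp) (by simp [h1.2])
  conv_lhs => rw [h2]
  rw [Complex.norm_real, Real.norm_of_nonneg h1.1]

/-- N7.  Lift `R i` to `r i` with `‖r i n‖ ≤ 1` (`aom_lift`), `p i = star (r i n) * r i n`.  As
`transfer` (UltraD.lean): finitely many kinds of failure, limit traces. -/
theorem transferN {A : Type u} [CStarAlgebra A] [Nontrivial A] (ω : Ultrafilter ℕ)
    {G : Type v} [Group G] (α : G →* (A ≃⋆ₐ[ℂ] A)) (n : ℕ) (E : Finset A) (K : Finset G) (ε : ℝ)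
    (hε : 0 < ε) (P R : Fin n → Aom A ω) (hPR : ∀ i, P i = star (R i) * R i)
    (hR1 : ∀ i, ‖R i‖ < 1) (hPF : ∀ i, P i ∈ Fom A ω) (hsum : ‖∑ i, P i - 1‖ < ε)
    (h1 : ∀ φ : Aom A ω →ₗ[ℝ] ℝ, Tr φ → ∀ i, ∀ a ∈ E, ∀ c : ℂ, ‖c‖ ≤ 1 →
      |φ (omk A ω (cst A (c • a)) * P i) - φ (omk A ω (cst A (c • a))) / n| ≤ ε / 4 * φ 1)
    (h2 : ∀ φ : Aom A ω →ₗ[ℝ] ℝ, Tr φ → ∀ i, φ (P i - P i * P i) ≤ ε / 2 * φ 1)
    (h3 : ∀ φ : Aom A ω →ₗ[ℝ] ℝ, Tr φ → ∀ i, ∀ s ∈ K,
      φ ((aomMap ω (actHom α s) (P i) - P i) * (aomMap ω (actHom α s) (P i) - P i))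
        ≤ ε / 2 * φ 1) :
    ∃ p : Fin n → A, (∀ i, ‖p i‖ ≤ 1 ∧ ∃ q : A, p i = star q * q) ∧ ‖∑ i, p i - 1‖ < ε ∧
      (∀ i, ∀ a ∈ E, ‖a * p i - p i * a‖ < ε) ∧
      ∀ τ : A →ₗ[ℂ] ℂ, TracialState τ →
        (∀ i, ∀ a ∈ E, ‖τ (a * p i) - τ a / n‖ < ε) ∧ (∀ i, ‖τ (p i - p i * p i)‖ < ε) ∧
        ∀ i, ∀ g ∈ K, ‖τ ((α g (p i) - p i) * (α g (p i) - p i))‖ < ε := by
  classical
  have hlift : ∀ i, ∃ r : Bdd A, omk A ω r = R i ∧ ∀ k, ‖r k‖ ≤ 1 := by
    intro i
    obtain ⟨a, ha, ha1⟩ := aom_lift (R i) 1 (hR1 i)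
    exact ⟨a, ha, fun k => (aom_apply_le a k).trans ha1⟩
  choose r hr hr1 using hlift
  set x : Fin n → Bdd A := fun i => star (r i) * r i with hx
  have hxk : ∀ i k, x i k = star (r i k) * r i k := fun i k => rfl
  have hxP : ∀ i, omk A ω (x i) = P i := by
    intro i
    rw [hx, map_mul, map_star, hr, hPR]
  have hxs : ∀ i k, star (x i k) = x i k := by
    intro i k
    rw [hxk, star_mul, star_star]
  by_contra hcon
  push Not at hcon
  -- the norm conditions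
  have hcomm : ∀ᶠ k in (ω : Filter ℕ), ∀ i, ∀ a ∈ E, ‖a * x i k - x i k * a‖ < ε := by
    rw [Filter.eventually_all]
    intro i
    rw [Filter.eventually_all_finset]
    intro a _
    have h4 := hPF i
    rw [← hxP, omk_mem_fom] at h4
    filter_upwards [(h4 a).eventually (gt_mem_nhds hε)] with k hk
    rwa [norm_sub_rev]
  have hsumk : ∀ k, (∑ i, x i - 1 : Bdd A) k = ∑ i, x i k - 1 := by
    intro k
    rw [aom_sub_apply]
    congr 1
    rw [lp.coeFn_sum, Finset.sum_apply]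
  have hsum' : ∀ᶠ k in (ω : Filter ℕ), ‖∑ i, x i k - 1‖ < ε := by
    have h4 : omk A ω (∑ i, x i - 1) = ∑ i, P i - 1 := by
      rw [map_sub, map_sum, map_one]
      simp only [hxP]
    have h5 := aomMk_norm_tendsto (ω := ω) (∑ i, x i - 1 : Bdd A)
    have h6 : ‖(aomMk (∑ i, x i - 1 : Bdd A) : Aom A ω)‖ < ε := by
      have h7 : (aomMk (∑ i, x i - 1 : Bdd A) : Aom A ω) = ∑ i, P i - 1 := h4
      rw [h7]
      exact hsum
    filter_upwards [h5.eventually (gt_mem_nhds h6)] with k hk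
    rwa [hsumk] at hk
  have hbad : ∀ k, ‖∑ i, x i k - 1‖ < ε → (∀ i, ∀ a ∈ E, ‖a * x i k - x i k * a‖ < ε) →
      ∃ τ : A →ₗ[ℂ] ℂ, TracialState τ ∧
      ((∀ i, ∀ a ∈ E, ‖τ (a * x i k) - τ a / n‖ < ε) →
        (∀ i, ‖τ (x i k - x i k * x i k)‖ < ε) →
        ∃ i, ∃ g ∈ K, ε ≤ ‖τ ((α g (x i k) - x i k) * (α g (x i k) - x i k))‖) := by
    intro k hk1 hk2
    refine hcon (fun i => x i k) (fun i => ⟨?_, r i k, rfl⟩) hk1 hk2
    rw [hxk]
    refine (norm_mul_le _ _).trans ?_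
    rw [norm_star]
    have := hr1 i k
    nlinarith [norm_nonneg (r i k)]
  obtain ⟨k0, hk0, hk0'⟩ := (hsum'.and hcomm).exists
  obtain ⟨τ0, hτ0, -⟩ := hbad k0 hk0 hk0'
  have hch : ∀ k, ∃ τ : A →ₗ[ℂ] ℂ, TracialState τ ∧ (‖∑ i, x i k - 1‖ < ε →
      (∀ i, ∀ a ∈ E, ‖a * x i k - x i k * a‖ < ε) →
      ((∀ i, ∀ a ∈ E, ‖τ (a * x i k) - τ a / n‖ < ε) →
        (∀ i, ‖τ (x i k - x i k * x i k)‖ < ε) →
        ∃ i, ∃ g ∈ K, ε ≤ ‖τ ((α g (x i k) - x i k) * (α g (x i k) - x i k))‖)) := by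
    intro k
    by_cases h : ‖∑ i, x i k - 1‖ < ε ∧ ∀ i, ∀ a ∈ E, ‖a * x i k - x i k * a‖ < ε
    · obtain ⟨τ, hτ, hτ2⟩ := hbad k h.1 h.2
      exact ⟨τ, hτ, fun _ _ => hτ2⟩
    · exact ⟨τ0, hτ0, fun h' h'' => absurd ⟨h', h''⟩ h⟩
  choose τ hτ hτ2 using hch
  obtain ⟨φ, hφ, hlim⟩ := limit_trace ω τ hτ
  have hφ1 : φ 1 = 1 := by
    have h4 := hlim 1
    have h5 : (fun k => (τ k ((1 : Bdd A) k)).re) = fun _ => (1 : ℝ) := by
      funext k
      have : (1 : Bdd A) k = 1 := rfl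
      rw [this, (hτ k).one, Complex.one_re]
    rw [h5, map_one] at h4
    exact tendsto_nhds_unique h4 tendsto_const_nhds
  have hE : ∀ᶠ k in (ω : Filter ℕ), ∀ i, ∀ a ∈ E, ‖τ k (a * x i k) - τ k a / n‖ < ε := by
    rw [Filter.eventually_all]
    intro i
    rw [Filter.eventually_all_finset]
    intro a ha
    have hre : ∀ c : ℂ, ‖c‖ ≤ 1 → ∀ᶠ k in (ω : Filter ℕ),
        |(c * (τ k (a * x i k) - τ k a / n)).re| < ε / 2 := by
      intro c hc
      have h4 := (hlim (cst A (c • a) * x i)).sub ((hlim (cst A (c • a))).div_const (n : ℝ))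
      rw [map_mul, hxP] at h4
      have h5 := h4.abs
      have h6 : |φ (omk A ω (cst A (c • a)) * P i) - φ (omk A ω (cst A (c • a))) / n| < ε / 2 := by
        have := h1 φ hφ i a ha c hc
        rw [hφ1, mul_one] at this
        linarith
      filter_upwards [h5.eventually (gt_mem_nhds h6)] with k hk
      have h7 : (cst A (c • a) * x i) k = c • a * x i k := rfl
      have h8 : (cst A (c • a)) k = c • a := rfl
      rw [h7, h8, smul_mul_assoc, map_smul, map_smul, smul_eq_mul, smul_eq_mul] at hk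
      have h9 : (c * (τ k (a * x i k) - τ k a / n)).re =
          (c * τ k (a * x i k)).re - (c * τ k a).re / n := by
        have : c * (τ k (a * x i k) - τ k a / n) =
            c * τ k (a * x i k) - (((n : ℝ)⁻¹ : ℝ) : ℂ) * (c * τ k a) := by
          push_cast
          ring
        rw [this, Complex.sub_re, Complex.re_ofReal_mul]
        ring
      rw [h9]
      exact hk
    filter_upwards [hre 1 (by simp), hre (-Complex.I) (by simp)] with k hk1 hk2
    refine (UD_abs _).trans_lt ?_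
    rw [one_mul] at hk1
    have h4 : (-Complex.I * (τ k (a * x i k) - τ k a / n)).re = (τ k (a * x i k) - τ k a / n).im := by
      simp [Complex.mul_re]
    rw [h4] at hk2
    linarith
  have h2' : ∀ᶠ k in (ω : Filter ℕ), ∀ i, ‖τ k (x i k - x i k * x i k)‖ < ε := by
    rw [Filter.eventually_all]
    intro i
    have h4 := hlim (x i - x i * x i)
    rw [map_sub, map_mul (omk A ω) (x i) (x i), hxP] at h4
    have h5 : φ (P i - P i * P i) < ε := by
      have := h2 φ hφ i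
      rw [hφ1, mul_one] at this
      linarith
    filter_upwards [h4.eventually (gt_mem_nhds h5)] with k hk
    have h6 : (x i - x i * x i) k = star (r i k) * r i k - star (r i k) * r i k *
      (star (r i k) * r i k) := rfl
    rw [h6] at hk
    have h7 := N7_norm (hτ k) (r i k) (hr1 i k)
    rw [hxk, h7]
    exact hk
  have hK : ∀ᶠ k in (ω : Filter ℕ), ∀ i, ∀ g ∈ K,
      ‖τ k ((α g (x i k) - x i k) * (α g (x i k) - x i k))‖ < ε := by
    rw [Filter.eventually_all]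
    intro i
    rw [Filter.eventually_all_finset]
    intro g hg
    have h4 := hlim ((bmap (actHom α g) (x i) - x i) * (bmap (actHom α g) (x i) - x i))
    rw [map_mul (omk A ω), map_sub (omk A ω), ← aomMap_omk, hxP] at h4
    have h5 : φ ((aomMap ω (actHom α g) (P i) - P i) * (aomMap ω (actHom α g) (P i) - P i)) < ε := by
      have := h3 φ hφ i g hg
      rw [hφ1, mul_one] at this
      linarith
    filter_upwards [h4.eventually (gt_mem_nhds h5)] with k hk
    have h6 : star (α g (x i k) - x i k) = α g (x i k) - x i k := by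
      rw [star_sub, ← map_star, hxs]
    rw [UD_norm_eq (hτ k) h6]
    exact hk
  obtain ⟨k, ⟨⟨⟨hn0, hn1⟩, hn2⟩, hn3⟩, hn4⟩ :=
    ((((hsum'.and hcomm).and hE).and h2').and hK).exists
  obtain ⟨i, g, hg, hg2⟩ := hτ2 k hn0 hn1 hn2 hn3
  exact absurd hg2 (not_le.2 (hn4 i g hg))

end Vale.Agent.P095G
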