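import Vale.Agent.P095G.N3
import Vale.Agent.P095G.N4
import Vale.Agent.P095G.N6
import Vale.Agent.P095G.N7
import Vale.Agent.P095G.FinalAm

open scoped ENNReal Topology
open Filter

namespace Vale.Agent.P095G

open Vale.Agent.P095 Vale.Agent.P101K

universe u v

theorem N8_abs {B : Type u} [CStarAlgebra B] {φ : B →ₗ[ℝ] ℝ} (h : Tr φ) (z : B) :
    |φ z| ≤ ‖z‖ * φ 1 := by
  have h1 := tr_cs' h 1 z
  have h2 : N2 φ (1 : B) = φ 1 := by
    unfold N2
    rw [star_one, one_mul]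
  have h0 : 0 ≤ φ 1 := by
    rw [← h2]
    exact n2_nonneg h 1
  have h3 : √(N2 φ z) ≤ ‖z‖ * √(φ 1) := by
    refine Real.sqrt_le_iff.mpr ⟨by positivity, ?_⟩
    rw [mul_pow, Real.sq_sqrt h0]
    have h4 := n2_mul_le h 1 z
    rwa [mul_one, h2] at h4
  rw [star_one, one_mul, h2] at h1
  refine h1.trans ?_
  have h5 : √(φ 1) * √(N2 φ z) ≤ √(φ 1) * (‖z‖ * √(φ 1)) :=
    mul_le_mul_of_nonneg_left h3 (Real.sqrt_nonneg _)
  refine h5.trans (le_of_eq ?_)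
  have h6 := Real.mul_self_sqrt h0
  calc √(φ 1) * (‖z‖ * √(φ 1)) = ‖z‖ * (√(φ 1) * √(φ 1)) := by ring
    _ = ‖z‖ * φ 1 := by rw [h6]

/-- N8.  As `main_of_propP` (Final.lean): `aom_good`, `ampS`, `qq_of_goodS`, `qq_ai` with `s = 2t - 1`,
`nsplit` give `P i = star (q i) * q i`; `R i = (1 - δ) • q i`, `P' i = (1 - δ)² • P i`, `δ` small
(`|φ x| ≤ ‖x‖ φ 1` from `tr_cs'`, `n2_mul_le`); `transferN`. -/
theorem main_N (A : Type u) [CStarAlgebra A] [Nontrivial A]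
    [TopologicalSpace.SeparableSpace A]
    (ω : Ultrafilter ℕ) (hω : (ω : Filter ℕ) ≤ atTop) (h : ZStable A ω) (G : Type v) [Group G]
    [Countable G] (hP : PropP.{u, v} G) (α : G →* (A ≃⋆ₐ[ℂ] A)) : UnifGamma α := by
  classical
  intro n hn E K ε hε
  obtain ⟨D, c, hc, hc1, hcom, hinv, hgood, hDF⟩ := aom_good A ω hω α h
  have hact := aomMap_isAct A ω α
  have hQ : ∀ (t : ℝ), 0 ≤ t → t ≤ 1 → ∀ (ε : ℝ) (n₀ : ℕ), 0 < ε →
      ∃ (I : Finset ℕ) (Q : Aom A ω), (∀ i ∈ I, n₀ ≤ i) ∧ QQ D t ε I Q ∧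
        AI (fun g => aomMap ω (actHom α g)) D K ε I Q := by
    intro t ht0 ht1 ε' n₀ hε'
    obtain ⟨I, V, hI, hV, hAI⟩ := ampS (K := K) hcom hact hinv hc (by linarith)
      (fun ε'' n₁ hε'' => hP (Aom A ω) D hcom (fun g => aomMap ω (actHom α g)) hact
        hinv c hc hc1 hgood K ε'' n₁ hε'') (2 * t - 1) (abs_le.2 ⟨by linarith, by linarith⟩)
      ε' hε' n₀
    refine ⟨I, (1 / 2 : ℝ) • (1 + V), hI, ?_, qq_ai hε'.le hAI⟩
    have h1 := qq_of_goodS hε'.le hV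
    have h2 : (1 + (2 * t - 1)) / 2 = t := by ring
    rwa [h2] at h1
  obtain ⟨I, P, -, hsum, hPI⟩ := nsplit hcom hact hinv hQ n hn (ε / 4) (by linarith) 0
  have hpos : ∀ i, ∃ q : Aom A ω, P i = star q * q := fun i => (hPI i).1.pos
  choose q hq using hpos
  have hq1 : ∀ i, ‖q i‖ ≤ 1 := by
    intro i
    have h1 := (hPI i).1.norm
    rw [hq i, CStarRing.norm_star_mul_self] at h1
    nlinarith [norm_nonneg (q i)]
  -- the constants
  obtain ⟨M, hM⟩ : ∃ M : ℝ, M = ‖(1 : Aom A ω)‖ + ∑ a ∈ E, ‖a‖ + 1 := ⟨_, rfl⟩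
  have hS0 : 0 ≤ ∑ a ∈ E, ‖a‖ := Finset.sum_nonneg fun a _ => norm_nonneg a
  have hM1 : 1 ≤ M := by
    have := norm_nonneg (1 : Aom A ω)
    linarith
  have hMo : ‖(1 : Aom A ω)‖ ≤ M := by linarith
  have hME : ∀ a ∈ E, ‖a‖ ≤ M := by
    intro a ha
    have h1 := Finset.single_le_sum (f := fun a : A => ‖a‖) (fun a _ => norm_nonneg a) ha
    have := norm_nonneg (1 : Aom A ω)
    linarith
  obtain ⟨δ, hδ0, hδ1, hδM⟩ : ∃ δ : ℝ, 0 < δ ∧ δ ≤ 1 / 2 ∧ 16 * (δ * M) ≤ ε := by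
    refine ⟨min (1 / 2) (ε / (16 * M)), lt_min (by norm_num) (by positivity), min_le_left _ _, ?_⟩
    have h1 := mul_le_mul_of_nonneg_right (min_le_right (1 / 2) (ε / (16 * M)))
      (show (0 : ℝ) ≤ M by linarith)
    have h2 : ε / (16 * M) * M = ε / 16 := by
      field_simp
    linarith
  obtain ⟨ρ, hρ⟩ : ∃ ρ : ℝ, ρ = (1 - δ) * (1 - δ) := ⟨_, rfl⟩
  have hρ0 : 0 ≤ ρ := by rw [hρ]; nlinarith
  have hρ1 : ρ ≤ 1 := by rw [hρ]; nlinarith
  have hκ : 1 - ρ ≤ 2 * δ := by rw [hρ]; nlinarith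
  have hκ0 : 0 ≤ 1 - ρ := by linarith
  have hκM : (1 - ρ) * M ≤ ε / 8 := by
    have := mul_le_mul_of_nonneg_right hκ (show (0 : ℝ) ≤ M by linarith)
    linarith
  have hκ1 : 1 - ρ ≤ ε / 8 := by nlinarith
  have hsm : ∀ (φ : Aom A ω →ₗ[ℝ] ℝ) (x : Aom A ω), φ (((ρ : ℝ) : ℂ) • x) = ρ * φ x := by
    intro φ x
    have h2 : ((ρ : ℝ) : ℂ) • x = (ρ : ℝ) • x := Complex.coe_smul _ _
    rw [h2, map_smul, smul_eq_mul]
  have hZ : ∀ a : A, omk A ω (cst A a) ∈ Zc D I := FIN_mem hDF I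
  have h1Z : (1 : Aom A ω) ∈ Zc D I := one_mem _
  refine transferN ω α n E K ε hε (fun i => ((ρ : ℝ) : ℂ) • P i)
    (fun i => (((1 - δ : ℝ)) : ℂ) • q i) ?_ ?_ ?_ ?_ ?_ ?_ ?_
  · intro i
    have h2 : star (((1 - δ : ℝ)) : ℂ) = (((1 - δ : ℝ)) : ℂ) := Complex.conj_ofReal _
    rw [star_smul, h2, smul_mul_smul_comm, hq i, ← Complex.ofReal_mul, ← hρ]
  · intro i
    rw [norm_smul, Complex.norm_real, Real.norm_eq_abs, abs_of_nonneg (by linarith)]
    have := mul_le_mul_of_nonneg_left (hq1 i) (show 0 ≤ 1 - δ by linarith)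
    linarith
  · intro i
    have h2 : P i ∈ Fom A ω := by
      unfold Fom
      rw [StarSubalgebra.mem_centralizer_iff]
      rintro _ ⟨a, rfl⟩
      exact ⟨(hPI i).1.cent _ (hZ a), (hPI i).1.cent _ (star_mem (hZ a))⟩
    exact (Fom A ω).smul_mem h2 _
  · have h2 : ∑ i, ((ρ : ℝ) : ℂ) • P i - 1 = (((ρ - 1 : ℝ)) : ℂ) • (1 : Aom A ω) := by
      rw [← Finset.smul_sum, hsum, Complex.ofReal_sub, sub_smul, Complex.ofReal_one, one_smul]
    rw [h2, norm_smul, Complex.norm_real, Real.norm_eq_abs, abs_sub_comm, abs_of_nonneg hκ0]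
    have := mul_le_mul_of_nonneg_left hMo hκ0
    linarith
  · intro φ hφ i a ha c' hc'
    rw [mul_smul_comm, hsm, (hPI i).1.mean φ hφ _ (hZ _)]
    have h0 : 0 ≤ φ 1 := by
      have := hφ.pos 1
      rwa [star_one, one_mul] at this
    obtain ⟨z, hz⟩ : ∃ z, z = omk A ω (cst A (c' • a)) := ⟨_, rfl⟩
    rw [← hz]
    have h3 : ‖z‖ ≤ M := by
      have h4 : ‖cst A (c' • a)‖ ≤ ‖c' • a‖ := by
        refine lp.norm_le_of_forall_le (norm_nonneg _) fun k => ?_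
        exact le_rfl
      have h5 : ‖z‖ ≤ ‖cst A (c' • a)‖ := by
        rw [hz]
        exact aomMk_norm_le _
      have h6 : ‖c' • a‖ ≤ ‖a‖ := by
        rw [norm_smul]
        have := norm_nonneg a
        nlinarith
      exact h5.trans (h4.trans (h6.trans (hME a ha)))
    have h4 := N8_abs hφ z
    have hn1 : (1 : ℝ) ≤ n := by exact_mod_cast hn
    have h5 : ρ * (1 / n * φ z) - φ z / n = -((1 - ρ) * (φ z / n)) := by ring
    rw [h5, abs_neg, abs_mul, abs_of_nonneg hκ0, abs_div, abs_of_nonneg (by linarith : (0 : ℝ) ≤ n)]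
    have h6 : |φ z| / n ≤ |φ z| := div_le_self (abs_nonneg _) hn1
    calc (1 - ρ) * (|φ z| / n) ≤ (1 - ρ) * (M * φ 1) := by
          refine mul_le_mul_of_nonneg_left (h6.trans (h4.trans ?_)) hκ0
          exact mul_le_mul_of_nonneg_right h3 h0
      _ = ((1 - ρ) * M) * φ 1 := by ring
      _ ≤ ε / 4 * φ 1 := by
          refine mul_le_mul_of_nonneg_right ?_ h0
          linarith
  · intro φ hφ i
    have h0 : 0 ≤ φ 1 := by
      have := hφ.pos 1
      rwa [star_one, one_mul] at this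
    have h3 := (hPI i).1.prj φ hφ 1 h1Z
    unfold N2 at h3
    rw [star_one, one_mul, mul_one, mul_one] at h3
    have h4 := (hPI i).1.mean φ hφ 1 h1Z
    rw [one_mul] at h4
    have hn1 : (1 : ℝ) ≤ n := by exact_mod_cast hn
    have h5 : φ (P i) ≤ φ 1 := by
      rw [h4]
      have : (1 : ℝ) / n ≤ 1 := by
        rw [div_le_one (by linarith)]
        exact hn1
      nlinarith
    have h6 : 0 ≤ φ (P i) := by
      rw [h4]
      positivity
    rw [smul_mul_smul_comm, map_sub, mul_smul, hsm, hsm, hsm]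
    rw [map_sub] at h3
    have h7 : ρ * φ (P i) - ρ * (ρ * φ (P i * P i)) =
        ρ * ρ * (φ (P i) - φ (P i * P i)) + ρ * (1 - ρ) * φ (P i) := by ring
    rw [h7]
    have h8 : ρ * ρ * (φ (P i) - φ (P i * P i)) ≤ ε / 4 * φ 1 := by
      calc ρ * ρ * (φ (P i) - φ (P i * P i)) ≤ ρ * ρ * (ε / 4 * φ 1) :=
            mul_le_mul_of_nonneg_left h3 (by positivity)
        _ ≤ 1 * (ε / 4 * φ 1) := mul_le_mul_of_nonneg_right (by nlinarith) (by positivity)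
        _ = ε / 4 * φ 1 := one_mul _
    have h9 : ρ * (1 - ρ) * φ (P i) ≤ ε / 8 * φ 1 := by
      calc ρ * (1 - ρ) * φ (P i) ≤ ε / 8 * φ (P i) :=
            mul_le_mul_of_nonneg_right (by nlinarith) h6
        _ ≤ ε / 8 * φ 1 := mul_le_mul_of_nonneg_left h5 (by linarith)
    nlinarith
  · intro φ hφ i s hs
    have h0 : 0 ≤ φ 1 := by
      have := hφ.pos 1
      rwa [star_one, one_mul] at this
    have h2 := (hPI i).2 φ hφ 1 h1Z s hs
    unfold N2 at h2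
    obtain ⟨y, hy⟩ : ∃ y, y = aomMap ω (actHom α s) (P i) - P i := ⟨_, rfl⟩
    have hys : star y = y := by
      rw [hy, star_sub, ← map_star, (hPI i).1.sa]
    rw [← hy, mul_one, star_one, one_mul, hys] at h2
    have h4 : aomMap ω (actHom α s) (((ρ : ℝ) : ℂ) • P i) - ((ρ : ℝ) : ℂ) • P i =
        ((ρ : ℝ) : ℂ) • y := by
      rw [map_smul, hy, smul_sub]
    have h5 : 0 ≤ φ (y * y) := by
      have := hφ.pos y
      rwa [hys] at this
    rw [h4, smul_mul_smul_comm, mul_smul, hsm, hsm, ← mul_assoc]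
    calc ρ * ρ * φ (y * y) ≤ 1 * φ (y * y) :=
          mul_le_mul_of_nonneg_right (by nlinarith) h5
      _ ≤ ε / 4 * φ 1 := by rw [one_mul]; exact h2
      _ ≤ ε / 2 * φ 1 := mul_le_mul_of_nonneg_right (by linarith) h0

theorem main_amN (A : Type u) [CStarAlgebra A] [Nontrivial A] [TopologicalSpace.SeparableSpace A]
    (ω : Ultrafilter ℕ) (hω : (ω : Filter ℕ) ≤ atTop) (h : ZStable A ω) (G : Type v) [Group G]
    [Countable G] (hG : Folner G) (α : G →* (A ≃⋆ₐ[ℂ] A)) : UnifGamma α :=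
  main_N A ω hω h G (propP_folner G hG) α

end Vale.Agent.P095G
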