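import Vale.Agent.P095G.UDefs
import Vale.Agent.P095G.Tb
import Vale.Agent.P095G.Zb

namespace Vale.Agent.P095G

open Vale.Agent.P095

universe u v

/-- equivariant uniform property Gamma, for all `n`: for all finite sets `E`, `K` and `ε > 0` there
are positive contractions `p_1, .., p_n` which almost commute with `E`, add up to `1` (up to `ε`)
and, in the uniform tracial 2-norm, are almost projections, almost invariant under `K`, and satisfy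
`τ(a p_i) ≈ τ(a) / n` -/
def UnifGamma {A : Type u} [CStarAlgebra A] {G : Type v} [Group G] (α : G →* (A ≃⋆ₐ[ℂ] A)) :
    Prop :=
  ∀ n : ℕ, 0 < n → ∀ (E : Finset A) (K : Finset G) (ε : ℝ), 0 < ε → ∃ p : Fin n → A,
    (∀ i, ‖p i‖ ≤ 1 ∧ ∃ q : A, p i = star q * q) ∧ ‖∑ i, p i - 1‖ < ε ∧
    (∀ i, ∀ a ∈ E, ‖a * p i - p i * a‖ < ε) ∧
    ∀ τ : A →ₗ[ℂ] ℂ, TracialState τ →
      (∀ i, ∀ a ∈ E, ‖τ (a * p i) - τ a / n‖ < ε) ∧ (∀ i, ‖τ (p i - p i * p i)‖ < ε) ∧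
      ∀ i, ∀ g ∈ K, ‖τ ((α g (p i) - p i) * (α g (p i) - p i))‖ < ε

variable {B : Type u} [CStarAlgebra B]

/-- as `Good` (norm at most `1`), with conditional mean `s` -/
structure GoodS (D : ℕ → Set B) (s c : ℝ) (I : Finset ℕ) (x : B) : Prop where
  sa : star x = x
  norm : ‖x‖ ≤ 1
  cent : ∀ z ∈ Zc D I, z * x = x * z
  mean : ∀ τ, Tr τ → ∀ z ∈ Zc D I, τ (z * x) = s * τ z
  var : ∀ τ, Tr τ → ∀ w ∈ Zc D I, c * N2 τ w ≤ N2 τ (x * w)

/-- an almost projection with conditional mean `t` -/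
structure QQ (D : ℕ → Set B) (t ε : ℝ) (I : Finset ℕ) (x : B) : Prop where
  sa : star x = x
  norm : ‖x‖ ≤ 1
  pos : ∃ q : B, x = star q * q
  pos' : ∃ q : B, 1 - x = star q * q
  cent : ∀ z ∈ Zc D I, z * x = x * z
  mean : ∀ τ, Tr τ → ∀ z ∈ Zc D I, τ (z * x) = t * τ z
  prj : ∀ τ, Tr τ → ∀ w ∈ Zc D I, τ (star w * (x - x * x) * w) ≤ ε * N2 τ w

end Vale.Agent.P095G
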