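import Vale.Agent.P095G.QDefs

open scoped ENNReal Topology
open Filter

namespace Vale.Agent.P095G

open Vale.Agent.P095 Vale.Agent.P101K

universe u v

section QAaux

variable {A : Type u} [NonUnitalCStarAlgebra A]

/-- extension of a functional on `A` to the unitization by `0` on the scalars -/
noncomputable def QA_ext (τ : A →ₗ[ℂ] ℂ) (x : UA A) : ℂ := τ x.snd

theorem QA_ext_inr (τ : A →ₗ[ℂ] ℂ) (a : A) : QA_ext τ (a : UA A) = τ a := rfl

theorem QA_ext_add (τ : A →ₗ[ℂ] ℂ) (x y : UA A) : QA_ext τ (x + y) = QA_ext τ x + QA_ext τ y := by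
  unfold QA_ext
  rw [Unitization.snd_add, map_add]

theorem QA_ext_sub (τ : A →ₗ[ℂ] ℂ) (x y : UA A) : QA_ext τ (x - y) = QA_ext τ x - QA_ext τ y := by
  unfold QA_ext
  rw [sub_eq_add_neg, Unitization.snd_add, Unitization.snd_neg, map_add, map_neg, ← sub_eq_add_neg]

theorem QA_ext_smul (τ : A →ₗ[ℂ] ℂ) (r : ℂ) (x : UA A) : QA_ext τ (r • x) = r * QA_ext τ x := by
  unfold QA_ext
  rw [Unitization.snd_smul, map_smul, smul_eq_mul]

theorem QA_ext_comm {τ : A →ₗ[ℂ] ℂ} (h : TrFun τ) (x y : UA A) :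
    QA_ext τ (x * y) = QA_ext τ (y * x) := by
  unfold QA_ext
  rw [Unitization.snd_mul, Unitization.snd_mul, map_add, map_add, map_add, map_add,
    h.comm x.snd y.snd, add_comm (τ (x.fst • y.snd))]

theorem QA_ext_bdd {τ : A →ₗ[ℂ] ℂ} (h : TrFun τ) (w : UA A) (hw : w.fst = 0) :
    ‖QA_ext τ w‖ ≤ ‖w‖ := by
  have e : w = ((w.snd : A) : UA A) := by
    ext
    · rw [hw, Unitization.fst_inr]
    · rw [Unitization.snd_inr]
  have e2 : ‖w‖ = ‖w.snd‖ := by
    conv_lhs => rw [e]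
    exact Unitization.norm_inr (𝕜 := ℂ) w.snd
  rw [e2]
  exact h.bdd _

theorem QA_herm {τ : A →ₗ[ℂ] ℂ} (h : TrFun τ) (a b : A) :
    (τ (star b * a)).re = (τ (star a * b)).re := by
  have h1 := (h.pos (a + Complex.I • b)).2
  have e : star (a + Complex.I • b) * (a + Complex.I • b) =
      star a * a + star b * b + Complex.I • (star a * b) - Complex.I • (star b * a) := by
    rw [star_add, star_smul, add_mul, mul_add, mul_add, smul_mul_assoc, smul_mul_smul_comm,
      mul_smul_comm]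
    have e1 : star Complex.I = -Complex.I := Complex.conj_I
    rw [e1, neg_mul, Complex.I_mul_I, neg_neg, one_smul, neg_smul]
    abel
  rw [e, map_sub, map_add, map_add, map_smul, map_smul, smul_eq_mul, smul_eq_mul,
    Complex.sub_im, Complex.add_im, Complex.add_im, Complex.I_mul_im, Complex.I_mul_im,
    (h.pos a).2, (h.pos b).2] at h1
  linarith

/-- the compressed functional -/
noncomputable def QA_t (τ : A →ₗ[ℂ] ℂ) (b : A) (x : UA A) : ℝ :=
  (QA_ext τ (star (b : UA A) * x * (b : UA A))).re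

theorem QA_t_add (τ : A →ₗ[ℂ] ℂ) (b : A) (x y : UA A) :
    QA_t τ b (x + y) = QA_t τ b x + QA_t τ b y := by
  unfold QA_t
  rw [mul_add, add_mul, QA_ext_add, Complex.add_re]

theorem QA_t_sub (τ : A →ₗ[ℂ] ℂ) (b : A) (x y : UA A) :
    QA_t τ b (x - y) = QA_t τ b x - QA_t τ b y := by
  unfold QA_t
  rw [mul_sub, sub_mul, QA_ext_sub, Complex.sub_re]

theorem QA_t_smul (τ : A →ₗ[ℂ] ℂ) (b : A) (r : ℝ) (x : UA A) :
    QA_t τ b ((r : ℂ) • x) = r * QA_t τ b x := by
  unfold QA_t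
  rw [mul_smul_comm, smul_mul_assoc, QA_ext_smul, Complex.re_ofReal_mul]

theorem QA_fst (b : A) (x : UA A) : (star (b : UA A) * x).fst = 0 := by
  rw [Unitization.fst_mul, ← Unitization.inr_star, Unitization.fst_inr, zero_mul]

theorem QA_t_bdd {τ : A →ₗ[ℂ] ℂ} (h : TrFun τ) (b : A) (x : UA A) :
    |QA_t τ b x| ≤ ‖b‖ * ‖x * (b : UA A)‖ := by
  unfold QA_t
  refine (Complex.abs_re_le_norm _).trans ?_
  rw [mul_assoc]
  refine (QA_ext_bdd h _ (QA_fst b _)).trans ?_
  refine (norm_mul_le _ _).trans ?_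
  rw [norm_star, Unitization.norm_inr]

theorem QA_t_bdd' {τ : A →ₗ[ℂ] ℂ} (h : TrFun τ) (b : A) (x : UA A) :
    |QA_t τ b x| ≤ ‖b‖ * (‖x‖ * ‖b‖) := by
  refine (QA_t_bdd h b x).trans (mul_le_mul_of_nonneg_left ?_ (norm_nonneg _))
  refine (norm_mul_le _ _).trans ?_
  rw [Unitization.norm_inr]

theorem QA_t_comm {τ : A →ₗ[ℂ] ℂ} (h : TrFun τ) (b : A) (x y : UA A) :
    |QA_t τ b (x * y) - QA_t τ b (y * x)| ≤
      ‖x * ((b * star b : A) : UA A) - ((b * star b : A) : UA A) * x‖ * ‖y‖ := by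
  have e0 : ∀ w : UA A, QA_ext τ (star (b : UA A) * w * (b : UA A)) =
      QA_ext τ (((b * star b : A) : UA A) * w) := by
    intro w
    rw [QA_ext_comm h, ← mul_assoc, Unitization.inr_mul, Unitization.inr_star]
  have e1 : QA_t τ b (x * y) - QA_t τ b (y * x) =
      (QA_ext τ ((((b * star b : A) : UA A) * x - x * ((b * star b : A) : UA A)) * y)).re := by
    unfold QA_t
    rw [e0, e0, sub_mul, QA_ext_sub, Complex.sub_re, ← mul_assoc, ← mul_assoc,
      QA_ext_comm h (((b * star b : A) : UA A) * y) x, ← mul_assoc]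
  rw [e1]
  refine (Complex.abs_re_le_norm _).trans ?_
  refine (QA_ext_bdd h _ ?_).trans ?_
  · rw [Unitization.fst_mul, sub_eq_add_neg, Unitization.fst_add, Unitization.fst_neg,
      Unitization.fst_mul, Unitization.fst_mul, Unitization.fst_inr, zero_mul, mul_zero, neg_zero,
      add_zero, zero_mul]
  · rw [← norm_neg (_ - _), neg_sub] 
    exact norm_mul_le _ _

theorem QA_t_pos {τ : A →ₗ[ℂ] ℂ} (h : TrFun τ) (b : A) (x : UA A) :
    0 ≤ QA_t τ b (star x * x) := by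
  have e : x * (b : UA A) = (((x * (b : UA A)).snd : A) : UA A) := by
    ext
    · rw [Unitization.fst_mul, Unitization.fst_inr, Unitization.fst_inr, mul_zero]
    · rw [Unitization.snd_inr]
  have e2 : star (b : UA A) * (star x * x) * (b : UA A) =
      ((star (x * (b : UA A)).snd * (x * (b : UA A)).snd : A) : UA A) := by
    rw [Unitization.inr_mul, Unitization.inr_star, ← e, star_mul]
    simp only [mul_assoc]
  unfold QA_t
  rw [e2, QA_ext_inr]
  exact (h.pos _).1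

theorem QA_t_star {τ : A →ₗ[ℂ] ℂ} (h : TrFun τ) (b : A) (x : UA A) :
    QA_t τ b (star x) = QA_t τ b x := by
  have e : x * (b : UA A) = (((x * (b : UA A)).snd : A) : UA A) := by
    ext
    · rw [Unitization.fst_mul, Unitization.fst_inr, Unitization.fst_inr, mul_zero]
    · rw [Unitization.snd_inr]
  have e1 : star (b : UA A) * x * (b : UA A) =
      ((star b * (x * (b : UA A)).snd : A) : UA A) := by
    rw [Unitization.inr_mul, Unitization.inr_star, ← e, mul_assoc]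
  have e2 : star (b : UA A) * star x * (b : UA A) =
      ((star (x * (b : UA A)).snd * b : A) : UA A) := by
    rw [Unitization.inr_mul, Unitization.inr_star, ← e, star_mul]
  unfold QA_t
  rw [e1, e2, QA_ext_inr, QA_ext_inr]
  exact QA_herm h _ _

end QAaux

theorem QA_lim {A : Type u} [NonUnitalCStarAlgebra A] (ω : Ultrafilter ℕ)
    (τ : ℕ → (A →ₗ[ℂ] ℂ)) (h : ∀ n, TrFun (τ n)) (b : A) (x : CS A ω) :
    ∃ l : ℝ, Tendsto (fun n => QA_t (τ n) b ((x : Bdd (UA A)) n)) ω (𝓝 l) := by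
  have hb : ∀ n, QA_t (τ n) b ((x : Bdd (UA A)) n) ∈
      Set.Icc (-(‖b‖ * (‖(x : Bdd (UA A))‖ * ‖b‖))) (‖b‖ * (‖(x : Bdd (UA A))‖ * ‖b‖)) := by
    intro n
    have h1 : |QA_t (τ n) b ((x : Bdd (UA A)) n)| ≤ ‖b‖ * (‖(x : Bdd (UA A))‖ * ‖b‖) := by
      refine (QA_t_bdd' (h n) b _).trans ?_
      have := aom_apply_le (x : Bdd (UA A)) n
      gcongr
    exact abs_le.1 h1
  obtain ⟨l, -, hl⟩ := (isCompact_Icc (a := -(‖b‖ * (‖(x : Bdd (UA A))‖ * ‖b‖)))
    (b := ‖b‖ * (‖(x : Bdd (UA A))‖ * ‖b‖))).ultrafilter_le_nhds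
    (ω.map fun n => QA_t (τ n) b ((x : Bdd (UA A)) n)) (by
      rw [le_principal_iff]
      exact Ultrafilter.mem_map.2 (Filter.Eventually.of_forall hb))
  exact ⟨l, hl⟩

/-- QA (limit traces on `F_ω(A)`).  For `X ∈ CS A ω` with `X n = λ + a'` put
`f n = re τ_n (λ • (b* b) + b* a' b)`; bounded, so it converges along `ω`; it vanishes in the limit if
`q X = 0` (`X n * b → 0`); tracial: `b* X Y b ≈ (b* X b) Y`-type estimates with the commutators
`[X, b], [Y, b*] → 0` and `τ (u v) = τ (v u)` for `u ∈ A`, `v ∈ UA`. Compare UltraB.lean. -/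
theorem limit_F {A : Type u} [NonUnitalCStarAlgebra A] {ω : Ultrafilter ℕ} {F : Type u}
    [CStarAlgebra F] (M : FMod A ω F) (τ : ℕ → (A →ₗ[ℂ] ℂ)) (h : ∀ n, TrFun (τ n)) (b : A) :
    ∃ φ : F →ₗ[ℝ] ℝ, Tr φ ∧
      (∀ (x : ℕ → A) (hx : CenS A ω x),
        Tendsto (fun n => (τ n (star b * x n * b)).re) ω (𝓝 (φ (M.q (csOf x hx))))) ∧
      Tendsto (fun n => (τ n (star b * b)).re) ω (𝓝 (φ 1)) := by
  choose L hL using QA_lim ω τ h b
  have hsurj : ∀ y : F, ∃ x : CS A ω, M.q x = y := fun y => by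
    obtain ⟨x, hx, -⟩ := M.lift y (‖y‖ + 1) (by linarith)
    exact ⟨x, hx⟩
  choose s hs using hsurj
  have huniq : ∀ (x : CS A ω) (l : ℝ),
      Tendsto (fun n => QA_t (τ n) b ((x : Bdd (UA A)) n)) ω (𝓝 l) → L x = l :=
    fun x l hl => tendsto_nhds_unique (hL x) hl
  have hwd : ∀ x y : CS A ω, M.q x = M.q y → L x = L y := by
    intro x y hxy
    have h0 : M.q (x - y) = 0 := by rw [map_sub, hxy, sub_self]
    have h1 := ((M.ker (x - y)).1 h0 b).const_mul ‖b‖
    rw [mul_zero] at h1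
    have h2 : Tendsto (fun n => QA_t (τ n) b ((x : Bdd (UA A)) n) -
        QA_t (τ n) b ((y : Bdd (UA A)) n)) ω (𝓝 0) := by
      refine squeeze_zero_norm (fun n => ?_) h1
      rw [← QA_t_sub, Real.norm_eq_abs]
      exact QA_t_bdd (h n) b _
    have h3 := (hL y).add h2
    rw [add_zero] at h3
    refine huniq x _ (h3.congr fun n => ?_)
    ring
  have hadd : ∀ x y, L (x + y) = L x + L y := fun x y => by
    refine huniq _ _ (((hL x).add (hL y)).congr fun n => ?_)
    rw [← QA_t_add]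
    rfl
  have hsmul : ∀ (r : ℝ) (x : CS A ω), L ((r : ℂ) • x) = r * L x := fun r x => by
    refine huniq _ _ (((hL x).const_mul r).congr fun n => ?_)
    rw [← QA_t_smul]
    rfl
  have hLs : ∀ x : CS A ω, L (s (M.q x)) = L x := fun x => hwd _ _ (hs _)
  let φ : F →ₗ[ℝ] ℝ :=
    { toFun := fun a => L (s a)
      map_add' := fun a b => by
        rw [← hadd]
        exact hwd _ _ (by rw [hs, map_add, hs, hs])
      map_smul' := fun r a => by
        rw [RingHom.id_apply, smul_eq_mul, ← hsmul]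
        refine hwd _ _ ?_
        rw [hs, map_smul, hs]
        exact (Complex.coe_smul r a).symm }
  have hφ : ∀ x : CS A ω, φ (M.q x) = L x := hLs
  refine ⟨φ, ⟨?_, ?_, ?_⟩, fun x hx => ?_, ?_⟩
  · intro y z
    obtain ⟨x, rfl⟩ : ∃ x, M.q x = y := ⟨_, hs y⟩
    obtain ⟨y, rfl⟩ : ∃ x, M.q x = z := ⟨_, hs z⟩
    rw [← map_mul, ← map_mul, hφ, hφ]
    have h1 := (x.2 (b * star b)).mul_const ‖(y : Bdd (UA A))‖
    rw [zero_mul] at h1
    have h2 : Tendsto (fun n => QA_t (τ n) b (((x * y : CS A ω) : Bdd (UA A)) n) -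
        QA_t (τ n) b (((y * x : CS A ω) : Bdd (UA A)) n)) ω (𝓝 0) := by
      refine squeeze_zero_norm (fun n => ?_) h1
      rw [Real.norm_eq_abs]
      refine (QA_t_comm (h n) b ((x : Bdd (UA A)) n) ((y : Bdd (UA A)) n)).trans ?_
      exact mul_le_mul_of_nonneg_left (aom_apply_le (y : Bdd (UA A)) n) (norm_nonneg _)
    have h3 := (hL (y * x)).add h2
    rw [add_zero] at h3
    refine huniq (x * y) _ (h3.congr fun n => ?_)
    ring
  · intro y
    obtain ⟨x, rfl⟩ : ∃ x, M.q x = y := ⟨_, hs y⟩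
    rw [← map_star, ← map_mul, hφ]
    exact ge_of_tendsto' (hL (star x * x)) fun n => QA_t_pos (h n) b ((x : Bdd (UA A)) n)
  · intro y
    obtain ⟨x, rfl⟩ : ∃ x, M.q x = y := ⟨_, hs y⟩
    rw [← map_star, hφ, hφ]
    exact huniq _ _ ((hL x).congr fun n => (QA_t_star (h n) b ((x : Bdd (UA A)) n)).symm)
  · rw [hφ]
    refine (hL (csOf x hx)).congr fun n => ?_
    unfold QA_t
    rw [csOf_apply, ← Unitization.inr_star, ← Unitization.inr_mul, ← Unitization.inr_mul,
      QA_ext_inr]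
  · have h1 : φ 1 = L 1 := by
      have h4 := hφ 1
      rwa [map_one M.q] at h4
    rw [h1]
    refine (hL 1).congr fun n => ?_
    have h2 : ((1 : CS A ω) : Bdd (UA A)) n = 1 := rfl
    unfold QA_t
    rw [h2, mul_one, ← Unitization.inr_star, ← Unitization.inr_mul, QA_ext_inr]

end Vale.Agent.P095G
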