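import Vale.Agent.P095G.QDefs
import Vale.Agent.P095G.Base
import Vale.Agent.P101K.NoChar

open scoped ENNReal Topology
open Filter

namespace Vale.Agent.P095G

open Vale.Agent.P095 Vale.Agent.P101K

universe u v

/-- QB1.  As `fom_sqz` (AomA.lean), with `fixHom_to`, `f_eqCopies`, `hasCopies_fix`, `eqZN_iff`. -/
theorem f_sqz {A : Type u} [NonUnitalCStarAlgebra A] [Nontrivial A]
    [TopologicalSpace.SeparableSpace A] {ω : Ultrafilter ℕ} (hω : (ω : Filter ℕ) ≤ atTop)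
    {F : Type u} [CStarAlgebra F] (M : FMod A ω F) {G : Type v} [Group G] [Countable G]
    (α : G →* (A ≃⋆ₐ[ℂ] A)) (h : EqZ A ω α ⊥) : ∃ y : F, y * y = 0 ∧ Full {y} := by
  have hnt := fmod_nontrivial M
  have hC : HasCopies (fixAlg (fAct M α) ((⊥ : Subgroup G) : Set G)) :=
    hasCopies_fix _ (f_eqCopies hω M α) _
  have hE : IsEmpty (fixAlg (fAct M α) ((⊥ : Subgroup G) : Set G) →⋆ₐ[ℂ] ℂ) :=
    (eqZN_iff hω M α ⊥).1 h
  let _ : PartialOrder (fixAlg (fAct M α) ((⊥ : Subgroup G) : Set G)) :=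
    CStarAlgebra.spectralOrder _
  have _ : StarOrderedRing (fixAlg (fAct M α) ((⊥ : Subgroup G) : Set G)) :=
    CStarAlgebra.spectralOrderedRing _
  obtain ⟨z, hz, hz1, hzf⟩ := exists_z hC (exists_witness hE)
  obtain ⟨N, hN, hf⟩ := far_full z hz hz1 hzf 7
  obtain ⟨E, h01, h10, h0, h1⟩ := exists_orth hC z hz N hN hf
  obtain ⟨y, hy, n, p, x, p', hx, hs⟩ := exists_sqz hC E h01 h10 h0 h1
  refine ⟨y, ?_, n, fun i => p i, fun i => x i, fun i => p' i, fun i => ?_, ?_⟩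
  · exact congrArg Subtype.val hy
  · exact congrArg Subtype.val (hx i)
  · have := congrArg (fixAlg (fAct M α) ((⊥ : Subgroup G) : Set G)).subtype hs
    rw [map_sum, map_one] at this
    exact this

/-- QB2.  As `aom_good` (AomB.lean), with `D i = {θ i t}` in `F`, `f_eqCopies`, `base_good`. -/
theorem f_good {A : Type u} [NonUnitalCStarAlgebra A] [Nontrivial A]
    [TopologicalSpace.SeparableSpace A] {ω : Ultrafilter ℕ} (hω : (ω : Filter ℕ) ≤ atTop)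
    {F : Type u} [CStarAlgebra F] (M : FMod A ω F) {G : Type v} [Group G] [Countable G]
    (α : G →* (A ≃⋆ₐ[ℂ] A)) (h : EqZ A ω α ⊥) :
    ∃ (D : ℕ → Set F) (c : ℝ), 0 < c ∧ c ≤ 1 / 10 ∧ ComFam D ∧
      (∀ g i, ∀ a ∈ D i, fAct M α g a ∈ D i) ∧ (∀ i, ∃ x, Good D 1 c {i} x) := by
  obtain ⟨y, hyy, n, p, x, p', hx, hsum⟩ := f_sqz hω M α h
  have hsum' : ∑ k, p k * y * p' k = 1 := by
    rw [← hsum]
    refine Finset.sum_congr rfl fun k _ => ?_
    rw [Set.mem_singleton_iff.1 (hx k)]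
  set X : Set F := {y} ∪ (Set.range p ∪ Set.range p') with hX
  have hXc : X.Countable :=
    (Set.countable_singleton y).union ((Set.countable_range p).union (Set.countable_range p'))
  obtain ⟨C, hC, hXC, θ, hcomm, hbd, heq⟩ := f_eqCopies hω M α X hXc
  have hyC : y ∈ C := hXC (Or.inl rfl)
  have hpC : ∀ k, p k ∈ C := fun k => hXC (Or.inr (Or.inl ⟨k, rfl⟩))
  have hpC' : ∀ k, p' k ∈ C := fun k => hXC (Or.inr (Or.inr ⟨k, rfl⟩))
  choose Mb hMb using hbd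
  have hMb0 : ∀ b, 0 ≤ Mb b := fun b => (norm_nonneg _).trans (hMb b 0)
  set M' : ℝ := Mb ⟨y, hyC⟩ + (∑ k, Mb ⟨p k, hpC k⟩ + ∑ k, Mb ⟨p' k, hpC' k⟩) with hM
  have hs1 : 0 ≤ ∑ k, Mb ⟨p k, hpC k⟩ := Finset.sum_nonneg fun k _ => hMb0 _
  have hs2 : 0 ≤ ∑ k, Mb ⟨p' k, hpC' k⟩ := Finset.sum_nonneg fun k _ => hMb0 _
  have hM1 : Mb ⟨y, hyC⟩ ≤ M' := by linarith
  have hM2 : ∀ k, Mb ⟨p k, hpC k⟩ ≤ M' := fun k => by
    have := Finset.single_le_sum (f := fun k => Mb ⟨p k, hpC k⟩) (fun k _ => hMb0 _)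
      (Finset.mem_univ k)
    have h3 := hMb0 ⟨y, hyC⟩
    linarith
  have hM3 : ∀ k, Mb ⟨p' k, hpC' k⟩ ≤ M' := fun k => by
    have := Finset.single_le_sum (f := fun k => Mb ⟨p' k, hpC' k⟩) (fun k _ => hMb0 _)
      (Finset.mem_univ k)
    have h3 := hMb0 ⟨y, hyC⟩
    linarith
  obtain ⟨c, hc0, hc1, hgood⟩ := base_good.{u} n M'
  set D : ℕ → Set F := fun i => {b | ∃ t : C, b = θ i t} with hD
  refine ⟨D, c, hc0, hc1, ?_, ?_, ?_⟩
  · rintro i j hij _ ⟨s, rfl⟩ _ ⟨t, rfl⟩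
    have h1 : θ i s * θ j t = θ j t * θ i s := hcomm i j hij s t
    have h2 : θ i (star s) * θ j t = θ j t * θ i (star s) := hcomm i j hij (star s) t
    rw [map_star] at h2
    exact ⟨h1, h2⟩
  · rintro g i _ ⟨s, rfl⟩
    exact ⟨⟨fAct M α g s, hC g s s.2⟩, heq i g s⟩
  · intro i
    refine hgood F D i (θ i ⟨y, hyC⟩) (fun k => θ i ⟨p k, hpC k⟩)
      (fun k => θ i ⟨p' k, hpC' k⟩) ?_ ?_ ?_ ?_ ?_ ?_ ?_ ?_
    · rw [← map_mul]
      have : (⟨y, hyC⟩ : C) * ⟨y, hyC⟩ = 0 := Subtype.ext hyy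
      rw [this, map_zero]
    · rw [← map_one (θ i)]
      have : (1 : C) = ∑ k, (⟨p k, hpC k⟩ : C) * ⟨y, hyC⟩ * ⟨p' k, hpC' k⟩ := by
        refine Subtype.ext ?_
        rw [AddSubmonoidClass.coe_finsetSum]
        exact hsum'.symm
      rw [this, map_sum]
      refine Finset.sum_congr rfl fun k _ => ?_
      rw [map_mul, map_mul]
    · exact (hMb _ i).trans hM1
    · exact fun k => (hMb _ i).trans (hM2 k)
    · exact fun k => (hMb _ i).trans (hM3 k)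
    · exact ⟨_, rfl⟩
    · exact fun k => ⟨_, rfl⟩
    · exact fun k => ⟨_, rfl⟩

end Vale.Agent.P095G
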