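import Vale.Agent.P095G.QB
import Vale.Agent.P095G.N3
import Vale.Agent.P095G.N4
import Vale.Agent.P095G.N6

open scoped ENNReal Topology
open Filter

namespace Vale.Agent.P095G

open Vale.Agent.P095 Vale.Agent.P101K

universe u v

/-- QC.  `f_good`, `PropP`, `ampS`, `qq_of_goodS`, `qq_ai` (`s = 2 t - 1`), `nsplit`; then take
`z = w = 1` in `QQ` and `AI`. -/
theorem f_split {A : Type u} [NonUnitalCStarAlgebra A] [Nontrivial A]
    [TopologicalSpace.SeparableSpace A] {ω : Ultrafilter ℕ} (hω : (ω : Filter ℕ) ≤ atTop)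
    {F : Type u} [CStarAlgebra F] (M : FMod A ω F) {G : Type v} [Group G] [Countable G]
    (hP : PropP.{u, v} G)
    (α : G →* (A ≃⋆ₐ[ℂ] A)) (h : EqZ A ω α ⊥) (n : ℕ) (hn : 0 < n) (K : Finset G) (ε : ℝ)
    (hε : 0 < ε) :
    ∃ P q : Fin n → F, ∑ i, P i = 1 ∧ ∀ i, star (P i) = P i ∧ ‖P i‖ ≤ 1 ∧ P i = star (q i) * q i ∧
      ∀ φ : F →ₗ[ℝ] ℝ, Tr φ → φ (P i) = φ 1 / n ∧ φ (P i - P i * P i) ≤ ε * φ 1 ∧
        ∀ s ∈ K, φ ((fAct M α s (P i) - P i) * (fAct M α s (P i) - P i)) ≤ ε * φ 1 := by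
  obtain ⟨D, c, hc, hc1, hcom, hinv, hgood⟩ := f_good hω M α h
  have hact := fAct_isAct M α
  have hA : ∀ (ε' : ℝ) (n₀ : ℕ), 0 < ε' → ∃ (I : Finset ℕ) (V : F), (∀ i ∈ I, n₀ ≤ i) ∧
      Good D 1 c I V ∧ AI (fAct M α) D K ε' I V := fun ε' n₀ hε' =>
    hP F D hcom (fAct M α) hact hinv c hc hc1 hgood K ε' n₀ hε'
  have hQ : ∀ (t : ℝ), 0 ≤ t → t ≤ 1 → ∀ (ε' : ℝ) (n₀ : ℕ), 0 < ε' →
      ∃ (I : Finset ℕ) (Q : F), (∀ i ∈ I, n₀ ≤ i) ∧ QQ D t ε' I Q ∧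
        AI (fAct M α) D K ε' I Q := by
    intro t ht0 ht1 ε' n₀ hε'
    obtain ⟨I, V, hI, hV, hVa⟩ := ampS hcom hact hinv hc (by linarith) hA (2 * t - 1)
      (abs_le.2 ⟨by linarith, by linarith⟩) ε' hε' n₀
    refine ⟨I, (1 / 2 : ℝ) • (1 + V), hI, ?_, qq_ai hε'.le hVa⟩
    have h1 := qq_of_goodS hε'.le hV
    have h2 : (1 + (2 * t - 1)) / 2 = t := by ring
    rw [h2] at h1
    exact h1
  obtain ⟨I, P, -, hsum, hPP⟩ := nsplit hcom hact hinv hQ n hn ε hε 0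
  choose q hq using fun i => (hPP i).1.pos
  have h1Z : (1 : F) ∈ Zc D I := one_mem _
  refine ⟨P, q, hsum, fun i => ⟨(hPP i).1.sa, (hPP i).1.norm, hq i, fun φ hφ =>
    ⟨?_, ?_, fun s hs => ?_⟩⟩⟩
  · have h2 := (hPP i).1.mean φ hφ 1 h1Z
    rw [one_mul] at h2
    rw [h2]
    ring
  · have h2 := (hPP i).1.prj φ hφ 1 h1Z
    unfold N2 at h2
    rw [star_one, one_mul, mul_one, mul_one] at h2
    exact h2
  · have h2 := (hPP i).2 φ hφ 1 h1Z s hs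
    unfold N2 at h2
    have h3 : star (fAct M α s (P i) - P i) = fAct M α s (P i) - P i := by
      rw [star_sub, ← map_star, (hPP i).1.sa]
    rw [mul_one, star_one, one_mul, h3] at h2
    exact h2

end Vale.Agent.P095G
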