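import Vale.Agent.P095G.QDefs

open scoped ENNReal Topology
open Filter

namespace Vale.Agent.P095G

open Vale.Agent.P095 Vale.Agent.P101K

universe u v

/-- QD.  As `exists_rep` (NRep.lean) with the norm bound (`M.lift`, `‖e X e‖ ≤ ‖X‖`). -/
theorem exists_rep_le {A : Type u} [NonUnitalCStarAlgebra A] [TopologicalSpace.SeparableSpace A]
    {ω : Ultrafilter ℕ} (hω : (ω : Filter ℕ) ≤ atTop) {F : Type u} [CStarAlgebra F]
    (M : FMod A ω F) (y : F) (hy : ‖y‖ < 1) :
    ∃ (x : ℕ → A) (hx : CenS A ω x), M.q (csOf x hx) = y ∧ ∀ n, ‖x n‖ ≤ 1 := by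
  obtain ⟨e, he1, hes, hea⟩ := exists_apu A
  obtain ⟨X, hXy, hXn⟩ := M.lift y 1 hy
  subst hXy
  have hmul : ∀ (z : UA A) (b : A),
      z * (b : UA A) = ((z.fst • b + z.snd * b : A) : UA A) := by
    intro z b
    induction z using Unitization.ind with
    | inl_add_inr r a =>
      rw [add_mul, ← Unitization.inr_mul, Unitization.inl_mul_inr]
      simp
  have hbd : ∀ n, ‖(X : Bdd (UA A)) n‖ ≤ ‖(X : Bdd (UA A))‖ := fun n => aom_apply_le _ n
  have hin : ∀ b : A, ‖(b : UA A)‖ = ‖b‖ := Unitization.norm_inr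
  have hea' : ∀ a : A, Tendsto (fun n => ‖e n * a - a‖) ω (𝓝 0) := fun a => (hea a).mono_left hω
  have hea2 : ∀ a : A, Tendsto (fun n => ‖a - a * e n‖) ω (𝓝 0) := by
    intro a
    refine (hea' (star a)).congr fun n => ?_
    rw [← norm_star, star_sub, star_mul, star_star, hes, norm_sub_rev]
  obtain ⟨x, hxdef⟩ : ∃ x : ℕ → A, ∀ n, (x n : UA A) = (X : Bdd (UA A)) n * (e n : UA A) :=
    ⟨fun n => ((X : Bdd (UA A)) n).fst • e n + ((X : Bdd (UA A)) n).snd * e n,
      fun n => (hmul _ _).symm⟩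
  have hxn : ∀ n, ‖x n‖ ≤ ‖(X : Bdd (UA A))‖ := by
    intro n
    rw [← hin, hxdef]
    refine (norm_mul_le _ _).trans ?_
    rw [hin]
    exact (mul_le_mul (hbd n) (he1 n) (norm_nonneg _) (norm_nonneg _)).trans (mul_one _).le
  have hxc : CenS A ω x := by
    refine ⟨⟨_, hxn⟩, fun a => ?_⟩
    have h1 := ((hea' a).const_mul ‖(X : Bdd (UA A))‖).add
      (((hea2 a).const_mul ‖(X : Bdd (UA A))‖).add (X.2 a))
    rw [mul_zero, add_zero, add_zero] at h1
    refine squeeze_zero (fun n => norm_nonneg _) (fun n => ?_) h1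
    have e1 : ((x n * a - a * x n : A) : UA A)
        = (X : Bdd (UA A)) n * ((e n * a - a : A) : UA A)
          + ((X : Bdd (UA A)) n * ((a - a * e n : A) : UA A)
            + ((X : Bdd (UA A)) n * (a : UA A) - (a : UA A) * (X : Bdd (UA A)) n) * (e n : UA A)) := by
      rw [Unitization.inr_sub, Unitization.inr_mul, Unitization.inr_mul, hxdef,
        Unitization.inr_sub, Unitization.inr_mul, Unitization.inr_sub, Unitization.inr_mul]
      noncomm_ring
    rw [← hin, e1]
    refine (norm_add_le _ _).trans (add_le_add ?_ ((norm_add_le _ _).trans (add_le_add ?_ ?_)))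
    · refine (norm_mul_le _ _).trans ?_
      rw [hin]
      exact mul_le_mul_of_nonneg_right (hbd n) (norm_nonneg _)
    · refine (norm_mul_le _ _).trans ?_
      rw [hin]
      exact mul_le_mul_of_nonneg_right (hbd n) (norm_nonneg _)
    · refine (norm_mul_le _ _).trans ?_
      rw [hin (e n)]
      exact (mul_le_mul_of_nonneg_left (he1 n) (norm_nonneg _)).trans (mul_one _).le
  refine ⟨x, hxc, ?_, fun n => (hxn n).trans hXn⟩
  rw [← sub_eq_zero, ← map_sub, M.ker]
  intro a
  have h1 := (hea' a).const_mul ‖(X : Bdd (UA A))‖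
  rw [mul_zero] at h1
  refine squeeze_zero (fun n => norm_nonneg _) (fun n => ?_) h1
  have e1 : ((csOf x hxc - X : CS A ω) : Bdd (UA A)) n * (a : UA A)
      = (X : Bdd (UA A)) n * ((e n * a - a : A) : UA A) := by
    have e2 : ((csOf x hxc - X : CS A ω) : Bdd (UA A)) n
        = (x n : UA A) - (X : Bdd (UA A)) n := rfl
    rw [e2, hxdef, Unitization.inr_sub, Unitization.inr_mul]
    noncomm_ring
  rw [e1]
  refine (norm_mul_le _ _).trans ?_
  rw [hin]
  exact mul_le_mul_of_nonneg_right (hbd n) (norm_nonneg _)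

end Vale.Agent.P095G
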