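import Vale.Agent.P095G.NDefs
import Vale.Agent.P095.NFinal

open scoped ENNReal Topology
open Filter

namespace Vale.Agent.P095G

open Vale.Agent.P095

universe u v

/-- a positive tracial functional of norm at most `1` on a (not necessarily unital) C*-algebra -/
structure TrFun {A : Type u} [NonUnitalCStarAlgebra A] (τ : A →ₗ[ℂ] ℂ) : Prop where
  pos : ∀ a, 0 ≤ (τ (star a * a)).re ∧ (τ (star a * a)).im = 0
  comm : ∀ a b, τ (a * b) = τ (b * a)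
  bdd : ∀ a, ‖τ a‖ ≤ ‖a‖

/-- equivariant uniform property Gamma, for all `n`, for a C*-algebra which need not be unital -/
def UnifGammaF {A : Type u} [NonUnitalCStarAlgebra A] {G : Type v} [Group G]
    (α : G →* (A ≃⋆ₐ[ℂ] A)) : Prop :=
  ∀ n : ℕ, 0 < n → ∀ (E : Finset A) (K : Finset G) (ε : ℝ), 0 < ε → ∃ p : Fin n → A,
    (∀ i, ‖p i‖ ≤ 1 ∧ ∃ q : A, p i = star q * q) ∧ (∀ a ∈ E, ‖(∑ i, p i) * a - a‖ < ε) ∧
    (∀ i, ∀ a ∈ E, ‖a * p i - p i * a‖ < ε) ∧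
    ∀ τ : A →ₗ[ℂ] ℂ, TrFun τ → ∀ a ∈ E,
      (∀ i, ‖τ (star a * p i * a) - τ (star a * a) / n‖ < ε) ∧
      (∀ i, ‖τ (star a * (p i - p i * p i) * a)‖ < ε) ∧
      ∀ i, ∀ g ∈ K, ‖τ (star a * ((α g (p i) - p i) * (α g (p i) - p i)) * a)‖ < ε

end Vale.Agent.P095G
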