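import Vale.Agent.P095G.QA
import Vale.Agent.P095G.QD
import Vale.Agent.P095.GN3

open scoped ENNReal Topology
open Filter

namespace Vale.Agent.P095G

open Vale.Agent.P095 Vale.Agent.P101K

universe u v

/-- `0` is allowed; so `BTrace` from `TrFun` -/
theorem QE_im {A : Type u} [NonUnitalCStarAlgebra A] [TopologicalSpace.SeparableSpace A] {τ : A →ₗ[ℂ] ℂ} (h : TrFun τ) {b x : A}
    (hx : star x = x) : ‖τ (star b * x * b)‖ = |(τ (star b * x * b)).re| := by
  have hB : BTrace τ := ⟨h.bdd, h.pos, h.comm⟩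
  exact bt_im hB hx

theorem QE_sum_csOf {A : Type u} [NonUnitalCStarAlgebra A] {ω : Ultrafilter ℕ} {n : ℕ}
    (x : Fin n → ℕ → A) (hx : ∀ i, CenS A ω (x i)) (k : ℕ) :
    ((∑ i, csOf (x i) (hx i) : CS A ω) : Bdd (UA A)) k = ((∑ i, x i k : A) : UA A) := by
  have e1 : ((∑ i, csOf (x i) (hx i) : CS A ω) : Bdd (UA A)) =
      ∑ i, (csOf (x i) (hx i) : Bdd (UA A)) := by
    exact AddSubmonoidClass.coe_finsetSum _ _
  rw [e1, lp.coeFn_sum, Finset.sum_apply]
  have e2 : ((∑ i, x i k : A) : UA A) = ∑ i, ((x i k : A) : UA A) :=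
    map_sum (Unitization.inrNonUnitalStarAlgHom ℂ A) _ _
  rw [e2]
  exact Finset.sum_congr rfl fun i _ => csOf_apply _ _ _

theorem QE_sum {A : Type u} [NonUnitalCStarAlgebra A]
    {ω : Ultrafilter ℕ} {F : Type u} [CStarAlgebra F]
    (M : FMod A ω F) (n : ℕ) (E : Finset A) (ε C : ℝ) (hε : 0 < ε) (hC : 0 < C)
    (hE : ∀ a ∈ E, ‖a‖ ^ 2 ≤ C ∧ ‖a‖ ≤ C) (P : Fin n → F) (x : Fin n → ℕ → A)
    (hx : ∀ i, CenS A ω (x i)) (hxq : ∀ i, M.q (csOf (x i) (hx i)) = P i)
    (hsum : ‖∑ i, P i - 1‖ ≤ ε / (4 * C)) :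
    ∀ᶠ k in (ω : Filter ℕ), ∀ a ∈ E, ‖(∑ i, x i k) * a - a‖ < ε := by
  rw [Filter.eventually_all_finset]
  intro a ha
  have hlt : ‖∑ i, P i - 1‖ < ε / (2 * C) := by
    refine hsum.trans_lt ?_
    exact div_lt_div_of_pos_left hε (by positivity) (by linarith)
  obtain ⟨Y, hY, hYn⟩ := M.lift _ _ hlt
  have h0 : M.q (∑ i, csOf (x i) (hx i) - 1 - Y) = 0 := by
    rw [map_sub, map_sub, map_sum, map_one, hY]
    simp only [hxq]
    rw [sub_self]
  have h1 := (M.ker _).1 h0 a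
  filter_upwards [h1.eventually (gt_mem_nhds (half_pos hε))] with k hk
  have e1 : ((∑ i, csOf (x i) (hx i) - 1 - Y : CS A ω) : Bdd (UA A)) k =
      ((∑ i, x i k : A) : UA A) - 1 - (Y : Bdd (UA A)) k := by
    rw [← QE_sum_csOf x hx k]
    rfl
  rw [e1] at hk
  have e2 : (((∑ i, x i k) * a - a : A) : UA A) =
      (((∑ i, x i k : A) : UA A) - 1 - (Y : Bdd (UA A)) k) * (a : UA A) +
        (Y : Bdd (UA A)) k * (a : UA A) := by
    rw [Unitization.inr_sub, Unitization.inr_mul, sub_mul, sub_mul, one_mul]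
    abel
  have e3 : ‖(∑ i, x i k) * a - a‖ = ‖(((∑ i, x i k) * a - a : A) : UA A)‖ :=
    (Unitization.norm_inr (𝕜 := ℂ) _).symm
  rw [e3, e2]
  refine (norm_add_le _ _).trans_lt ?_
  have h2 : ‖(Y : Bdd (UA A)) k * (a : UA A)‖ ≤ ε / 2 := by
    refine (norm_mul_le _ _).trans ?_
    rw [Unitization.norm_inr]
    calc ‖(Y : Bdd (UA A)) k‖ * ‖a‖ ≤ ε / (2 * C) * C := by
          refine mul_le_mul ((aom_apply_le (Y : Bdd (UA A)) k).trans hYn) (hE a ha).2
            (norm_nonneg _) (by positivity)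
      _ = ε / 2 := by
          field_simp
  linarith

theorem transferF {A : Type u} [NonUnitalCStarAlgebra A] [TopologicalSpace.SeparableSpace A]
    {ω : Ultrafilter ℕ} (hω : (ω : Filter ℕ) ≤ atTop) {F : Type u} [CStarAlgebra F]
    (M : FMod A ω F) {G : Type v} [Group G] (α : G →* (A ≃⋆ₐ[ℂ] A)) (n : ℕ) (E : Finset A)
    (K : Finset G) (ε C : ℝ) (hε : 0 < ε) (hC : 0 < C) (hE : ∀ a ∈ E, ‖a‖ ^ 2 ≤ C ∧ ‖a‖ ≤ C)
    (P R : Fin n → F) (hPR : ∀ i, P i = star (R i) * R i)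
    (hR1 : ∀ i, ‖R i‖ < 1) (hsum : ‖∑ i, P i - 1‖ ≤ ε / (4 * C))
    (h1 : ∀ φ : F →ₗ[ℝ] ℝ, Tr φ → ∀ i, |φ (P i) - φ 1 / n| ≤ ε / (4 * C) * φ 1)
    (h2 : ∀ φ : F →ₗ[ℝ] ℝ, Tr φ → ∀ i, |φ (P i - P i * P i)| ≤ ε / (4 * C) * φ 1)
    (h3 : ∀ φ : F →ₗ[ℝ] ℝ, Tr φ → ∀ i, ∀ s ∈ K,
      φ ((fAct M α s (P i) - P i) * (fAct M α s (P i) - P i)) ≤ ε / (4 * C) * φ 1) :
    ∃ p : Fin n → A, (∀ i, ‖p i‖ ≤ 1 ∧ ∃ q : A, p i = star q * q) ∧
      (∀ a ∈ E, ‖(∑ i, p i) * a - a‖ < ε) ∧ (∀ i, ∀ a ∈ E, ‖a * p i - p i * a‖ < ε) ∧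
      ∀ τ : A →ₗ[ℂ] ℂ, TrFun τ → ∀ a ∈ E,
        (∀ i, ‖τ (star a * p i * a) - τ (star a * a) / n‖ < ε) ∧
        (∀ i, ‖τ (star a * (p i - p i * p i) * a)‖ < ε) ∧
        ∀ i, ∀ g ∈ K, ‖τ (star a * ((α g (p i) - p i) * (α g (p i) - p i)) * a)‖ < ε := by
  classical
  have hlift : ∀ i, ∃ (r : ℕ → A) (hr : CenS A ω r), M.q (csOf r hr) = R i ∧ ∀ k, ‖r k‖ ≤ 1 :=
    fun i => exists_rep_le hω M (R i) (hR1 i)
  choose r hrc hrq hr1 using hlift
  obtain ⟨x, hxk⟩ : ∃ x : Fin n → ℕ → A, ∀ i k, x i k = star (r i k) * r i k :=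
    ⟨fun i k => star (r i k) * r i k, fun _ _ => rfl⟩
  have hxf : ∀ i, x i = fun k => star (r i k) * r i k := fun i => funext (hxk i)
  have hx : ∀ i, CenS A ω (x i) := by
    intro i
    rw [hxf]
    exact (hrc i).star.mul (hrc i)
  have hxq : ∀ i, M.q (csOf (x i) (hx i)) = P i := by
    intro i
    have e1 : csOf (x i) (hx i) = star (csOf (r i) (hrc i)) * csOf (r i) (hrc i) := by
      have e2 := csOf_mul (hrc i).star (hrc i) ((hrc i).star.mul (hrc i))
      rw [csOf_star (hrc i)] at e2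
      rw [← e2]
      congr 1
      exact hxf i
    rw [e1, map_mul, map_star, hrq, hPR]
  have hxs : ∀ i k, star (x i k) = x i k := by
    intro i k
    rw [hxk, star_mul, star_star]
  have hx1 : ∀ i k, ‖x i k‖ ≤ 1 := by
    intro i k
    rw [hxk]
    refine (norm_mul_le _ _).trans ?_
    rw [norm_star]
    have := hr1 i k
    nlinarith [norm_nonneg (r i k)]
  by_contra hcon
  push Not at hcon
  have hcomm : ∀ᶠ k in (ω : Filter ℕ), ∀ i, ∀ a ∈ E, ‖a * x i k - x i k * a‖ < ε := by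
    rw [Filter.eventually_all]
    intro i
    rw [Filter.eventually_all_finset]
    intro a _
    filter_upwards [((hx i).2 a).eventually (gt_mem_nhds hε)] with k hk
    rwa [norm_sub_rev]
  have hsum' := QE_sum M n E ε C hε hC hE P x hx hxq hsum
  have h0 : TrFun (0 : A →ₗ[ℂ] ℂ) :=
    ⟨fun a => by simp, fun a b => by simp, fun a => by simp⟩
  have hch : ∀ k, ∃ τ : A →ₗ[ℂ] ℂ, TrFun τ ∧ ((∀ a ∈ E, ‖(∑ i, x i k) * a - a‖ < ε) →
      (∀ i, ∀ a ∈ E, ‖a * x i k - x i k * a‖ < ε) →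
      ∃ a ∈ E, (∀ i, ‖τ (star a * x i k * a) - τ (star a * a) / n‖ < ε) →
        (∀ i, ‖τ (star a * (x i k - x i k * x i k) * a)‖ < ε) →
        ∃ i, ∃ g ∈ K, ε ≤ ‖τ (star a * ((α g (x i k) - x i k) * (α g (x i k) - x i k)) * a)‖) := by
    intro k
    by_cases h : (∀ a ∈ E, ‖(∑ i, x i k) * a - a‖ < ε) ∧
        ∀ i, ∀ a ∈ E, ‖a * x i k - x i k * a‖ < ε
    · obtain ⟨τ, hτ, hτ2⟩ := hcon (fun i => x i k) (fun i => ⟨hx1 i k, r i k, hxk i k⟩) h.1 h.2
      exact ⟨τ, hτ, fun _ _ => hτ2⟩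
    · exact ⟨0, h0, fun h' h'' => absurd ⟨h', h''⟩ h⟩
  choose τ hτ hτ2 using hch
  have hall : ∀ᶠ k in (ω : Filter ℕ), ∀ a ∈ E,
      (∀ i, ‖τ k (star a * x i k * a) - τ k (star a * a) / n‖ < ε) ∧
      (∀ i, ‖τ k (star a * (x i k - x i k * x i k) * a)‖ < ε) ∧
      ∀ i, ∀ g ∈ K,
        ‖τ k (star a * ((α g (x i k) - x i k) * (α g (x i k) - x i k)) * a)‖ < ε := by
    rw [Filter.eventually_all_finset]
    intro a ha
    obtain ⟨φ, hφ, hlim, hlim1⟩ := limit_F M τ hτ a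
    have hφ0 : 0 ≤ φ 1 := by
      have := hφ.pos 1
      rwa [star_one, one_mul] at this
    have hφ1 : φ 1 ≤ C := by
      refine le_trans (le_of_tendsto' hlim1 fun k => ?_) (hE a ha).1
      refine (Complex.re_le_norm _).trans (((hτ k).bdd _).trans ?_)
      rw [CStarRing.norm_star_mul_self, sq]
    have hδ : ε / (4 * C) * φ 1 < ε := by
      calc ε / (4 * C) * φ 1 ≤ ε / (4 * C) * C := by gcongr
        _ = ε / 4 := by field_simp
        _ < ε := by linarith
    refine Filter.Eventually.and ?_ (Filter.Eventually.and ?_ ?_)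
    · rw [Filter.eventually_all]
      intro i
      have h4 := ((hlim (x i) (hx i)).sub (hlim1.div_const (n : ℝ))).abs
      rw [hxq] at h4
      filter_upwards [h4.eventually (gt_mem_nhds ((h1 φ hφ i).trans_lt hδ))] with k hk
      have e1 : τ k (star a * x i k * a) - τ k (star a * a) / n =
          (((τ k (star a * x i k * a)).re - (τ k (star a * a)).re / n : ℝ) : ℂ) := by
        have e2 : star a * x i k * a = star (r i k * a) * (r i k * a) := by
          rw [star_mul, hxk]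
          noncomm_ring
        have i1 := ((hτ k).pos a).2
        have i2 := ((hτ k).pos (r i k * a)).2
        rw [← e2] at i2
        have e3 : τ k (star a * x i k * a) = (((τ k (star a * x i k * a)).re : ℝ) : ℂ) :=
          Complex.ext (by simp) (by simp [i2])
        have e4 : τ k (star a * a) = (((τ k (star a * a)).re : ℝ) : ℂ) :=
          Complex.ext (by simp) (by simp [i1])
        conv_lhs => rw [e3, e4]
        push_cast
        rfl
      rw [e1, Complex.norm_real, Real.norm_eq_abs]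
      exact hk
    · rw [Filter.eventually_all]
      intro i
      have hneg : CenS A ω (fun k => (-1 : ℂ) • (x i k * x i k)) := ((hx i).mul (hx i)).smul _
      have hy : CenS A ω (fun k => x i k + (-1 : ℂ) • (x i k * x i k)) := (hx i).add hneg
      have hyq : M.q (csOf _ hy) = P i - P i * P i := by
        rw [csOf_add (hx i) hneg, csOf_smul _ ((hx i).mul (hx i)), csOf_mul (hx i) (hx i),
          map_add, map_smul, map_mul, hxq, neg_smul, one_smul, sub_eq_add_neg]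
      have h4 := (hlim _ hy).abs
      rw [hyq] at h4
      filter_upwards [h4.eventually (gt_mem_nhds ((h2 φ hφ i).trans_lt hδ))] with k hk
      have e0 : x i k + (-1 : ℂ) • (x i k * x i k) = x i k - x i k * x i k := by
        rw [neg_smul, one_smul, sub_eq_add_neg]
      rw [e0] at hk
      have h6 : star (x i k - x i k * x i k) = x i k - x i k * x i k := by
        rw [star_sub, star_mul, hxs]
      rw [QE_im (hτ k) h6]
      exact hk
    · rw [Filter.eventually_all]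
      intro i
      rw [Filter.eventually_all_finset]
      intro g hg
      obtain ⟨hgx, hgq⟩ := gn_act α g (hx i)
      have hneg : CenS A ω (fun k => (-1 : ℂ) • x i k) := (hx i).smul _
      have hy : CenS A ω (fun k => α g (x i k) + (-1 : ℂ) • x i k) := hgx.add hneg
      have hyq : M.q (csOf _ hy) = fAct M α g (P i) - P i := by
        rw [csOf_add hgx hneg, csOf_smul _ (hx i), map_add, map_smul, hgq, ← fAct_q, hxq, neg_smul,
          one_smul, sub_eq_add_neg]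
      have h4 := hlim _ (hy.mul hy)
      rw [csOf_mul hy hy, map_mul, hyq] at h4
      filter_upwards [h4.eventually (gt_mem_nhds ((h3 φ hφ i g hg).trans_lt hδ))] with k hk
      have e0 : α g (x i k) + (-1 : ℂ) • x i k = α g (x i k) - x i k := by
        rw [neg_smul, one_smul, sub_eq_add_neg]
      rw [e0] at hk
      have h6 : star (α g (x i k) - x i k) = α g (x i k) - x i k := by
        rw [star_sub, ← map_star, hxs]
      have e2 : star a * ((α g (x i k) - x i k) * (α g (x i k) - x i k)) * a =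
          star ((α g (x i k) - x i k) * a) * ((α g (x i k) - x i k) * a) := by
        rw [star_mul, h6]
        noncomm_ring
      have h7 : star ((α g (x i k) - x i k) * (α g (x i k) - x i k)) =
          (α g (x i k) - x i k) * (α g (x i k) - x i k) := by rw [star_mul, h6]
      rw [QE_im (hτ k) h7, abs_of_nonneg]
      · exact hk
      · rw [e2]
        exact ((hτ k).pos _).1
  obtain ⟨k, ⟨hk1, hk2⟩, hk3⟩ := ((hsum'.and hcomm).and hall).exists
  obtain ⟨a, ha, ha2⟩ := hτ2 k hk1 hk2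
  obtain ⟨h4, h5, h6⟩ := hk3 a ha
  obtain ⟨i, g, hg, hg2⟩ := ha2 h4 h5
  exact absurd hg2 (not_le.2 (h6 i g hg))

end Vale.Agent.P095G
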