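import Vale.Agent.P095G.QC
import Vale.Agent.P095G.QE
import Vale.Agent.P095G.FinalAm

open scoped ENNReal Topology
open Filter

namespace Vale.Agent.P095G

open Vale.Agent.P095 Vale.Agent.P101K

universe u v

/-- QF.  `exists_fmod`, `f_split`, `R i = (1 - δ) • q i`, `P' i = (1 - δ)² • P i`
(`φ (P i) ≤ φ 1`), `transferF` with `C = 1 + ∑_(a ∈ E) (‖a‖ + ‖a‖²)`. -/
theorem main_F {A : Type u} [NonUnitalCStarAlgebra A] [Nontrivial A]
    [TopologicalSpace.SeparableSpace A] {ω : Ultrafilter ℕ} (hω : (ω : Filter ℕ) ≤ atTop)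
    {G : Type v} [Group G] [Countable G] (hP : PropP.{u, v} G) (α : G →* (A ≃⋆ₐ[ℂ] A))
    (h : EqZ A ω α ⊥) : UnifGammaF α := by
  intro n hn E K ε hε
  obtain ⟨F, instF, ⟨M⟩⟩ := exists_fmod (A := A) (ω := ω)
  set C : ℝ := 1 + ∑ a ∈ E, (‖a‖ + ‖a‖ ^ 2) with hCdef
  have hC : 0 < C := by
    have : 0 ≤ ∑ a ∈ E, (‖a‖ + ‖a‖ ^ 2) := Finset.sum_nonneg fun a _ => by positivity
    linarith
  have hE : ∀ a ∈ E, ‖a‖ ^ 2 ≤ C ∧ ‖a‖ ≤ C := by
    intro a ha
    have h1 : ‖a‖ + ‖a‖ ^ 2 ≤ ∑ a ∈ E, (‖a‖ + ‖a‖ ^ 2) :=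
      Finset.single_le_sum (f := fun a : A => ‖a‖ + ‖a‖ ^ 2) (fun b _ => by positivity) ha
    have h2 := norm_nonneg a
    have h3 := sq_nonneg ‖a‖
    constructor <;> linarith
  obtain ⟨e, he⟩ : ∃ e, e = ε / (4 * C) := ⟨_, rfl⟩
  have he0 : 0 < e := by rw [he]; positivity
  obtain ⟨δ, hδ0, hδ1, hδe⟩ : ∃ δ : ℝ, 0 < δ ∧ δ < 1 ∧ 4 * δ ≤ e := by
    refine ⟨min (1 / 2) (e / 4), lt_min (by norm_num) (by positivity), ?_, ?_⟩
    · exact (min_le_left _ _).trans_lt (by norm_num)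
    · have := min_le_right (1 / 2) (e / 4)
      linarith
  obtain ⟨P, q, hsum, hPq⟩ := f_split hω M hP α h n hn K (e / 2) (by positivity)
  obtain ⟨s, hs⟩ : ∃ s : ℝ, s = 1 - δ := ⟨_, rfl⟩
  have hs0 : 0 < s := by rw [hs]; linarith
  have hs1 : s < 1 := by rw [hs]; linarith
  have hss : 1 - s * s ≤ 2 * δ := by rw [hs]; nlinarith
  have hss0 : 0 ≤ 1 - s * s := by nlinarith
  have hss1 : s * s ≤ 1 := by linarith
  have h1F : ‖(1 : F)‖ ≤ 1 := by
    rcases subsingleton_or_nontrivial F with h' | h'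
    · rw [Subsingleton.elim (1 : F) 0, norm_zero]
      norm_num
    · rw [CStarRing.norm_one]
  have hφ1 : ∀ φ : F →ₗ[ℝ] ℝ, Tr φ → 0 ≤ φ 1 := by
    intro φ hφ
    have := hφ.pos 1
    rwa [star_one, one_mul] at this
  have hn1 : (1 : ℝ) ≤ n := by exact_mod_cast hn
  -- squares
  have hPP : ∀ φ : F →ₗ[ℝ] ℝ, Tr φ → ∀ i, 0 ≤ φ (P i * P i) ∧ φ (P i * P i) ≤ φ (P i) ∧
      φ (P i) ≤ φ 1 := by
    intro φ hφ i
    obtain ⟨hsa, hnorm, hq, hall⟩ := hPq i
    refine ⟨?_, ?_, ?_⟩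
    · have := hφ.pos (P i)
      rwa [hsa] at this
    · have h2 := n2_mul_le hφ (q i) (star (q i))
      unfold N2 at h2
      rw [← hq, hsa, norm_star] at h2
      have h3 : ‖q i‖ ^ 2 ≤ 1 := by
        rw [sq, ← CStarRing.norm_star_mul_self, ← hq]
        exact hnorm
      have h4 : 0 ≤ φ (P i) := by
        rw [hq]
        exact hφ.pos (q i)
      nlinarith
    · rw [(hall φ hφ).1]
      exact div_le_self (hφ1 φ hφ) hn1
  refine transferF hω M α n E K ε C hε hC hE (fun i => (s * s) • P i) (fun i => s • q i)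
    ?_ ?_ ?_ ?_ ?_ ?_
  · intro i
    rw [star_smul, star_trivial, smul_mul_smul_comm, ← (hPq i).2.2.1]
  · intro i
    have h3 : ‖q i‖ ^ 2 ≤ 1 := by
      rw [sq, ← CStarRing.norm_star_mul_self, ← (hPq i).2.2.1]
      exact (hPq i).2.1
    have h4 : ‖q i‖ ≤ 1 := by
      have := norm_nonneg (q i)
      nlinarith
    rw [norm_smul, Real.norm_eq_abs, abs_of_pos hs0]
    have := norm_nonneg (q i)
    nlinarith
  · rw [← he, ← Finset.smul_sum, hsum]
    have h2 : (s * s) • (1 : F) - 1 = -((1 - s * s) • (1 : F)) := by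
      rw [sub_smul, one_smul]
      abel
    rw [h2, norm_neg, norm_smul, Real.norm_eq_abs, abs_of_nonneg hss0]
    have := norm_nonneg (1 : F)
    nlinarith
  · intro φ hφ i
    rw [← he, map_smul, smul_eq_mul, ((hPq i).2.2.2 φ hφ).1]
    have h1 := hφ1 φ hφ
    have h2 : 0 ≤ φ 1 / n := by positivity
    have h3 : φ 1 / n ≤ φ 1 := div_le_self h1 hn1
    have h4 : s * s * (φ 1 / n) - φ 1 / n = -((1 - s * s) * (φ 1 / n)) := by ring
    rw [h4, abs_neg, abs_of_nonneg (mul_nonneg hss0 h2)]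
    exact mul_le_mul (by linarith) h3 h2 he0.le
  · intro φ hφ i
    obtain ⟨g1, g2, g3⟩ := hPP φ hφ i
    have g4 := ((hPq i).2.2.2 φ hφ).2.1
    have h1 := hφ1 φ hφ
    rw [← he, smul_mul_smul_comm, map_sub, map_smul, map_smul, smul_eq_mul, smul_eq_mul]
    rw [map_sub] at g4
    have h5 : s * s * φ (P i) - s * s * (s * s) * φ (P i * P i) =
        s * s * (φ (P i) - φ (P i * P i)) + s * s * ((1 - s * s) * φ (P i * P i)) := by ring
    have h6 : 0 ≤ φ (P i) - φ (P i * P i) := by linarith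
    have h7 : 0 ≤ (1 - s * s) * φ (P i * P i) := mul_nonneg hss0 g1
    have h8 : 0 ≤ s * s := by positivity
    rw [h5, abs_of_nonneg (add_nonneg (mul_nonneg h8 h6) (mul_nonneg h8 h7))]
    have h9 : s * s * (φ (P i) - φ (P i * P i)) ≤ 1 * (e / 2 * φ 1) :=
      mul_le_mul hss1 g4 h6 (by norm_num)
    have h10 : s * s * ((1 - s * s) * φ (P i * P i)) ≤ 1 * (2 * δ * φ 1) := by
      apply mul_le_mul hss1 _ h7 (by norm_num)
      exact mul_le_mul hss (by linarith) g1 (by positivity)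
    have h11 : 2 * δ * φ 1 ≤ e / 2 * φ 1 := mul_le_mul_of_nonneg_right (by linarith) h1
    linarith
  · intro φ hφ i t ht
    have g4 := ((hPq i).2.2.2 φ hφ).2.2 t ht
    have h1 := hφ1 φ hφ
    have h2 : fAct M α t ((s * s) • P i) = (s * s) • fAct M α t (P i) := by
      rw [← Complex.coe_smul, ← Complex.coe_smul, map_smul]
    rw [← he, h2, ← smul_sub, smul_mul_smul_comm, map_smul, smul_eq_mul]
    have h8 : 0 ≤ s * s * (s * s) := by positivity
    have h9 : s * s * (s * s) ≤ 1 := by nlinarith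
    have h10 : 0 ≤ e / 2 * φ 1 := by positivity
    calc s * s * (s * s) * φ ((fAct M α t (P i) - P i) * (fAct M α t (P i) - P i))
        ≤ s * s * (s * s) * (e / 2 * φ 1) := mul_le_mul_of_nonneg_left g4 h8
      _ ≤ 1 * (e / 2 * φ 1) := mul_le_mul_of_nonneg_right h9 h10
      _ ≤ e * φ 1 := by nlinarith

theorem main_amF {A : Type u} [NonUnitalCStarAlgebra A] [Nontrivial A]
    [TopologicalSpace.SeparableSpace A] {ω : Ultrafilter ℕ} (hω : (ω : Filter ℕ) ≤ atTop)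
    {G : Type v} [Group G] [Countable G] (hG : Folner G) (α : G →* (A ≃⋆ₐ[ℂ] A))
    (h : EqZ A ω α ⊥) : UnifGammaF α :=
  main_F hω (propP_folner G hG) α h

end Vale.Agent.P095G
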