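import Vale.Agent.P095G.Tb
import Vale.Agent.P095G.Zb

namespace Vale.Agent.P095G

universe u v

variable {B : Type u} [CStarAlgebra B] {D : ℕ → Set B} {τ : B →ₗ[ℝ] ℝ}

theorem QA_zero (hτ : Tr τ) {J : Finset ℕ} {R c : ℝ} {x a b : B} (hx : Good D R c J x)
    (ha : a ∈ Zc D J) (hb : b ∈ Zc D J) : τ (a * (x * b)) = 0 := by
  rw [← hx.cent b hb, ← mul_assoc]
  exact hx.mean τ hτ (a * b) (mul_mem ha hb)

/-- QA (cross terms).  Pairs `(i,j)`, `(k,l)` of distinct indices, `i > j`, `k > l`, `(i,j) ≠ (k,l)`:
some index, say `p`, of one pair is not in the other; move `X p` to the end (everything else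
commutes with it and is in `Zc D (I p)`) and use `mean` for the block `I p`. -/
theorem quad_cross (hD : ComFam D) (hτ : Tr τ) {Q : Type v} {n : ℕ} {I : ℕ → Finset ℕ}
    (hI : ∀ i j, i < n → j < n → i ≠ j → Disjoint (I i) (I j)) {c : ℝ} {X : ℕ → Q → B}
    (hX : ∀ i < n, ∀ q, Good D 1 c (I i) (X i q)) {w : B}
    (hw : w ∈ Zc D ((Finset.range n).biUnion I)) {i j k l : ℕ} (hi : i < n) (hj : j < i)
    (hk : k < n) (hl : l < k) (hne : (i, j) ≠ (k, l)) (q q' : Q) :
    τ (star w * (X i q * X j q) * (X k q' * X l q') * w) = 0 := by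
  have hjn : j < n := hj.trans hi
  have hln : l < n := hl.trans hk
  have key : ∀ p < n, w ∈ Zc D (I p) := fun p hp =>
    Zc_anti (Finset.subset_biUnion_of_mem I (Finset.mem_range.2 hp)) hw
  have key2 : ∀ p < n, ∀ r < n, r ≠ p → ∀ q, X r q ∈ Zc D (I p) := fun p hp r hr hrp q =>
    good_mem hD (hI r p hr hp hrp) (hX r hr q)
  by_cases h : k ≠ i ∧ k ≠ j
  · have h1 : star w * (X i q * X j q) * (X k q' * X l q') * w =
        (star w * (X i q * X j q)) * (X k q' * (X l q' * w)) := by
      simp only [mul_assoc]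
    rw [h1]
    exact QA_zero hτ (hX k hk q')
      (mul_mem (star_mem (key k hk)) (mul_mem (key2 k hk i hi h.1.symm q)
        (key2 k hk j hjn h.2.symm q)))
      (mul_mem (key2 k hk l hln hl.ne q') (key k hk))
  · have h2 : l ≠ i ∧ l ≠ j := by
      constructor
      · rintro rfl
        apply h
        constructor <;> omega
      · rintro rfl
        by_cases hki : k = i
        · exact hne (by rw [hki])
        · exact h ⟨hki, by omega⟩
    have h1 : star w * (X i q * X j q) * (X k q' * X l q') * w =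
        (star w * (X i q * X j q) * X k q') * (X l q' * w) := by
      simp only [mul_assoc]
    rw [h1]
    exact QA_zero hτ (hX l hln q')
      (mul_mem (mul_mem (star_mem (key l hln)) (mul_mem (key2 l hln i hi h2.1.symm q)
        (key2 l hln j hjn h2.2.symm q))) (key2 l hln k hk hl.ne' q'))
      (key l hln)

end Vale.Agent.P095G
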