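import Vale.Agent.P095G.Tb
import Vale.Agent.P095G.Zb

namespace Vale.Agent.P095G

universe u v

variable {B : Type u} [CStarAlgebra B] {D : ℕ → Set B} {τ : B →ₗ[ℝ] ℝ}

/-- QB (diagonal terms).  With `y i = X i q * X i q'`:
`τ (w* (X_i X_j) (X_i' X_j') w) = τ (w* y_i star(y_j) w)`: in the `j` variable use the trace
property for elements commuting with everything else. -/
theorem quad_diag (hD : ComFam D) (hτ : Tr τ) {Q : Type v} {n : ℕ} {I : ℕ → Finset ℕ}
    (hI : ∀ i j, i < n → j < n → i ≠ j → Disjoint (I i) (I j)) {c : ℝ} {X : ℕ → Q → B}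
    (hX : ∀ i < n, ∀ q, Good D 1 c (I i) (X i q)) {w : B}
    (hw : w ∈ Zc D ((Finset.range n).biUnion I)) {i j : ℕ} (hi : i < n) (hj : j < n)
    (hij : i ≠ j) (q q' : Q) :
    τ (star w * (X i q * X j q) * (X i q' * X j q') * w) =
      τ (star w * (X i q * X i q') * star (X j q * X j q') * w) := by
  have hIij : Disjoint (I i) (I j) := hI i j hi hj hij
  have hsubi : I i ⊆ (Finset.range n).biUnion I := by
    intro x hx
    exact Finset.mem_biUnion.2 ⟨i, Finset.mem_range.2 hi, hx⟩
  have hsubj : I j ⊆ (Finset.range n).biUnion I := by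
    intro x hx
    exact Finset.mem_biUnion.2 ⟨j, Finset.mem_range.2 hj, hx⟩
  have hw' : star w ∈ Zc D ((Finset.range n).biUnion I) := star_mem hw
  have hwb : ∀ p, w * X j p = X j p * w := fun p => (hX j hj p).cent w (Zc_anti hsubj hw)
  have hwb' : ∀ p, star w * X j p = X j p * star w :=
    fun p => (hX j hj p).cent (star w) (Zc_anti hsubj hw')
  have hab : ∀ p p', X i p * X j p' = X j p' * X i p :=
    fun p p' => (hX j hj p').cent (X i p) (good_mem hD hIij (hX i hi p))
  have h1 : star w * (X i q * X j q) * (X i q' * X j q') * w =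
      X j q * (star w * X i q * X i q' * X j q' * w) := by
    calc star w * (X i q * X j q) * (X i q' * X j q') * w
        = star w * (X i q * (X j q * X i q')) * X j q' * w := by simp only [mul_assoc]
      _ = star w * (X i q * (X i q' * X j q)) * X j q' * w := by rw [hab q' q]
      _ = star w * (X i q * X i q') * (X j q * (X j q' * w)) := by simp only [mul_assoc]
      _ = star w * X i q * (X i q' * X j q) * (X j q' * w) := by simp only [mul_assoc]
      _ = star w * X i q * (X j q * X i q') * (X j q' * w) := by rw [hab q' q]
      _ = star w * (X i q * X j q) * X i q' * (X j q' * w) := by simp only [mul_assoc]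
      _ = star w * (X j q * X i q) * X i q' * (X j q' * w) := by rw [hab q q]
      _ = (star w * X j q) * (X i q * (X i q' * (X j q' * w))) := by simp only [mul_assoc]
      _ = (X j q * star w) * (X i q * (X i q' * (X j q' * w))) := by rw [hwb' q]
      _ = X j q * (star w * X i q * X i q' * X j q' * w) := by simp only [mul_assoc]
  have h2 : star w * (X i q * X i q') * star (X j q * X j q') * w =
      star w * X i q * X i q' * X j q' * w * X j q := by
    rw [star_mul, (hX j hj q).sa, (hX j hj q').sa]
    calc star w * (X i q * X i q') * (X j q' * X j q) * w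
        = star w * X i q * X i q' * X j q' * (X j q * w) := by simp only [mul_assoc]
      _ = star w * X i q * X i q' * X j q' * (w * X j q) := by rw [hwb q]
      _ = star w * X i q * X i q' * X j q' * w * X j q := by simp only [mul_assoc]
  rw [h1, h2, hτ.comm]

end Vale.Agent.P095G
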