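import Vale.Agent.P095G.QuadA
import Vale.Agent.P095G.QuadB

namespace Vale.Agent.P095G

universe u v

variable {B : Type u} [CStarAlgebra B] {D : ℕ → Set B} {τ : B →ₗ[ℝ] ℝ}

theorem qc_sum_symm (n : ℕ) (h : ℕ → ℕ → ℝ) (hs : ∀ i j, h i j = h j i) :
    ∑ i ∈ Finset.range n, ∑ j ∈ Finset.range n, h i j =
      2 * ∑ i ∈ Finset.range n, ∑ j ∈ Finset.range i, h i j + ∑ i ∈ Finset.range n, h i i := by
  induction n with
  | zero => simp
  | succ n ih =>
    have h1 : ∑ i ∈ Finset.range (n + 1), ∑ j ∈ Finset.range (n + 1), h i j =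
        ∑ i ∈ Finset.range n, ∑ j ∈ Finset.range n, h i j + ∑ i ∈ Finset.range n, h i n +
          (∑ j ∈ Finset.range n, h n j + h n n) := by
      rw [Finset.sum_range_succ, Finset.sum_range_succ (fun j => h n j)]
      congr 1
      rw [← Finset.sum_add_distrib]
      refine Finset.sum_congr rfl fun i _ => ?_
      rw [Finset.sum_range_succ]
    have h2 : ∑ i ∈ Finset.range n, h i n = ∑ j ∈ Finset.range n, h n j :=
      Finset.sum_congr rfl fun i _ => hs i n
    rw [h1, ih, h2, Finset.sum_range_succ (fun i => ∑ j ∈ Finset.range i, h i j),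
      Finset.sum_range_succ (fun i => h i i)]
    ring

theorem qc_sum_id (n : ℕ) : ∑ i ∈ Finset.range n, (i : ℝ) = n * (n - 1) / 2 := by
  induction n with
  | zero => simp
  | succ n ih =>
    rw [Finset.sum_range_succ, ih]
    push_cast
    ring

/-- expansion of the quadratic form over a finite index set of self-adjoint elements -/
theorem qc_expand {ι : Type*} {Q : Type v} (T : Finset ι) (P : Finset Q) (y : ι → Q → B)
    (hs : ∀ p ∈ T, ∀ q, star (y p q) = y p q) (a : Q → ℝ) (w : B) [DecidableEq ι]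
    (hc : ∀ p ∈ T, ∀ p' ∈ T, p ≠ p' → ∀ q q', τ (star w * y p q * y p' q' * w) = 0) :
    N2 τ ((∑ p ∈ T, ∑ q ∈ P, a q • y p q) * w) =
      ∑ q ∈ P, ∑ q' ∈ P, a q * a q' * ∑ p ∈ T, τ (star w * y p q * y p q' * w) := by
  unfold N2
  have e1 : star ((∑ p ∈ T, ∑ q ∈ P, a q • y p q) * w) =
      ∑ p ∈ T, ∑ q ∈ P, a q • (star w * y p q) := by
    rw [star_mul, star_sum, Finset.mul_sum]
    refine Finset.sum_congr rfl fun p hp => ?_
    rw [star_sum, Finset.mul_sum]
    refine Finset.sum_congr rfl fun q _ => ?_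
    rw [star_smul, hs p hp, mul_smul_comm, star_trivial]
  have e2 : (∑ p ∈ T, ∑ q ∈ P, a q • y p q) * w = ∑ p ∈ T, ∑ q ∈ P, a q • (y p q * w) := by
    rw [Finset.sum_mul]
    refine Finset.sum_congr rfl fun p _ => ?_
    rw [Finset.sum_mul]
    refine Finset.sum_congr rfl fun q _ => ?_
    rw [smul_mul_assoc]
  rw [e1, e2, Finset.sum_mul, map_sum]
  have e3 : ∀ p ∈ T, τ ((∑ q ∈ P, a q • (star w * y p q)) * ∑ p' ∈ T, ∑ q' ∈ P,
      a q' • (y p' q' * w)) = ∑ q ∈ P, ∑ q' ∈ P, a q * a q' * τ (star w * y p q * y p q' * w) := by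
    intro p hp
    rw [Finset.sum_mul, map_sum]
    refine Finset.sum_congr rfl fun q _ => ?_
    rw [Finset.mul_sum, map_sum, Finset.sum_eq_single p]
    · rw [Finset.mul_sum, map_sum]
      refine Finset.sum_congr rfl fun q' _ => ?_
      rw [smul_mul_smul_comm, map_smul, smul_eq_mul]
      simp only [mul_assoc]
    · intro p' hp' hne
      rw [Finset.mul_sum, map_sum]
      refine Finset.sum_eq_zero fun q' _ => ?_
      rw [smul_mul_smul_comm, map_smul]
      have h := hc p hp p' hp' hne.symm q q'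
      have h' : τ (star w * y p q * (y p' q' * w)) = 0 := by
        rw [← h]; simp only [mul_assoc]
      rw [h', smul_zero]
    · intro h
      exact absurd hp h
  rw [Finset.sum_congr rfl e3, Finset.sum_comm]
  refine Finset.sum_congr rfl fun q _ => ?_
  rw [Finset.sum_comm]
  refine Finset.sum_congr rfl fun q' _ => ?_
  rw [Finset.mul_sum]

/-- QC.  `M q q' = (1/2) ∑_(i ≠ j) τ (w* y_i star(y_j) w)`; it is symmetric in `i, j`
(take adjoints) and `∑_(i,j) = N2 τ (star Y * w) ≥ 0` with `Y = ∑ y_i`, each diagonal term is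
`≤ N2 τ w`, each term is `≤ N2 τ w` in absolute value; for `q = q'` each term is
`N2 τ (X_i X_j w) ≥ c² N2 τ w`.  Use `quad_cross` and `quad_diag`. -/
theorem quad_form (hD : ComFam D) (hτ : Tr τ) {Q : Type v} (n : ℕ) (I : ℕ → Finset ℕ)
    (hI : ∀ i j, i < n → j < n → i ≠ j → Disjoint (I i) (I j)) {c : ℝ} (hc : 0 ≤ c)
    (X : ℕ → Q → B) (hX : ∀ i < n, ∀ q, Good D 1 c (I i) (X i q)) (P : Finset Q) (w : B)
    (hw : w ∈ Zc D ((Finset.range n).biUnion I)) :
    ∃ M : Q → Q → ℝ,
      (∀ a : Q → ℝ, N2 τ (TT n P X a * w) = ∑ q ∈ P, ∑ q' ∈ P, a q * a q' * M q q') ∧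
      (∀ q q', -(n * N2 τ w) ≤ M q q' ∧ M q q' ≤ n ^ 2 * N2 τ w) ∧
      ∀ q, c ^ 2 * (n * (n - 1) / 2) * N2 τ w ≤ M q q := by
  classical
  have hwi : ∀ i < n, w ∈ Zc D (I i) := fun i hi =>
    Zc_anti (Finset.subset_biUnion_of_mem I (Finset.mem_range.2 hi)) hw
  have hXZ : ∀ i < n, ∀ j < n, i ≠ j → ∀ q, X j q ∈ Zc D (I i) := fun i hi j hj hij q =>
    good_mem hD (hI j i hj hi (Ne.symm hij)) (hX j hj q)
  have hcom : ∀ i < n, ∀ j < n, i ≠ j → ∀ q q', X i q * X j q' = X j q' * X i q :=
    fun i hi j hj hij q q' => ((hX i hi q).cent _ (hXZ i hi j hj hij q')).symm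
  have hstar : ∀ i < n, ∀ j < n, i ≠ j → ∀ q, star (X i q * X j q) = X i q * X j q := by
    intro i hi j hj hij q
    rw [star_mul, (hX i hi q).sa, (hX j hj q).sa, hcom i hi j hj hij]
  have hN : 0 ≤ N2 τ w := n2_nonneg hτ w
  set g : ℕ → ℕ → Q → Q → ℝ := fun i j q q' =>
    τ (star w * (X i q * X j q) * (X i q' * X j q') * w) with hg
  refine ⟨fun q q' => ∑ i ∈ Finset.range n, ∑ j ∈ Finset.range i, g i j q q', ?_, ?_, ?_⟩
  · intro a
    have e1 : TT n P X a = ∑ p ∈ (Finset.range n).sigma (fun i => Finset.range i),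
        ∑ q ∈ P, a q • (X p.1 q * X p.2 q) := by
      unfold TT
      rw [Finset.sum_sigma]
    have e2 := qc_expand (τ := τ) ((Finset.range n).sigma (fun i => Finset.range i)) P
      (fun p q => X p.1 q * X p.2 q) (fun p hp q => by
        rw [Finset.mem_sigma, Finset.mem_range, Finset.mem_range] at hp
        exact hstar p.1 hp.1 p.2 (hp.2.trans hp.1) hp.2.ne' q) a w
      (fun p hp p' hp' hne q q' => by
        rw [Finset.mem_sigma, Finset.mem_range, Finset.mem_range] at hp hp'
        refine quad_cross hD hτ hI hX hw hp.1 hp.2 hp'.1 hp'.2 ?_ q q'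
        intro h
        rw [Prod.mk.injEq] at h
        apply hne
        obtain ⟨p1, p2⟩ := p
        obtain ⟨p1', p2'⟩ := p'
        simp only at h
        rw [h.1, h.2])
    rw [e1, e2]
    refine Finset.sum_congr rfl fun q _ => Finset.sum_congr rfl fun q' _ => ?_
    rw [Finset.sum_sigma]
  · intro q q'
    set h : ℕ → ℕ → ℝ := fun i j =>
      τ (star w * (X i q * X i q') * star (X j q * X j q') * w) with hh
    have hgh : ∀ i ∈ Finset.range n, ∀ j ∈ Finset.range i, g i j q q' = h i j := by
      intro i hi j hj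
      rw [Finset.mem_range] at hi hj
      exact quad_diag hD hτ hI hX hw hi (hj.trans hi) hj.ne' q q'
    have hsum : ∑ i ∈ Finset.range n, ∑ j ∈ Finset.range i, g i j q q' =
        ∑ i ∈ Finset.range n, ∑ j ∈ Finset.range i, h i j :=
      Finset.sum_congr rfl fun i hi => Finset.sum_congr rfl fun j hj => hgh i hi j hj
    have hsym : ∀ i j, h i j = h j i := by
      intro i j
      rw [hh]
      show τ (star w * (X i q * X i q') * star (X j q * X j q') * w) =
        τ (star w * (X j q * X j q') * star (X i q * X i q') * w)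
      rw [← hτ.star]
      congr 1
      simp only [star_mul, star_star, mul_assoc]
    have hin : ∀ i j, h i j = τ (star (star (X i q * X i q') * w) *
        (star (X j q * X j q') * w)) := by
      intro i j
      rw [hh]
      show τ (star w * (X i q * X i q') * star (X j q * X j q') * w) = _
      congr 1
      simp only [star_mul, star_star, mul_assoc]
    have hnorm : ∀ i < n, N2 τ (star (X i q * X i q') * w) ≤ N2 τ w := by
      intro i hi
      have h1 : ‖star (X i q * X i q')‖ ≤ 1 := by
        rw [norm_star]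
        calc ‖X i q * X i q'‖ ≤ ‖X i q‖ * ‖X i q'‖ := norm_mul_le _ _
          _ ≤ 1 * 1 := mul_le_mul (hX i hi q).norm (hX i hi q').norm (norm_nonneg _) zero_le_one
          _ = 1 := one_mul 1
      have h2 := n2_mul_le hτ w (star (X i q * X i q'))
      have h3 : ‖star (X i q * X i q')‖ ^ 2 ≤ 1 := by
        nlinarith [norm_nonneg (star (X i q * X i q'))]
      calc N2 τ (star (X i q * X i q') * w) ≤ ‖star (X i q * X i q')‖ ^ 2 * N2 τ w := h2
        _ ≤ 1 * N2 τ w := mul_le_mul_of_nonneg_right h3 hN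
        _ = N2 τ w := one_mul _
    have habs : ∀ i < n, ∀ j < n, h i j ≤ N2 τ w := by
      intro i hi j hj
      rw [hin]
      have h1 := tr_cs' hτ (star (X i q * X i q') * w) (star (X j q * X j q') * w)
      have h2 := Real.sqrt_le_sqrt (hnorm i hi)
      have h3 := Real.sqrt_le_sqrt (hnorm j hj)
      calc τ (star (star (X i q * X i q') * w) * (star (X j q * X j q') * w))
          ≤ |τ (star (star (X i q * X i q') * w) * (star (X j q * X j q') * w))| := le_abs_self _
        _ ≤ √(N2 τ (star (X i q * X i q') * w)) * √(N2 τ (star (X j q * X j q') * w)) := h1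
        _ ≤ √(N2 τ w) * √(N2 τ w) :=
            mul_le_mul h2 h3 (Real.sqrt_nonneg _) (Real.sqrt_nonneg _)
        _ = N2 τ w := Real.mul_self_sqrt hN
    show -(n * N2 τ w) ≤ ∑ i ∈ Finset.range n, ∑ j ∈ Finset.range i, g i j q q' ∧
      ∑ i ∈ Finset.range n, ∑ j ∈ Finset.range i, g i j q q' ≤ n ^ 2 * N2 τ w
    rw [hsum]
    constructor
    · have h1 := qc_sum_symm n h hsym
      have h2 : 0 ≤ ∑ i ∈ Finset.range n, ∑ j ∈ Finset.range n, h i j := by
        have h3 : ∑ i ∈ Finset.range n, ∑ j ∈ Finset.range n, h i j =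
            N2 τ (∑ i ∈ Finset.range n, star (X i q * X i q') * w) := by
          unfold N2
          rw [star_sum, Finset.sum_mul, map_sum]
          refine Finset.sum_congr rfl fun i _ => ?_
          rw [Finset.mul_sum, map_sum]
          exact Finset.sum_congr rfl fun j _ => hin i j
        rw [h3]
        exact n2_nonneg hτ _
      have h4 : ∑ i ∈ Finset.range n, h i i ≤ n * N2 τ w := by
        calc ∑ i ∈ Finset.range n, h i i ≤ ∑ _i ∈ Finset.range n, N2 τ w :=
              Finset.sum_le_sum fun i hi => habs i (Finset.mem_range.1 hi) i (Finset.mem_range.1 hi)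
          _ = n * N2 τ w := by rw [Finset.sum_const, Finset.card_range, nsmul_eq_mul]
      have h5 : 0 ≤ (n : ℝ) * N2 τ w := by positivity
      linarith
    · calc ∑ i ∈ Finset.range n, ∑ j ∈ Finset.range i, h i j
          ≤ ∑ i ∈ Finset.range n, ∑ j ∈ Finset.range i, N2 τ w := by
            refine Finset.sum_le_sum fun i hi => Finset.sum_le_sum fun j hj => ?_
            rw [Finset.mem_range] at hi hj
            exact habs i hi j (hj.trans hi)
        _ ≤ ∑ _i ∈ Finset.range n, (n : ℝ) * N2 τ w := by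
            refine Finset.sum_le_sum fun i hi => ?_
            rw [Finset.sum_const, Finset.card_range, nsmul_eq_mul]
            rw [Finset.mem_range] at hi
            exact mul_le_mul_of_nonneg_right (by exact_mod_cast hi.le) hN
        _ = n ^ 2 * N2 τ w := by
            rw [Finset.sum_const, Finset.card_range, nsmul_eq_mul]; ring
  · intro q
    have h1 : ∀ i ∈ Finset.range n, ∀ j ∈ Finset.range i, c ^ 2 * N2 τ w ≤ g i j q q := by
      intro i hi j hj
      rw [Finset.mem_range] at hi hj
      have hj' := hj.trans hi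
      have e1 : g i j q q = N2 τ (X i q * (X j q * w)) := by
        rw [hg]
        show τ (star w * (X i q * X j q) * (X i q * X j q) * w) = _
        unfold N2
        have e2 : star (X i q * (X j q * w)) = star w * (X i q * X j q) := by
          rw [← mul_assoc, star_mul, hstar i hi j hj' hj.ne' q]
        rw [e2]
        simp only [mul_assoc]
      rw [e1]
      have h2 := (hX i hi q).var τ hτ (X j q * w)
        (mul_mem (hXZ i hi j hj' hj.ne' q) (hwi i hi))
      have h3 := (hX j hj' q).var τ hτ w (hwi j hj')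
      calc c ^ 2 * N2 τ w = c * (c * N2 τ w) := by ring
        _ ≤ c * N2 τ (X j q * w) := mul_le_mul_of_nonneg_left h3 hc
        _ ≤ _ := h2
    show c ^ 2 * (n * (n - 1) / 2) * N2 τ w ≤
      ∑ i ∈ Finset.range n, ∑ j ∈ Finset.range i, g i j q q
    calc c ^ 2 * (n * (n - 1) / 2) * N2 τ w
        = ∑ i ∈ Finset.range n, ∑ _j ∈ Finset.range i, c ^ 2 * N2 τ w := by
          have e3 : ∀ i ∈ Finset.range n, ∑ _j ∈ Finset.range i, c ^ 2 * N2 τ w =
              (i : ℝ) * (c ^ 2 * N2 τ w) := by
            intro i _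
            rw [Finset.sum_const, Finset.card_range, nsmul_eq_mul]
          rw [Finset.sum_congr rfl e3, ← Finset.sum_mul, qc_sum_id]
          ring
      _ ≤ _ := Finset.sum_le_sum fun i hi => Finset.sum_le_sum fun j hj => h1 i hi j hj

end Vale.Agent.P095G
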