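import Vale.Agent.P095G.DynP
import Vale.Agent.P095G.DynV
import Vale.Agent.P095G.Zb

namespace Vale.Agent.P095G

open Vale.Agent.P095

universe u v

variable {B : Type u} [CStarAlgebra B] {D : ℕ → Set B}

theorem SG_smul {I : Finset ℕ} {z : B} (hz : z ∈ Zc D I) (r : ℝ) : r • z ∈ Zc D I := by
  rw [← Complex.coe_smul]
  exact (Zc D I).smul_mem hz _

theorem SG_com1 {z W S : B} (h1 : z * W = W * z) (h2 : z * S = S * z) (δ : ℝ) :
    z * stp δ W S = stp δ W S * z := by
  have c1 : Commute z W := h1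
  have c2 : Commute z S := h2
  have c3 : Commute z (stp δ W S) := by
    unfold stp
    refine ((c1.sub_right ((c1.mul_right (c2.mul_right c2)).smul_right _))).add_right ?_
    exact ((((Commute.one_right z).sub_right (c1.mul_right c1)).mul_right c2)).smul_right _
  exact c3

/-- SG.  One step keeps goodness.  mean: `τ(z W₊) = τ((z(1-3δ²S²)) W) + δ τ((z(1-W²)) S)`,
`z(1-3δ²S²) ∈ Zc D I` (`S ∈ Zc D I` by `good_mem`), `z(1-W²) ∈ Zc D J`. var: `stp_var`. -/
theorem stp_good (hD : ComFam D) {I J : Finset ℕ} (hIJ : Disjoint I J) {δ R r μ : ℝ} {W S : B}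
    (hW : Good D 1 μ I W) (hS : Good D R r J S) (hδ : 0 < δ) (hδR : δ * R ≤ 1 / 100)
    (hμ : 0 ≤ μ) (hμ1 : μ ≤ 1 / 10) (hr : 0 < r) :
    Good D 1 (min (1 / 10) (μ + δ ^ 2 * r / 10)) (I ∪ J) (stp δ W S) := by
  have hWJ : W ∈ Zc D J := good_mem hD hIJ hW
  have hSI : S ∈ Zc D I := good_mem hD hIJ.symm hS
  have hWS : W * S = S * W := (hW.cent S hSI).symm
  have cWS : Commute W S := hWS
  refine ⟨?_, stp_norm hW.sa hW.norm hS.sa hS.norm hWS hδ.le hδR, ?_, ?_, ?_⟩
  · have e1 : S * S * W = W * (S * S) := ((cWS.mul_right cWS).symm).eq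
    have e2 : S * (1 - W * W) = (1 - W * W) * S :=
      ((Commute.one_right S).sub_right (cWS.symm.mul_right cWS.symm)).eq
    have s1 : star (W * (S * S)) = W * (S * S) := by
      rw [star_mul, star_mul, hW.sa, hS.sa, e1]
    have s2 : star ((1 - W * W) * S) = (1 - W * W) * S := by
      rw [star_mul, star_sub, star_one, star_mul, hW.sa, hS.sa, e2]
    unfold stp
    rw [star_add, star_sub, star_smul, star_smul, s1, s2, hW.sa, star_trivial, star_trivial]
  · intro z hz
    exact SG_com1 (hW.cent z (Zc_anti Finset.subset_union_left hz))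
      (hS.cent z (Zc_anti Finset.subset_union_right hz)) δ
  · intro τ hτ z hz
    have hzI : z ∈ Zc D I := Zc_anti Finset.subset_union_left hz
    have hzJ : z ∈ Zc D J := Zc_anti Finset.subset_union_right hz
    have m1 : τ ((z * (1 - (3 * δ ^ 2) • (S * S))) * W) = 0 :=
      hW.mean τ hτ _ (mul_mem hzI (sub_mem (one_mem _) (SG_smul (mul_mem hSI hSI) _)))
    have m2 : τ ((z * (1 - W * W)) * S) = 0 :=
      hS.mean τ hτ _ (mul_mem hzJ (sub_mem (one_mem _) (mul_mem hWJ hWJ)))
    have e1 : S * S * W = W * (S * S) := ((cWS.mul_right cWS).symm).eq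
    have e3 : z * stp δ W S = (z * (1 - (3 * δ ^ 2) • (S * S))) * W +
        δ • ((z * (1 - W * W)) * S) := by
      unfold stp
      rw [mul_add, mul_sub, mul_smul_comm, mul_smul_comm, ← e1]
      congr 1
      · rw [mul_assoc z, sub_mul, one_mul, mul_sub, smul_mul_assoc, mul_smul_comm]
      · rw [mul_assoc]
    rw [e3, map_add, map_smul, m1, m2, smul_zero, add_zero]
  · intro τ hτ w hw
    have hwI : w ∈ Zc D I := Zc_anti Finset.subset_union_left hw
    have hwJ : w ∈ Zc D J := Zc_anti Finset.subset_union_right hw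
    have hsI : star w ∈ Zc D I := star_mem hwI
    have hsJ : star w ∈ Zc D J := star_mem hwJ
    have h := stp_var hτ hW.sa hW.norm hS.sa hS.norm hWS (hW.cent w hwI) (hS.cent w hwJ)
      (hW.cent _ hsI) (hS.cent _ hsJ) hδ hδR hμ hμ1 hr
      (hW.var τ hτ _ (mul_mem (sub_mem (one_mem _) (SG_smul (mul_mem hSI hSI) _)) hwI))
      (hS.var τ hτ w hwJ)
      (hS.mean τ hτ _ (mul_mem (mul_mem (mul_mem hsJ hWJ)
        (sub_mem (one_mem _) (mul_mem hWJ hWJ))) hwJ))
    exact (mul_le_mul_of_nonneg_right (min_le_right _ _) (n2_nonneg hτ w)).trans h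

end Vale.Agent.P095G
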