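import Vale.Agent.P095G.Defs

open scoped ENNReal Topology
open Filter

namespace Vale.Agent.P095G

open Vale.Agent.P095 Vale.Agent.P101K

universe u v

/-- a tracial state -/
structure TracialState {A : Type u} [CStarAlgebra A] (τ : A →ₗ[ℂ] ℂ) : Prop where
  one : τ 1 = 1
  pos : ∀ a, 0 ≤ (τ (star a * a)).re ∧ (τ (star a * a)).im = 0
  comm : ∀ a b, τ (a * b) = τ (b * a)

/-- equivariant uniform property Gamma (two projections `(1 ± v)/2`): for all finite sets and
`ε > 0` there is a self-adjoint contraction `v` which almost commutes with `E`, and in the uniform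
tracial 2-norm is almost a unitary, is almost invariant, and `τ(a v)` is almost `0` -/
def EqGamma {A : Type u} [CStarAlgebra A] {G : Type v} [Group G] (α : G →* (A ≃⋆ₐ[ℂ] A)) :
    Prop :=
  ∀ (E : Finset A) (K : Finset G) (ε : ℝ), 0 < ε → ∃ v : A, star v = v ∧ ‖v‖ ≤ 1 ∧
    (∀ a ∈ E, ‖a * v - v * a‖ < ε) ∧ ∀ τ : A →ₗ[ℂ] ℂ, TracialState τ →
      (∀ a ∈ E, ‖τ (a * v)‖ < ε) ∧ ‖τ (1 - v * v)‖ < ε ∧
      ∀ g ∈ K, ‖τ ((α g v - v) * (α g v - v))‖ < ε

end Vale.Agent.P095G
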