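import Vale.Agent.P095G.UDefs

open scoped ENNReal Topology
open Filter

namespace Vale.Agent.P095G

open Vale.Agent.P095 Vale.Agent.P101K

universe u v

/-- UT1. -/
theorem ts_star {A : Type u} [CStarAlgebra A] {τ : A →ₗ[ℂ] ℂ} (h : TracialState τ) (a : A) :
    τ (star a) = star (τ a) := by
  have key : ∀ b : A, (τ (star b) + τ b).im = 0 := by
    intro b
    have h1 := (h.pos (b + 1)).2
    have h2 := (h.pos b).2
    have e : star (b + 1) * (b + 1) = star b * b + (star b + b) + 1 := by
      rw [star_add, star_one]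
      noncomm_ring
    rw [e, map_add, map_add, map_add, h.one, Complex.add_im, Complex.add_im, h2] at h1
    simpa using h1
  have h1 := key a
  have h2 := key (Complex.I • a)
  rw [star_smul, map_smul, map_smul] at h2
  simp only [smul_eq_mul, Complex.add_im, Complex.mul_im, Complex.star_def, Complex.conj_I,
    Complex.neg_re, Complex.neg_im, Complex.I_re, Complex.I_im] at h1 h2
  apply Complex.ext
  · rw [Complex.star_def, Complex.conj_re]
    linarith
  · rw [Complex.star_def, Complex.conj_im]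
    linarith

theorem UA_cs {A : Type u} [CStarAlgebra A] {τ : A →ₗ[ℂ] ℂ} (h : TracialState τ) (a : A) :
    ‖τ a‖ ^ 2 ≤ (τ (star a * a)).re := by
  have h1 := (h.pos (a - τ a • (1 : A))).1
  have e : star (a - τ a • (1 : A)) * (a - τ a • (1 : A)) =
      star a * a - τ a • star a - star (τ a) • a + (star (τ a) * τ a) • (1 : A) := by
    rw [star_sub, star_smul, star_one, sub_mul, mul_sub, mul_sub, mul_smul_comm, smul_mul_assoc,
      smul_mul_assoc, mul_smul_comm, mul_one, one_mul, mul_one, smul_smul]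
    abel
  rw [e, map_add, map_sub, map_sub, map_smul, map_smul, map_smul, ts_star h, h.one] at h1
  have h2 : ‖τ a‖ ^ 2 = (star (τ a) * τ a).re := by
    rw [Complex.star_def, ← Complex.normSq_eq_conj_mul_self, Complex.ofReal_re,
      Complex.normSq_eq_norm_sq]
  rw [h2]
  simp only [smul_eq_mul, mul_one, Complex.add_re, Complex.sub_re] at h1
  have h3 : (τ a * star (τ a)).re = (star (τ a) * τ a).re := by rw [mul_comm]
  rw [h3] at h1
  linarith

/-- UT2.  `‖a‖² - star a * a = star c * c`, Cauchy-Schwarz. -/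
theorem ts_norm_le {A : Type u} [CStarAlgebra A] {τ : A →ₗ[ℂ] ℂ} (h : TracialState τ) (a : A) :
    ‖τ a‖ ≤ ‖a‖ := by
  letI : PartialOrder A := CStarAlgebra.spectralOrder A
  haveI : StarOrderedRing A := CStarAlgebra.spectralOrderedRing A
  have h1 : star a * a ≤ algebraMap ℝ A (‖a‖ ^ 2) := CStarAlgebra.star_mul_le_algebraMap_norm_sq
  obtain ⟨c, hc⟩ := CStarAlgebra.nonneg_iff_eq_star_mul_self.1 (sub_nonneg.2 h1)
  have h2 := (h.pos c).1
  rw [← hc, map_sub] at h2
  have h3 : τ (algebraMap ℝ A (‖a‖ ^ 2)) = ((‖a‖ ^ 2 : ℝ) : ℂ) := by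
    have : algebraMap ℝ A (‖a‖ ^ 2) = ((‖a‖ ^ 2 : ℝ) : ℂ) • (1 : A) := by
      rw [Algebra.algebraMap_eq_smul_one, Complex.coe_smul]
    rw [this, map_smul, h.one, smul_eq_mul, mul_one]
  rw [h3, Complex.sub_re, Complex.ofReal_re] at h2
  have h4 := UA_cs h a
  exact abs_le_of_sq_le_sq' (by linarith) (norm_nonneg a) |>.2

end Vale.Agent.P095G
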