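import Vale.Agent.P095G.Defs

open scoped Pointwise

namespace Vale.Agent.P095G

universe v

private theorem WF_poly (k : ℕ) (ε : ℝ) (hε : 0 < ε) :
    ∃ C : ℝ, ∀ n : ℕ, ((n : ℝ) + 1) ^ k ≤ C * Real.exp (ε * n) := by
  have ht0 : 0 < ε / ((k : ℝ) + 1) := by positivity
  obtain ⟨t, ht⟩ : ∃ t, t = ε / ((k : ℝ) + 1) := ⟨_, rfl⟩
  rw [← ht] at ht0
  refine ⟨Real.exp ε / t ^ k, fun n => ?_⟩
  have h1 : (n : ℝ) + 1 ≤ Real.exp (t * (n + 1)) / t := by
    rw [le_div_iff₀ ht0]
    have := Real.add_one_le_exp (t * ((n : ℝ) + 1))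
    linarith
  have h2 : (k : ℝ) * (t * (n + 1)) ≤ ε * (n + 1) := by
    have h3 : (k : ℝ) * t ≤ ε := by
      rw [ht, mul_div_assoc', div_le_iff₀ (by positivity)]
      nlinarith
    have h4 : (0 : ℝ) ≤ (n : ℝ) + 1 := by positivity
    calc (k : ℝ) * (t * (n + 1)) = (k * t) * (n + 1) := by ring
      _ ≤ ε * (n + 1) := mul_le_mul_of_nonneg_right h3 h4
  calc ((n : ℝ) + 1) ^ k ≤ (Real.exp (t * (n + 1)) / t) ^ k :=
        pow_le_pow_left₀ (by positivity) h1 k
    _ = Real.exp (k * (t * (n + 1))) / t ^ k := by rw [div_pow, ← Real.exp_nat_mul]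
    _ ≤ Real.exp (ε * (n + 1)) / t ^ k := by
        refine div_le_div_of_nonneg_right (Real.exp_le_exp.2 h2) (by positivity)
    _ = Real.exp ε / t ^ k * Real.exp (ε * n) := by
        rw [mul_add, mul_one, Real.exp_add]
        ring

private theorem WF_repr {G : Type v} [CommGroup G] [DecidableEq G] (K' : Finset G) :
    ∀ (n : ℕ) (x : G), x ∈ ((K' : Set G)) ^ n →
      ∃ m : G → ℕ, (∀ s, m s ≤ n) ∧ x = ∏ s ∈ K', s ^ (m s) := by
  intro n
  induction n with
  | zero =>
    intro x hx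
    rw [pow_zero, Set.mem_one] at hx
    refine ⟨fun _ => 0, fun _ => le_rfl, ?_⟩
    simp [hx]
  | succ n ih =>
    intro x hx
    rw [pow_succ, Set.mem_mul] at hx
    obtain ⟨y, hy, s, hs, rfl⟩ := hx
    obtain ⟨m, hm, hy'⟩ := ih y hy
    refine ⟨fun r => m r + if r = s then 1 else 0, fun r => ?_, ?_⟩
    · have := hm r
      dsimp only
      split_ifs <;> omega
    · simp only [pow_add, Finset.prod_mul_distrib]
      rw [← hy', Finset.prod_eq_single s]
      · simp
      · intro b _ hb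
        simp [hb]
      · intro hc
        exact absurd (Finset.mem_coe.1 hs) hc

/-- WF. finite groups -/
theorem locSubexp_of_finite {G : Type v} [Group G] [Finite G] : LocSubexp G := by
  intro K hK ε hε
  refine ⟨(Nat.card G : ℝ), fun n => ?_⟩
  have h1 : (K ^ n).ncard ≤ Nat.card G := by
    rw [← Set.ncard_univ]
    exact Set.ncard_le_ncard (Set.subset_univ _) (Set.toFinite _)
  have h2 : (1 : ℝ) ≤ Real.exp (ε * n) := Real.one_le_exp (by positivity)
  calc ((K ^ n).ncard : ℝ) ≤ (Nat.card G : ℝ) := by exact_mod_cast h1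
    _ = (Nat.card G : ℝ) * 1 := (mul_one _).symm
    _ ≤ (Nat.card G : ℝ) * Real.exp (ε * n) := mul_le_mul_of_nonneg_left h2 (Nat.cast_nonneg _)

/-- WC. commutative groups: `|K ^ n| ≤ (n+1)^|K|` -/
theorem locSubexp_of_comm {G : Type v} [CommGroup G] : LocSubexp G := by
  classical
  intro K hK ε hε
  obtain ⟨C, hC⟩ := WF_poly hK.toFinset.card ε hε
  refine ⟨C, fun n => le_trans ?_ (hC n)⟩
  have hsub : K ^ n ⊆ (fun m : (hK.toFinset → Fin (n + 1)) =>
      ∏ s : hK.toFinset, (s : G) ^ (m s : ℕ)) ''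
      Set.univ := by
    intro x hx
    have hx' : x ∈ ((hK.toFinset : Finset G) : Set G) ^ n := by
      rw [hK.coe_toFinset]
      exact hx
    obtain ⟨m, hm, hxm⟩ := WF_repr hK.toFinset n x hx'
    refine ⟨fun s => ⟨m s, Nat.lt_succ_of_le (hm s)⟩, Set.mem_univ _, ?_⟩
    rw [hxm]
    exact Finset.prod_coe_sort hK.toFinset (fun s => s ^ m s)
  have h1 := Set.ncard_le_ncard hsub (Set.toFinite _)
  have h2 := Set.ncard_image_le (f := fun m : (hK.toFinset → Fin (n + 1)) =>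
    ∏ s : hK.toFinset, (s : G) ^ (m s : ℕ)) (s := Set.univ) (Set.toFinite _)
  rw [Set.ncard_univ, Nat.card_eq_fintype_card, Fintype.card_fun, Fintype.card_fin,
    Fintype.card_coe] at h2
  have h3 := h1.trans h2
  exact_mod_cast h3

end Vale.Agent.P095G
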